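import Vale.Agent.P274.Basic
import Mathlib.Analysis.Calculus.MeanValue
import Mathlib.Analysis.Calculus.InverseFunctionTheorem.FDeriv

/-!
Elementary facts about holomorphic maps of several variables: continuity of the derivative and
the identity theorem.
-/

open Filter Metric Set Function Topology

namespace Vale.Agent.P274.Surface

variable {X Y : Type*} [NormedAddCommGroup X] [NormedSpace ℂ X] [FiniteDimensional ℂ X]
  [NormedAddCommGroup Y] [NormedSpace ℂ Y]

/-- The derivative of a holomorphic map is continuous. -/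
theorem continuousOn_fderiv {f : X → Y} {U : Set X} (hU : IsOpen U)
    (hf : DifferentiableOn ℂ f U) : ContinuousOn (fderiv ℂ f) U := by
  have : ProperSpace X := FiniteDimensional.proper ℂ X
  intro x hx
  obtain ⟨r, hr, hrU⟩ := Metric.nhds_basis_closedBall.mem_iff.1 (hU.mem_nhds hx)
  have hu : UniformContinuousOn f (closedBall x r) :=
    (isCompact_closedBall x r).uniformContinuousOn_of_continuous (hf.continuousOn.mono hrU)
  refine ContinuousAt.continuousWithinAt (Metric.continuousAt_iff.2 fun ε hε => ?_)
  obtain ⟨δ, hδ, hδ'⟩ := Metric.uniformContinuousOn_iff.1 hu (ε * r / 8) (by positivity)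
  refine ⟨min δ (r / 2), lt_min hδ (by positivity), fun {y} hy => ?_⟩
  set v := y - x with hv
  have hvn : ‖v‖ < min δ (r / 2) := by rwa [dist_eq_norm] at hy
  have hsub : MapsTo (fun w => w + v) (ball x (r / 2)) (closedBall x r) := by
    intro w hw
    rw [mem_ball, dist_eq_norm] at hw
    rw [mem_closedBall, dist_eq_norm, show w + v - x = (w - x) + v by abel]
    linarith [norm_add_le (w - x) v, min_le_right δ (r / 2)]
  have hb : ball x (r / 2) ⊆ closedBall x r :=
    (ball_subset_ball (by linarith)).trans ball_subset_closedBall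
  have hd : DifferentiableOn ℂ (fun w => f (w + v) - f w) (ball x (r / 2)) :=
    (hf.comp (differentiableOn_id.add_const v) (hsub.mono_right hrU)).sub (hf.mono (hb.trans hrU))
  have hpt : ∀ w ∈ ball x (r / 2), ‖f (w + v) - f w‖ ≤ ε * r / 8 := fun w hw => by
    rw [← dist_eq_norm]
    refine (hδ' _ (hsub hw) _ (hb hw) ?_).le
    rw [dist_eq_norm, add_sub_cancel_left]
    exact hvn.trans_le (min_le_left _ _)
  have hx2 : x ∈ ball x (r / 2) := mem_ball_self (by positivity)
  have hm : MapsTo (fun w => f (w + v) - f w) (ball x (r / 2))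
      (closedBall (f (x + v) - f x) (ε * r / 8 + ε * r / 8)) := fun w hw => by
    rw [mem_closedBall, dist_eq_norm]
    exact (norm_sub_le _ _).trans (add_le_add (hpt w hw) (hpt x hx2))
  have hle := Complex.norm_fderiv_le_div_of_mapsTo_ball hd hm (by positivity)
  have hxy : x + v = y := by rw [hv]; abel
  have hyU : y ∈ U := hrU (hxy ▸ hsub hx2)
  have h1 : HasFDerivAt (fun w => f (w + v)) (fderiv ℂ f y) x := by
    rw [hasFDerivAt_comp_add_right, hxy]
    exact ((hf y hyU).differentiableAt (hU.mem_nhds hyU)).hasFDerivAt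
  have h2 : HasFDerivAt f (fderiv ℂ f x) x :=
    ((hf x hx).differentiableAt (hU.mem_nhds hx)).hasFDerivAt
  have h3 : HasFDerivAt (fun w => f (w + v) - f w) (fderiv ℂ f y - fderiv ℂ f x) x := h1.sub h2
  rw [h3.fderiv] at hle
  rw [dist_eq_norm]
  calc _ ≤ (ε * r / 8 + ε * r / 8) / (r / 2) := hle
    _ = ε / 2 := by field_simp; ring
    _ < ε := by linarith

/-- A holomorphic map is strictly differentiable. -/
theorem hasStrictFDerivAt {f : X → Y} {U : Set X} (hU : IsOpen U) (hf : DifferentiableOn ℂ f U)
    {x : X} (hx : x ∈ U) : HasStrictFDerivAt f (fderiv ℂ f x) x :=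
  hasStrictFDerivAt_of_hasFDerivAt_of_continuousAt
    (eventually_of_mem (hU.mem_nhds hx) fun _ hy =>
      ((hf _ hy).differentiableAt (hU.mem_nhds hy)).hasFDerivAt)
    ((continuousOn_fderiv hU hf).continuousAt (hU.mem_nhds hx))

/-- The identity theorem. -/
theorem eqOn_of_eventuallyEq [CompleteSpace Y] {f g : X → Y} {U : Set X} (hU : IsOpen U)
    (hc : IsPreconnected U) (hf : DifferentiableOn ℂ f U) (hg : DifferentiableOn ℂ g U)
    {x : X} (hx : x ∈ U) (h : f =ᶠ[𝓝 x] g) : EqOn f g U := by
  set Z := {y | y ∈ U ∧ f =ᶠ[𝓝 y] g} with hZ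
  have hZo : IsOpen Z := by
    rw [hZ]
    exact hU.inter isOpen_setOfPred_eventually_nhds
  have hsub : U ⊆ Z := by
    refine hc.subset_of_closure_inter_subset hZo ⟨x, hx, hx, h⟩ ?_
    rintro y ⟨hy, hyU⟩
    obtain ⟨r, hr, hrU⟩ := Metric.isOpen_iff.1 hU y hyU
    obtain ⟨z, hzZ, hzd⟩ := Metric.mem_closure_iff.1 hy r hr
    have hzb : z ∈ ball y r := by rwa [mem_ball, dist_comm]
    refine ⟨hyU, eventually_of_mem (ball_mem_nhds y hr) fun w hw => ?_⟩
    -- restrict to the complex line through `z` and `w`
    set σ : ℂ → X := fun t => z + t • (w - z) with hσ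
    have hσd : Differentiable ℂ σ := (differentiable_id.smul_const (w - z)).const_add z
    set S := σ ⁻¹' ball y r with hS
    have hSo : IsOpen S := isOpen_ball.preimage hσd.continuous
    have hSc : IsPreconnected S := by
      refine Convex.isPreconnected ?_
      intro s hs t ht a b ha hb hab
      change σ (a • s + b • t) ∈ ball y r
      have : σ (a • s + b • t) = a • σ s + b • σ t := by
        simp only [hσ]
        generalize w - z = v
        rw [smul_add, smul_add, add_smul, smul_assoc, smul_assoc, add_add_add_comm, ← add_smul,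
          hab, one_smul]
      rw [this]
      exact convex_ball y r hs ht ha hb hab
    have h0 : (0 : ℂ) ∈ S := by simpa [hS, hσ] using hzb
    have han : ∀ φ : X → Y, DifferentiableOn ℂ φ U → AnalyticOnNhd ℂ (φ ∘ σ) S := fun φ hφ =>
      (hφ.comp hσd.differentiableOn (fun t ht => hrU ht)).analyticOnNhd hSo
    have heq := (han f hf).eqOn_of_preconnected_of_eventuallyEq (han g hg) hSc h0
      (hzZ.2.comp_tendsto (show Tendsto σ (𝓝 0) (𝓝 z) by
        simpa [hσ] using hσd.continuous.tendsto 0))
    have h1 : (1 : ℂ) ∈ S := by simpa [hS, hσ] using hw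
    simpa [hσ] using heq h1
  exact fun y hy => (hsub hy).2.self_of_nhds

end Vale.Agent.P274.Surface
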