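import Vale.Agent.P274.Surface.Flow
import Vale.Agent.P274.Semialg
import Mathlib.RingTheory.Polynomial.UniqueFactorization
import Mathlib.Analysis.Calculus.Deriv.Pi
import Mathlib.Topology.Algebra.MvPolynomial
import Mathlib.Algebra.Squarefree.Basic
import Mathlib.FieldTheory.Perfect
import Mathlib.LinearAlgebra.FiniteDimensional.Lemmas
import Mathlib.Algebra.MvPolynomial.Funext

/-!
Algebra of real polynomials on `ℂ²`.
-/

open Filter Metric Set Function Topology

namespace Vale.Agent.P274.Surface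

noncomputable section

open MvPolynomial (C X pderiv)

private def coordInv (x : Fin 4 → ℝ) : C2 := (⟨x 0, x 1⟩, ⟨x 2, x 3⟩)

private theorem coord_coordInv (x : Fin 4 → ℝ) : coord (coordInv x) = x := by
  funext a; fin_cases a <;> rfl

private theorem coordInv_coord (z : C2) : coordInv (coord z) = z := rfl

private theorem continuous_coordInv : Continuous coordInv := by
  have h : coordInv = fun x : Fin 4 → ℝ =>
      (((x 0 : ℝ) : ℂ) + (x 1 : ℝ) * Complex.I, ((x 2 : ℝ) : ℂ) + (x 3 : ℝ) * Complex.I) := by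
    funext x; exact Prod.ext (Complex.ext (by simp [coordInv]) (by simp [coordInv]))
      (Complex.ext (by simp [coordInv]) (by simp [coordInv]))
  rw [h]; fun_prop

private def coordL : C2 →L[ℝ] (Fin 4 → ℝ) :=
  ContinuousLinearMap.pi ![Complex.reCLM.comp (ContinuousLinearMap.fst ℝ ℂ ℂ),
    Complex.imCLM.comp (ContinuousLinearMap.fst ℝ ℂ ℂ),
    Complex.reCLM.comp (ContinuousLinearMap.snd ℝ ℂ ℂ),
    Complex.imCLM.comp (ContinuousLinearMap.snd ℝ ℂ ℂ)]

private theorem coordL_apply (z : C2) : coordL z = coord z := by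
  funext a; fin_cases a <;> rfl

private theorem hasFDerivAt_evalP (P : MvPolynomial (Fin 4) ℝ) (x : Fin 4 → ℝ) :
    HasFDerivAt (fun y : Fin 4 → ℝ => MvPolynomial.eval y P)
      (∑ a : Fin 4, MvPolynomial.eval x (pderiv a P) •
        ContinuousLinearMap.proj (R := ℝ) (φ := fun _ : Fin 4 => ℝ) a) x := by
  induction P using MvPolynomial.induction_on with
  | C a => simpa using hasFDerivAt_const a x
  | add p q hp hq =>
    simp only [map_add, add_smul, Finset.sum_add_distrib]
    exact hp.add hq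
  | mul_X p j hp =>
    simp only [map_mul, MvPolynomial.eval_X]
    refine (hp.mul (hasFDerivAt_apply j x)).congr_fderiv ?_
    ext v
    fin_cases j <;> simp [Fin.sum_univ_four, MvPolynomial.pderiv_X,
      Pi.single_apply] <;> ring

private theorem hasDerivAt_evalP_update (P : MvPolynomial (Fin 4) ℝ) (x : Fin 4 → ℝ) (i : Fin 4)
    (t : ℝ) :
    HasDerivAt (fun s => MvPolynomial.eval (update x i s) P)
      (MvPolynomial.eval (update x i t) (pderiv i P)) t := by
  refine ((hasFDerivAt_evalP P (update x i t)).comp_hasDerivAt t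
    (hasDerivAt_update x i t)).congr_deriv ?_
  simp [Pi.single_apply]

private theorem exists_pderiv_of_fderiv {R : MvPolynomial (Fin 4) ℝ} {q : C2}
    (hd : fderiv ℝ (pev R) q ≠ 0) : ∃ i, MvPolynomial.eval (coord q) (pderiv i R) ≠ 0 := by
  by_contra h
  push Not at h
  apply hd
  have hc : pev R = (fun y : Fin 4 → ℝ => MvPolynomial.eval y R) ∘ coordL := by
    funext z; simp [pev, coordL_apply]
  have h1 := hasFDerivAt_evalP R (coordL q)
  rw [coordL_apply] at h1
  simp only [h, zero_smul, Finset.sum_const_zero] at h1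
  rw [hc]
  refine (HasFDerivAt.comp q (by rw [coordL_apply]; exact h1) coordL.hasFDerivAt).fderiv.trans ?_
  simp

private theorem finSucc_pderiv (p : MvPolynomial (Fin 4) ℝ) :
    MvPolynomial.finSuccEquiv ℝ 3 (pderiv 0 p) =
      (MvPolynomial.finSuccEquiv ℝ 3 p).derivative := by
  induction p using MvPolynomial.induction_on with
  | C a => simp [MvPolynomial.finSuccEquiv_apply]
  | add p q hp hq => simp [hp, hq]
  | mul_X p j hp =>
    cases j using Fin.cases with
    | zero =>
      simp [hp, MvPolynomial.finSuccEquiv_X_zero]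
      ring
    | succ k =>
      simp [hp, MvPolynomial.finSuccEquiv_X_succ,
        MvPolynomial.pderiv_X_of_ne (Fin.succ_ne_zero k)]
      ring

private theorem pderiv_swap (i : Fin 4) (p : MvPolynomial (Fin 4) ℝ) :
    pderiv 0 (MvPolynomial.rename (Equiv.swap (0 : Fin 4) i) p) =
      MvPolynomial.rename (Equiv.swap (0 : Fin 4) i) (pderiv i p) := by
  have := MvPolynomial.pderiv_rename (Equiv.swap (0 : Fin 4) i).injective i p
  rwa [Equiv.swap_apply_right] at this

private theorem pderiv_comm {σ A : Type*} [CommRing A] (a b : σ) (p : MvPolynomial σ A) :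
    pderiv a (pderiv b p) = pderiv b (pderiv a p) := by
  classical
  induction p using MvPolynomial.induction_on with
  | C r => simp
  | add p q hp hq => simp [hp, hq]
  | mul_X p j hp =>
    simp only [MvPolynomial.pderiv_mul, map_add, MvPolynomial.pderiv_X, hp, Pi.single_apply]
    split_ifs <;> simp; ring

private theorem levi_identity {A : Type*} [CommRing A] {i d0 d1 d2 d3 h00 h01 h02 h03 h11 h12 h13
    h22 h23 h33 : A} (hI : i * i = -1) :
    (d2 - i * d3) * ((d2 + i * d3) * ((h00 - i * h01) + i * (h01 - i * h11)) -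
        (d0 + i * d1) * ((h02 - i * h12) + i * (h03 - i * h13))) -
      (d0 - i * d1) * ((d2 + i * d3) * ((h02 - i * h03) + i * (h12 - i * h13)) -
        (d0 + i * d1) * ((h22 - i * h23) + i * (h23 - i * h33))) =
      (h00 + h11) * (d2 * d2 + d3 * d3) + (h22 + h33) * (d0 * d0 + d1 * d1) -
        2 * ((h02 + h13) * (d2 * d0 + d3 * d1) - (h03 - h12) * (d2 * d1 - d3 * d0)) := by
  linear_combination (-d0*d0*h33 + 2*d0*d2*h13 + 2*d0*d3*h03 - 2*d0*d3*h12 - d1*d1*h22
    - d1*d1*h33 + d1*d1*h33*i*i - 2*d1*d2*h03 + 2*d1*d2*h12 + 2*d1*d3*h02 + 2*d1*d3*h13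
    - 2*d1*d3*h13*i*i - d2*d2*h11 - d3*d3*h00 - d3*d3*h11 + d3*d3*h11*i*i) * hI

private def idx {l : ℕ} (u : Fin 4 → Fin l) : Fin 4 →₀ ℕ :=
  Finsupp.equivFunOnFinite.symm fun a => (u a : ℕ)

private theorem idx_apply {l : ℕ} (u : Fin 4 → Fin l) (a : Fin 4) : idx u a = u a := by simp [idx]

private theorem idx_injective {l : ℕ} : Injective (idx : (Fin 4 → Fin l) → Fin 4 →₀ ℕ) :=
  fun x y h => funext fun a => Fin.ext (by simpa [idx_apply] using DFunLike.congr_fun h a)

/-- More monomial families than room modulo `Rc` give a relation. -/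
private theorem exists_relation {ι : Type*} [Fintype ι] {Rc : MvPolynomial (Fin 4) ℂ} (hRc : Rc ≠ 0)
    (mon : ι → MvPolynomial (Fin 4) ℂ) {k l : ℕ} (hmon : ∀ v, (mon v).totalDegree < k)
    (hl : Rc.totalDegree + l ≤ k) (hcount : k ^ 4 < Fintype.card ι + l ^ 4) :
    ∃ g : ι → ℂ, g ≠ 0 ∧ Rc ∣ ∑ v, g v • mon v := by
  classical
  set FB : ((ι → ℂ) × ((Fin 4 → Fin l) → ℂ)) →ₗ[ℂ] MvPolynomial (Fin 4) ℂ :=
    (Fintype.linearCombination ℂ mon).coprod ((LinearMap.mulLeft ℂ Rc).comp
      (Fintype.linearCombination ℂ fun u => MvPolynomial.monomial (idx u) 1)) with hFB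
  set L : ((ι → ℂ) × ((Fin 4 → Fin l) → ℂ)) →ₗ[ℂ] ((Fin 4 → Fin k) → ℂ) :=
    (LinearMap.pi fun s => MvPolynomial.lcoeff ℂ (idx s)).comp FB with hL
  have hFmem : ∀ p, FB p ∈ MvPolynomial.restrictDegree (Fin 4) ℂ (k - 1) := by
    intro p
    simp only [hFB, LinearMap.coprod_apply, LinearMap.comp_apply, Fintype.linearCombination_apply,
      map_sum, map_smul, LinearMap.mulLeft_apply]
    refine add_mem (sum_mem fun v _ => Submodule.smul_mem _ _ ?_)
      (sum_mem fun u _ => Submodule.smul_mem _ _ ?_)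
    · rw [MvPolynomial.mem_restrictDegree]
      intro s hs a
      have h1 : s a ≤ (mon v).totalDegree :=
        (MvPolynomial.monomial_le_degreeOf a hs).trans (MvPolynomial.degreeOf_le_totalDegree _ _)
      have := hmon v
      omega
    · rw [MvPolynomial.mem_restrictDegree]
      intro s hs a
      obtain ⟨r, hr, t, ht, rfl⟩ := Finset.mem_add.1 (MvPolynomial.support_mul _ _ hs)
      rw [Finset.mem_singleton.1 (MvPolynomial.support_monomial_subset ht), Finsupp.add_apply,
        idx_apply]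
      have h1 : r a ≤ Rc.totalDegree := (MvPolynomial.monomial_le_degreeOf a hr).trans
        (MvPolynomial.degreeOf_le_totalDegree _ _)
      have h2 := (u a).2
      omega
  have hker : L.ker ≠ ⊥ := by
    refine LinearMap.ker_ne_bot_of_finrank_lt ?_
    simpa [Module.finrank_prod] using hcount
  obtain ⟨p, hp, hp0⟩ := Submodule.exists_mem_ne_zero_of_ne_bot hker
  have hFp : FB p = 0 := by
    refine MvPolynomial.ext _ _ fun s => ?_
    rw [MvPolynomial.coeff_zero]
    by_contra hs
    have hb := (MvPolynomial.mem_restrictDegree _ _ _).1 (hFmem p) s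
      (MvPolynomial.mem_support_iff.2 hs)
    apply hs
    have hk : 0 < k := by
      rcases isEmpty_or_nonempty ι with h | ⟨⟨v⟩⟩
      · rw [Fintype.card_eq_zero, zero_add] at hcount
        have := Nat.pow_le_pow_left (show l ≤ k by omega) 4
        omega
      · have := hmon v; omega
    have := congrFun (LinearMap.mem_ker.1 hp) fun a => ⟨s a, by have := hb a; omega⟩
    simpa [hL, idx, MvPolynomial.lcoeff_apply] using this
  obtain ⟨g, h⟩ := p
  simp only [hFB, LinearMap.coprod_apply, LinearMap.comp_apply, Fintype.linearCombination_apply,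
    LinearMap.mulLeft_apply] at hFp
  refine ⟨g, ?_, ⟨-(∑ u, h u • MvPolynomial.monomial (idx u) (1 : ℂ)), by
    linear_combination hFp⟩⟩
  rintro rfl
  have hQ : ∑ u, h u • MvPolynomial.monomial (idx u) (1 : ℂ) = 0 := by simpa [hRc] using hFp
  apply hp0
  refine Prod.ext rfl (funext fun u => ?_)
  have := congrArg (MvPolynomial.coeff (idx u)) hQ
  rw [MvPolynomial.coeff_sum, Finset.sum_eq_single u] at this
  · simpa using this
  · intro x _ hx
    simp [idx_injective.ne hx]
  · simp

private theorem count_lt {m c n k : ℕ} (hc : 1 ≤ c)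
    (hn : n = 4 * m * (4 * c + 1) ^ 3 + 1) (hk : k = 4 * c * n + 1) :
    m ≤ k ∧ k ^ 4 < n * n * n * n + (k - m) ^ 4 := by
  have hm : m < n := by
    rw [hn]; nlinarith [Nat.one_le_pow 3 (4 * c + 1) (by omega)]
  have h3 : k ≤ (4 * c + 1) * n := by rw [hk]; nlinarith
  have hmk : m ≤ k := by rw [hk]; nlinarith
  refine ⟨hmk, ?_⟩
  set l := k - m
  have hkl : k = l + m := by omega
  have h1 : k ^ 4 = l ^ 4 + m * ((k + l) * (k ^ 2 + l ^ 2)) := by rw [hkl]; ring
  have h2 : (k + l) * (k ^ 2 + l ^ 2) ≤ (2 * k) * (2 * k ^ 2) :=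
    Nat.mul_le_mul (by omega) (by have := Nat.pow_le_pow_left (show l ≤ k by omega) 2; omega)
  calc k ^ 4 ≤ l ^ 4 + 4 * m * ((4 * c + 1) * n) ^ 3 := by
        have := Nat.mul_le_mul_left m h2
        have := Nat.mul_le_mul_left (4 * m) (Nat.pow_le_pow_left h3 3)
        rw [h1]; nlinarith
    _ = l ^ 4 + (4 * m * (4 * c + 1) ^ 3) * (n * n * n) := by ring
    _ < l ^ 4 + n * (n * n * n) := by
        have : 4 * m * (4 * c + 1) ^ 3 < n := by omega
        have h0 : 0 < n * n * n := Nat.mul_pos (Nat.mul_pos (by omega) (by omega)) (by omega)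
        have := Nat.mul_lt_mul_of_pos_right this h0
        omega
    _ = n * n * n * n + l ^ 4 := by ring

section flat

variable {A : Type*} [CommRing A] [Algebra ℂ A] (D : Derivation ℂ A A) (Rc V : A)

private def Flat (n : ℕ) (e : A) : Prop := Rc ∣ V * D e - (n : A) * (D V * e)

variable {D Rc V}

private theorem flat_zero {n : ℕ} : Flat D Rc V n 0 := by simp [Flat]

private theorem flat_of_D_eq_zero {e : A} (h : D e = 0) : Flat D Rc V 0 e := by simp [Flat, h]

private theorem flat_self : Flat D Rc V 1 V := ⟨0, by push_cast; ring⟩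

private theorem flat_mul {a b : ℕ} {e f : A} (he : Flat D Rc V a e) (hf : Flat D Rc V b f) :
    Flat D Rc V (a + b) (e * f) := by
  have h := dvd_add (hf.mul_left e) (he.mul_left f)
  simp only [Flat, D.leibniz, smul_eq_mul] at h ⊢
  convert h using 1
  push_cast; ring

private theorem flat_pow {a : ℕ} {e : A} (he : Flat D Rc V a e) (k : ℕ) :
    Flat D Rc V (k * a) (e ^ k) := by
  induction k with
  | zero => simpa using flat_of_D_eq_zero (Rc := Rc) (V := V) D.map_one_eq_zero
  | succ k ih => simpa [add_mul, pow_succ] using flat_mul ih he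

private theorem flat_sum {ι : Type*} {n : ℕ} (s : Finset ι) {e : ι → A}
    (h : ∀ u ∈ s, Flat D Rc V n (e u)) : Flat D Rc V n (∑ u ∈ s, e u) := by
  simp only [Flat, map_sum, Finset.mul_sum, ← Finset.sum_sub_distrib]
  exact Finset.dvd_sum h

private theorem flat_const {a : ℕ} {e : A} (he : Flat D Rc V a e) {r : A} (hr : D r = 0) :
    Flat D Rc V a (r * e) := by
  simpa using flat_mul (flat_of_D_eq_zero (Rc := Rc) (V := V) hr) he

/-- Differentiating a polynomial relation in `w` with flat coefficients. -/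
private theorem dvd_step (hR : D Rc = 0) {n : ℕ} {w : A} {Q : Polynomial A}
    (hQ : ∀ t, Flat D Rc V n (Q.coeff t)) {P : A} (h : Rc ∣ P * Q.eval w) :
    Rc ∣ P * P * V * D w * Q.derivative.eval w := by
  have key : Rc ∣ V * D (Q.eval w) - (n : A) * (D V * Q.eval w) -
      V * D w * Q.derivative.eval w := by
    rw [Polynomial.eval_eq_sum, Polynomial.derivative_eval, Polynomial.sum_def,
      Polynomial.sum_def]
    simp only [map_sum, Finset.mul_sum, ← Finset.sum_sub_distrib]
    refine Finset.dvd_sum fun t _ => ?_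
    have := (hQ t).mul_right (w ^ t)
    convert this using 1
    simp only [D.leibniz, D.leibniz_pow, smul_eq_mul, nsmul_eq_mul]
    ring
  obtain ⟨h', hh⟩ := h
  have hD : Rc ∣ D (P * Q.eval w) := ⟨D h', by rw [hh, D.leibniz, hR]; simp⟩
  have hPQ : Rc ∣ P * Q.eval w := ⟨h', hh⟩
  have := dvd_sub (dvd_sub (hD.mul_left (P * V)) (hPQ.mul_left (V * D P + (n : A) * D V * P)))
    (key.mul_left (P * P))
  convert this using 1
  simp only [D.leibniz, smul_eq_mul]
  ring

end flat

/-- Elimination of one variable. -/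
theorem exists_elim {R P : MvPolynomial (Fin 4) ℝ} (hR : Irreducible R) (hRP : ¬ R ∣ P) {i : Fin 4}
    (hi : MvPolynomial.pderiv i R ≠ 0) :
    ∃ c : MvPolynomial (Fin 4) ℝ, c ≠ 0 ∧ MvPolynomial.pderiv i c = 0 ∧
      ∀ x : Fin 4 → ℝ, MvPolynomial.eval x R = 0 → MvPolynomial.eval x P = 0 →
        MvPolynomial.eval x c = 0 := by
  classical
  set φ : MvPolynomial (Fin 4) ℝ ≃ₐ[ℝ] Polynomial (MvPolynomial (Fin 3) ℝ) :=
    (MvPolynomial.renameEquiv ℝ (Equiv.swap (0 : Fin 4) i)).trans
      (MvPolynomial.finSuccEquiv ℝ 3) with hφ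
  have hder : ∀ p, φ (pderiv i p) = (φ p).derivative := fun p => by
    simp only [hφ, AlgEquiv.trans_apply, MvPolynomial.renameEquiv_apply]
    rw [← finSucc_pderiv, pderiv_swap]
  set R' := φ R with hR'
  set P' := φ P with hP'
  have hirr : Irreducible R' := (MulEquiv.irreducible_iff φ).2 hR
  have hndvd : ¬ R' ∣ P' := fun h => hRP ((map_dvd_iff φ).1 h)
  have hdeg : R'.natDegree ≠ 0 := fun h => by
    apply hi
    apply φ.injective
    rw [hder, map_zero, ← hR', Polynomial.derivative_of_natDegree_zero h]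
  have hprim : R'.IsPrimitive := hirr.isPrimitive hdeg
  set A := MvPolynomial (Fin 3) ℝ
  set K := FractionRing A
  have hirrK : Irreducible (R'.map (algebraMap A K)) :=
    hprim.irreducible_iff_irreducible_map_fraction_map.1 hirr
  have hndK : ¬ R'.map (algebraMap A K) ∣ P'.map (algebraMap A K) :=
    fun h => hndvd (hprim.dvd_of_fraction_map_dvd_fraction_map h)
  obtain ⟨u, v, huv⟩ := hirrK.coprime_iff_not_dvd.2 hndK
  obtain ⟨c, hc0, hc⟩ := IsLocalization.integerNormalization_spec (nonZeroDivisors A) u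
  obtain ⟨d, hd0, hd⟩ := IsLocalization.integerNormalization_spec (nonZeroDivisors A) v
  rw [Algebra.smul_def, Polynomial.algebraMap_apply] at hc hd
  set u' := IsLocalization.integerNormalization (nonZeroDivisors A) u
  set v' := IsLocalization.integerNormalization (nonZeroDivisors A) v
  have key : Polynomial.C d * u' * R' + Polynomial.C c * v' * P' = Polynomial.C (c * d) := by
    apply Polynomial.map_injective (algebraMap A K) (IsFractionRing.injective _ _)
    simp only [Polynomial.map_add, Polynomial.map_mul, Polynomial.map_C, map_mul, hc, hd]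
    linear_combination (Polynomial.C (algebraMap A K c) *
      Polynomial.C (algebraMap A K d)) * huv
  have hcd : c * d ≠ 0 :=
    mul_ne_zero (mem_nonZeroDivisors_iff_ne_zero.1 hc0) (mem_nonZeroDivisors_iff_ne_zero.1 hd0)
  refine ⟨φ.symm (Polynomial.C (c * d)), ?_, ?_, fun x hx hx' => ?_⟩
  · intro h
    exact hcd (Polynomial.C_eq_zero.1 (φ.symm.injective (h.trans (map_zero _).symm)))
  · apply φ.injective
    rw [hder, AlgEquiv.apply_symm_apply, Polynomial.derivative_C, map_zero]
  · rw [← key]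
    simp [hR', hP', hx, hx']

/-- Near a regular zero of an irreducible polynomial there are zeros at which a given
polynomial it does not divide is nonzero. -/
theorem exists_zero_ne {R P : MvPolynomial (Fin 4) ℝ} (hR : Irreducible R) (hRP : ¬ R ∣ P)
    {q : C2} (hq : pev R q = 0) (hd : fderiv ℝ (pev R) q ≠ 0) {O : Set C2} (hO : O ∈ 𝓝 q) :
    ∃ y ∈ O, pev R y = 0 ∧ pev P y ≠ 0 := by
  obtain ⟨i, hi⟩ := exists_pderiv_of_fderiv hd
  by_contra hno
  push Not at hno
  obtain ⟨c, hc0, hci, hc⟩ := exists_elim hR hRP (i := i) (fun h => hi (by rw [h, map_zero]))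
  set x₀ := coord q with hx₀
  set a₀ := x₀ i
  have hO' : coordInv ⁻¹' O ∈ 𝓝 x₀ :=
    continuous_coordInv.continuousAt (by rw [hx₀, coordInv_coord]; exact hO)
  obtain ⟨ε, hε, hεO⟩ := Metric.mem_nhds_iff.1 hO'
  set f : ℝ → ℝ := fun t => MvPolynomial.eval (update x₀ i t) R
  set s := MvPolynomial.eval x₀ (pderiv i R)
  have hder : HasDerivAt f s a₀ := by
    have := hasDerivAt_evalP_update R x₀ i a₀
    rwa [update_eq_self] at this
  have hf0 : f a₀ = 0 := by
    show MvPolynomial.eval (update x₀ i (x₀ i)) R = 0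
    rw [update_eq_self]; exact hq
  have hs : ∀ᶠ t in 𝓝[≠] a₀, 0 < slope f a₀ t * s := by
    refine ((hasDerivAt_iff_tendsto_slope.1 hder).mul_const s).eventually_const_lt ?_
    exact mul_self_pos.2 hi
  obtain ⟨η, hη, hηs⟩ := Metric.eventually_nhds_iff.1 (eventually_nhdsWithin_iff.1 hs)
  set δ := min η ε / 2 with hδ
  have hδ0 : 0 < δ := by positivity
  have hδη : δ < η := by have := min_le_left η ε; rw [hδ]; linarith
  have hδε : δ < ε := by have := min_le_right η ε; rw [hδ]; linarith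
  have h1 := hηs (y := a₀ + δ) (by simp [abs_of_pos hδ0, hδη]) (by simp [hδ0.ne'])
  have h2 := hηs (y := a₀ - δ) (by simp [abs_of_pos hδ0, hδη]) (by simp [hδ0.ne'])
  simp only [slope_def_field, hf0, sub_zero, add_sub_cancel_left, sub_sub_cancel_left] at h1 h2
  rw [div_mul_eq_mul_div, div_pos_iff] at h1 h2
  have hneg : f (a₀ - δ) * f (a₀ + δ) < 0 := by
    rcases h1 with ⟨h1, -⟩ | ⟨-, h1'⟩
    · rcases h2 with ⟨-, h2'⟩ | ⟨h2, -⟩
      · linarith
      · have hs2 : 0 < s * s := mul_self_pos.2 hi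
        have : f (a₀ - δ) * f (a₀ + δ) * (s * s) < 0 := by nlinarith [mul_neg_of_neg_of_pos h2 h1]
        by_contra hge
        push Not at hge
        nlinarith [mul_nonneg hge hs2.le]
    · linarith
  have hcont : ∀ t, Continuous fun x : Fin 4 → ℝ => MvPolynomial.eval (update x i t) R := fun t =>
    (MvPolynomial.continuous_eval R).comp (continuous_id.update i continuous_const)
  have hsign : ∀ᶠ x in 𝓝 x₀, MvPolynomial.eval (update x i (a₀ - δ)) R *
      MvPolynomial.eval (update x i (a₀ + δ)) R < 0 :=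
    (((hcont _).mul (hcont _)).continuousAt).eventually_lt continuousAt_const hneg
  obtain ⟨r, hr, hrs⟩ := Metric.eventually_nhds_iff.1
    (hsign.and (Metric.eventually_nhds_iff.2 ⟨ε, hε, fun y hy => hy⟩ :
      ∀ᶠ x in 𝓝 x₀, dist x x₀ < ε))
  have hzero : ∀ x, dist x x₀ < r → MvPolynomial.eval x c = 0 := by
    intro x hx
    obtain ⟨hsg, hxε⟩ := hrs hx
    have hmem : (0 : ℝ) ∈ uIcc (MvPolynomial.eval (update x i (a₀ - δ)) R)
        (MvPolynomial.eval (update x i (a₀ + δ)) R) := by
      rcases mul_neg_iff.1 hsg with ⟨h, h'⟩ | ⟨h, h'⟩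
      · exact mem_uIcc.2 (Or.inr ⟨h'.le, h.le⟩)
      · exact mem_uIcc.2 (Or.inl ⟨h.le, h'.le⟩)
    obtain ⟨t, ht, ht0⟩ := intermediate_value_uIcc
      ((MvPolynomial.continuous_eval R).comp
        (continuous_const.update i continuous_id)).continuousOn hmem
    rw [uIcc_of_le (by linarith), mem_Icc] at ht
    have htO : update x i t ∈ coordInv ⁻¹' O := by
      refine hεO ((dist_pi_lt_iff hε).2 fun a => ?_)
      by_cases ha : a = i
      · subst ha
        rw [update_self, Real.dist_eq, abs_lt]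
        constructor <;> linarith
      · rw [update_of_ne ha]; exact (dist_pi_lt_iff hε).1 hxε a
    have hR0 : pev R (coordInv (update x i t)) = 0 := by
      simpa [pev, coord_coordInv] using ht0
    have hP0 := hno _ htO hR0
    rw [pev, coord_coordInv] at hP0 hR0
    have hd' : ∀ u, HasDerivAt (fun u => MvPolynomial.eval (update x i u) c) 0 u := fun u => by
      simpa [hci] using hasDerivAt_evalP_update c x i u
    have := is_const_of_deriv_eq_zero (fun u => (hd' u).differentiableAt)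
      (fun u => (hd' u).deriv) (x i) t
    rw [update_eq_self] at this
    rw [this]; exact hc _ hR0 hP0
  apply hc0
  refine MvPolynomial.funext_set (fun a => Ioo (x₀ a - r) (x₀ a + r))
    (fun a => Ioo_infinite (by linarith)) fun x hx => ?_
  rw [map_zero]
  refine hzero x ((dist_pi_lt_iff hr).2 fun a => ?_)
  have := hx a trivial
  rw [mem_Ioo] at this
  rw [Real.dist_eq, abs_lt]
  constructor <;> linarith

/-- A Levi flat irreducible hypersurface has algebraic slope. -/
theorem exists_slope_poly {R : MvPolynomial (Fin 4) ℝ} (hR : Irreducible R)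
    (hreg : ∃ q, pev R q = 0 ∧ fderiv ℝ (pev R) q ≠ 0) (hL : R ∣ leviPoly R) :
    ∃ S : Polynomial (MvPolynomial (Fin 2) ℂ), S ≠ 0 ∧
      ∀ z : C2, pev R z = 0 → dz2 R z ≠ 0 → (spec S z).IsRoot (-dz1 R z / dz2 R z) := by
  classical
  obtain ⟨q₀, hq₀, -⟩ := hreg
  set E : MvPolynomial (Fin 4) ℝ →+* MvPolynomial (Fin 4) ℂ :=
    MvPolynomial.map Complex.ofRealHom with hE
  have hEd : ∀ a f, pderiv a (E f) = E (pderiv a f) := fun a f => MvPolynomial.pderiv_map
  set i₁ : MvPolynomial (Fin 4) ℂ := C Complex.I with hi₁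
  have hI : i₁ * i₁ = -1 := by rw [hi₁, ← map_mul, Complex.I_mul_I, map_neg, map_one]
  have hdI : ∀ a : Fin 4, pderiv a i₁ = 0 := fun a => MvPolynomial.pderiv_C
  set d : Fin 4 → MvPolynomial (Fin 4) ℂ := fun a => E (pderiv a R) with hd
  set Rc := E R
  set A₁ := d 0 - i₁ * d 1 with hA₁
  set A₂ := d 2 - i₁ * d 3 with hA₂
  set B₁ := d 0 + i₁ * d 1 with hB₁
  set B₂ := d 2 + i₁ * d 3 with hB₂
  set D : Derivation ℂ (MvPolynomial (Fin 4) ℂ) (MvPolynomial (Fin 4) ℂ) :=
    B₂ • pderiv 0 + (B₂ * i₁) • pderiv 1 - B₁ • pderiv 2 - (B₁ * i₁) • pderiv 3 with hD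
  have hDf : ∀ f, D f = B₂ * (pderiv 0 f + i₁ * pderiv 1 f) -
      B₁ * (pderiv 2 f + i₁ * pderiv 3 f) := fun f => by
    simp only [hD, Derivation.sub_apply, Derivation.add_apply, Derivation.smul_apply, smul_eq_mul]
    ring
  set z₁ : MvPolynomial (Fin 4) ℂ := X 0 + i₁ * X 1 with hz₁
  set z₂ : MvPolynomial (Fin 4) ℂ := X 2 + i₁ * X 3 with hz₂
  set w : MvPolynomial (Fin 4) ℂ := X 0 - i₁ * X 1 with hw
  have hDz₁ : D z₁ = 0 := by
    simp [hDf, hz₁, hdI, MvPolynomial.pderiv_X, hI]
  have hDz₂ : D z₂ = 0 := by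
    simp [hDf, hz₂, hdI, MvPolynomial.pderiv_X, hI]
  have hDw : D w = 2 * B₂ := by
    simp [hDf, hw, hdI, MvPolynomial.pderiv_X, hI]
    ring
  have hDR : D Rc = 0 := by
    rw [hDf]; simp only [Rc, hEd]
    rw [hB₁, hB₂, hd]; ring
  have hflat₁ : Flat D Rc A₂ 1 (-A₁) := by
    have hsym : ∀ a b, E (pderiv a (pderiv b R)) = E (pderiv b (pderiv a R)) := fun a b => by
      rw [pderiv_comm]
    have key : A₂ * D A₁ - A₁ * D A₂ = E (leviPoly R) := by
      simp only [hDf, hA₁, hA₂, hB₁, hB₂, hd, leviPoly, map_sub, map_add, map_mul, map_ofNat,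
        MvPolynomial.pderiv_mul, hdI, hEd, hsym 1 0, hsym 2 0, hsym 3 0, hsym 2 1, hsym 3 1,
        hsym 3 2, zero_mul, zero_add]
      exact levi_identity hI
    obtain ⟨m, hm⟩ := hL
    refine ⟨-(E m), ?_⟩
    rw [hm, map_mul] at key
    rw [map_neg]
    push_cast
    linear_combination -key
  -- the dimension count
  set c := z₁.totalDegree + z₂.totalDegree + A₁.totalDegree + A₂.totalDegree + w.totalDegree + 1
  set m := Rc.totalDegree
  set n := 4 * m * (4 * c + 1) ^ 3 + 1 with hn
  set mon : ((Fin n × Fin n × Fin n) × Fin n) → MvPolynomial (Fin 4) ℂ := fun v =>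
    z₁ ^ (v.1.1 : ℕ) * z₂ ^ (v.1.2.1 : ℕ) *
      ((-A₁) ^ (v.1.2.2 : ℕ) * A₂ ^ (n - (v.1.2.2 : ℕ))) * w ^ (v.2 : ℕ) with hmon
  have hdeg : ∀ v, (mon v).totalDegree < 4 * c * n + 1 := fun v => by
    have hp : ∀ (f : MvPolynomial (Fin 4) ℂ) (e : ℕ), f.totalDegree ≤ c → e ≤ n →
        (f ^ e).totalDegree ≤ n * c := fun f e hf he =>
      (MvPolynomial.totalDegree_pow f e).trans (Nat.mul_le_mul he hf)
    have e1 := hp z₁ v.1.1 (by omega) v.1.1.2.le
    have e2 := hp z₂ v.1.2.1 (by omega) v.1.2.1.2.le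
    have e5 := hp w v.2 (by omega) v.2.2.le
    have e3 := (MvPolynomial.totalDegree_pow (-A₁) (v.1.2.2 : ℕ)).trans
      (Nat.mul_le_mul_left _ (show (-A₁).totalDegree ≤ c by
        rw [MvPolynomial.totalDegree_neg]; omega))
    have e4 := (MvPolynomial.totalDegree_pow A₂ (n - (v.1.2.2 : ℕ))).trans
      (Nat.mul_le_mul_left _ (show A₂.totalDegree ≤ c by omega))
    have e34 : (v.1.2.2 : ℕ) * c + (n - (v.1.2.2 : ℕ)) * c = n * c := by
      rw [← add_mul, Nat.add_sub_cancel' v.1.2.2.2.le]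
    have := MvPolynomial.totalDegree_mul
      (z₁ ^ (v.1.1 : ℕ) * z₂ ^ (v.1.2.1 : ℕ) *
        ((-A₁) ^ (v.1.2.2 : ℕ) * A₂ ^ (n - (v.1.2.2 : ℕ)))) (w ^ (v.2 : ℕ))
    have := MvPolynomial.totalDegree_mul (z₁ ^ (v.1.1 : ℕ) * z₂ ^ (v.1.2.1 : ℕ))
        ((-A₁) ^ (v.1.2.2 : ℕ) * A₂ ^ (n - (v.1.2.2 : ℕ)))
    have := MvPolynomial.totalDegree_mul (z₁ ^ (v.1.1 : ℕ)) (z₂ ^ (v.1.2.1 : ℕ))
    have := MvPolynomial.totalDegree_mul
        ((-A₁) ^ (v.1.2.2 : ℕ)) (A₂ ^ (n - (v.1.2.2 : ℕ)))
    have : 4 * c * n = n * c + n * c + n * c + n * c := by ring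
    simp only [hmon]
    omega
  have hRc0 : Rc ≠ 0 := (map_ne_zero_iff E
    (MvPolynomial.map_injective _ Complex.ofReal_injective)).2 hR.ne_zero
  obtain ⟨hmk, hcount⟩ := count_lt (m := m) (c := c) (by omega) hn rfl
  obtain ⟨g, hg, hdvd₀⟩ := exists_relation hRc0 mon hdeg (l := 4 * c * n + 1 - m) (by omega)
    (by simpa [mul_assoc] using hcount)
  -- the coefficient polynomials
  set e : Fin n → MvPolynomial (Fin 4) ℂ := fun t => ∑ u : Fin n × Fin n × Fin n,
    C (g (u, t)) * (z₁ ^ (u.1 : ℕ) * z₂ ^ (u.2.1 : ℕ) *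
      ((-A₁) ^ (u.2.2 : ℕ) * A₂ ^ (n - (u.2.2 : ℕ)))) with he
  set Q : Polynomial (MvPolynomial (Fin 4) ℂ) :=
    ∑ t : Fin n, Polynomial.monomial (t : ℕ) (e t) with hQ
  have hQw : Rc ∣ 1 * Q.eval w := by
    have hsum : Q.eval w = ∑ v, g v • mon v := by
      rw [Fintype.sum_prod_type_right (f := fun v => g v • mon v)]
      simp only [hQ, Polynomial.eval_finsetSum, Polynomial.eval_monomial, he, Finset.sum_mul,
        hmon, MvPolynomial.smul_eq_C_mul]
      exact Finset.sum_congr rfl fun t _ => Finset.sum_congr rfl fun u _ => by ring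
    rw [one_mul, hsum]
    exact hdvd₀
  have hflat : ∀ t, Flat D Rc A₂ n (e t) := fun t => flat_sum _ fun u _ => by
    have hDC : D (C (g (u, t))) = 0 := by simp [hDf]
    refine flat_const ?_ hDC
    have := flat_mul (flat_mul (flat_pow (flat_of_D_eq_zero hDz₁) u.1)
      (flat_pow (flat_of_D_eq_zero hDz₂) u.2.1))
      (flat_mul (flat_pow hflat₁ u.2.2) (flat_pow flat_self (n - (u.2.2 : ℕ))))
    simpa [Nat.add_sub_cancel' u.2.2.2.le] using this
  have hQflat : ∀ j, Flat D Rc A₂ n (Q.coeff j) := fun j => by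
    simp only [hQ, Polynomial.finsetSum_coeff, Polynomial.coeff_monomial]
    exact flat_sum _ fun t _ => by split_ifs; exacts [hflat t, flat_zero]
  have hiter : ∀ j, ∃ P : MvPolynomial (Fin 4) ℂ,
      (∀ x, MvPolynomial.eval x A₂ ≠ 0 → MvPolynomial.eval x B₂ ≠ 0 →
        MvPolynomial.eval x P ≠ 0) ∧ Rc ∣ P * (Polynomial.derivative^[j] Q).eval w := by
    intro j
    induction j with
    | zero => exact ⟨1, fun x _ _ => by simp, hQw⟩
    | succ j ih =>
      obtain ⟨P, hP, hdvd⟩ := ih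
      refine ⟨P * P * A₂ * D w, fun x h1 h2 => ?_, ?_⟩
      · simp [hDw, hP x h1 h2, h1, h2]
      · rw [Function.iterate_succ_apply']
        refine dvd_step hDR (n := n) (fun t => ?_) hdvd
        rw [Polynomial.coeff_iterate_derivative, nsmul_eq_mul]
        exact flat_const (hQflat _) (D.map_natCast _)
  -- the largest exponent of `w`
  set U := Finset.univ.filter fun t : Fin n => ∃ u, g (u, t) ≠ 0 with hU
  obtain ⟨⟨u₀, t₀⟩, ht₀⟩ := Function.ne_iff.1 hg
  have hUne : U.Nonempty := ⟨t₀, Finset.mem_filter.2 ⟨Finset.mem_univ _, u₀, ht₀⟩⟩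
  set T := U.max' hUne
  obtain ⟨-, u₁, hu₁⟩ := Finset.mem_filter.1 (U.max'_mem hUne)
  have hhigh : ∀ t, T < t → e t = 0 := fun t ht => by
    refine Finset.sum_eq_zero fun u _ => ?_
    have : g (u, t) = 0 := by
      by_contra h0
      exact (Finset.le_max' U t (Finset.mem_filter.2 ⟨Finset.mem_univ _, u, h0⟩)).not_gt ht
    simp [this]
  obtain ⟨P, hP, hdvd⟩ := hiter T
  have hderT : Polynomial.derivative^[(T : ℕ)] Q =
      Polynomial.C (((T : ℕ).factorial : MvPolynomial (Fin 4) ℂ) * e T) := by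
    ext1 j
    rw [Polynomial.coeff_iterate_derivative, Polynomial.coeff_C, hQ, Polynomial.finsetSum_coeff]
    simp only [Polynomial.coeff_monomial]
    rcases Nat.eq_zero_or_pos j with rfl | hj
    · rw [zero_add, Finset.sum_eq_single T (fun t _ ht => if_neg fun h => ht (Fin.ext h))
        (by simp)]
      simp [Nat.descFactorial_self]
    · rw [if_neg hj.ne', Finset.sum_eq_zero, smul_zero]
      intro t _
      split_ifs with h
      · exact hhigh t (Fin.lt_def.2 (by omega))
      · rfl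
  rw [hderT, Polynomial.eval_C] at hdvd
  obtain ⟨M, hM⟩ := hdvd
  refine ⟨∑ u : Fin n × Fin n × Fin n,
    Polynomial.C (C (g (u, T)) * X 0 ^ (u.1 : ℕ) * X 1 ^ (u.2.1 : ℕ)) *
      Polynomial.X ^ (u.2.2 : ℕ), ?_, ?_⟩
  · intro h0
    have hmonom : ∀ (a : ℂ) (i j : ℕ), C a * X (0 : Fin 2) ^ i * X 1 ^ j =
        MvPolynomial.monomial (Finsupp.single 0 i + Finsupp.single 1 j) a := fun a i j => by
      rw [MvPolynomial.C_mul_X_pow_eq_monomial, MvPolynomial.X_pow_eq_monomial,
        MvPolynomial.monomial_mul, mul_one]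
    have h1 := congrArg (fun S => S.coeff (u₁.2.2 : ℕ)) h0
    simp only [hmonom, Polynomial.finsetSum_coeff, Polynomial.coeff_C_mul, Polynomial.coeff_X_pow,
      Polynomial.coeff_zero, mul_ite, mul_one, mul_zero] at h1
    have h2 := congrArg (MvPolynomial.coeff
      (Finsupp.single (0 : Fin 2) (u₁.1 : ℕ) + Finsupp.single 1 (u₁.2.1 : ℕ))) h1
    rw [MvPolynomial.coeff_sum, Finset.sum_eq_single u₁] at h2
    · rw [if_pos rfl, MvPolynomial.coeff_monomial, if_pos rfl, MvPolynomial.coeff_zero] at h2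
      exact hu₁ h2
    · intro u _ hu
      split_ifs with h
      · rw [MvPolynomial.coeff_monomial]
        refine if_neg fun heq => hu ?_
        have ha := congrArg (fun f : Fin 2 →₀ ℕ => f 0) heq
        have hb := congrArg (fun f : Fin 2 →₀ ℕ => f 1) heq
        simp at ha hb
        exact Prod.ext (Fin.ext ha) (Prod.ext (Fin.ext hb) (Fin.ext h.symm))
      · simp
    · simp
  · intro z hz hz2
    set x : Fin 4 → ℂ := fun a => (coord z a : ℂ) with hx
    have hev : ∀ f, MvPolynomial.eval x (E f) = (pev f z : ℂ) := fun f => by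
      simp only [hE, pev, MvPolynomial.eval_map]
      induction f using MvPolynomial.induction_on with
      | C a => simp
      | add a b ha hb => simp [ha, hb]
      | mul_X a b ha =>
        simp only [MvPolynomial.eval₂_mul, MvPolynomial.eval₂_X, map_mul, MvPolynomial.eval_X,
          ha, Complex.ofReal_mul]
        rfl
    have hA₁x : MvPolynomial.eval x A₁ = 2 * dz1 R z := by
      simp [hA₁, hd, hi₁, hev, dz1]; ring
    have hA₂x : MvPolynomial.eval x A₂ = 2 * dz2 R z := by
      simp [hA₂, hd, hi₁, hev, dz2]; ring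
    have h2 : MvPolynomial.eval x A₂ ≠ 0 := by simp [hA₂x, hz2]
    have h2' : MvPolynomial.eval x B₂ ≠ 0 := by
      intro h0
      apply hz2
      simp [hB₂, hd, hi₁, hev, Complex.ext_iff] at h0
      simp [dz2, h0.1, h0.2]
    have hR0 : MvPolynomial.eval x Rc = 0 := by simp [Rc, hev, hz]
    have heT : MvPolynomial.eval x (e T) = 0 := by
      have := congrArg (MvPolynomial.eval x) hM
      simp only [map_mul, hR0, zero_mul, map_natCast, mul_eq_zero, hP x h2 h2', false_or] at this
      exact this.resolve_left (Nat.cast_ne_zero.2 (Nat.factorial_ne_zero _))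
    have hz₁x : MvPolynomial.eval x z₁ = z.1 := by
      simp [hz₁, hi₁, hx, coord, Complex.ext_iff]
    have hz₂x : MvPolynomial.eval x z₂ = z.2 := by
      simp [hz₂, hi₁, hx, coord, Complex.ext_iff]
    set σ := -dz1 R z / dz2 R z
    have hσ : ∀ s ≤ n, (MvPolynomial.eval x A₂) ^ n * σ ^ s =
        (-MvPolynomial.eval x A₁) ^ s * (MvPolynomial.eval x A₂) ^ (n - s) := fun s hs => by
      have : -MvPolynomial.eval x A₁ = σ * MvPolynomial.eval x A₂ := by
        rw [hA₁x, hA₂x]; simp only [σ]; field_simp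
      rw [this, mul_pow, mul_assoc, ← pow_add, Nat.add_sub_cancel' hs]
      ring
    refine (mul_eq_zero.1 ?_).resolve_left (pow_ne_zero n h2)
    simp only [spec, Polynomial.map_sum, Polynomial.map_mul, Polynomial.map_C, Polynomial.map_pow,
      Polynomial.map_X, Polynomial.eval_finsetSum, Polynomial.eval_mul, Polynomial.eval_C,
      Polynomial.eval_pow, Polynomial.eval_X, Finset.mul_sum, map_mul, map_pow,
      MvPolynomial.eval_C, MvPolynomial.eval_X]
    rw [← heT]
    simp only [he, map_sum, map_mul, map_pow, map_neg, MvPolynomial.eval_C, hz₁x, hz₂x]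
    refine Finset.sum_congr rfl fun u _ => ?_
    rw [← hσ (u.2.2 : ℕ) u.2.2.2.le]
    simp
    ring

/-- One polynomial for a finite family of slope equations, squarefree outside the zero set of a
nonzero polynomial. -/
theorem exists_squarefree (F : Finset (Polynomial (MvPolynomial (Fin 2) ℂ)))
    (hF : ∀ S ∈ F, S ≠ 0) :
    ∃ (S : Polynomial (MvPolynomial (Fin 2) ℂ)) (Q : MvPolynomial (Fin 2) ℂ), Q ≠ 0 ∧
      ∀ y : C2, MvPolynomial.eval ![y.1, y.2] Q ≠ 0 →
        MvPolynomial.eval ![y.1, y.2] S.leadingCoeff ≠ 0 ∧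
        (∀ s, (spec S y).IsRoot s → (spec S y).derivative.eval s ≠ 0) ∧
        ∀ T ∈ F, ∀ s, (spec T y).IsRoot s → (spec S y).IsRoot s := by
  classical
  set A := MvPolynomial (Fin 2) ℂ
  set K := FractionRing A
  set ι := algebraMap A K
  have hι : Function.Injective ι := IsFractionRing.injective _ _
  set f := ∏ T ∈ F, T with hf
  have hf0 : f ≠ 0 := Finset.prod_ne_zero_iff.2 hF
  have hfK : f.map ι ≠ 0 := (Polynomial.map_ne_zero_iff hι).2 hf0
  obtain ⟨s, N, hsq, -, hdvd⟩ := exists_squarefree_dvd_pow_of_ne_zero hfK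
  have : CharZero K := charZero_of_injective_algebraMap (R := A) hι
  obtain ⟨c₀, hc₀, hc₀'⟩ := IsLocalization.integerNormalization_spec (nonZeroDivisors A) s
  rw [Algebra.smul_def, Polynomial.algebraMap_apply] at hc₀'
  set S := IsLocalization.integerNormalization (nonZeroDivisors A) s
  have hc₀K : IsUnit (Polynomial.C (ι c₀)) := Polynomial.isUnit_C.2
    ((map_ne_zero_iff ι hι).2 (mem_nonZeroDivisors_iff_ne_zero.1 hc₀)).isUnit
  have hsep : (S.map ι).Separable := by
    rw [show S.map ι = Polynomial.C (ι c₀) * s from hc₀']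
    exact Polynomial.Separable.unit_mul hc₀K (PerfectField.separable_iff_squarefree.2 hsq)
  obtain ⟨q, hq⟩ := hdvd
  obtain ⟨q', hq'⟩ : f.map ι ∣ (S.map ι) ^ N :=
    ⟨Polynomial.C (ι c₀) ^ N * q, by
      rw [show S.map ι = Polynomial.C (ι c₀) * s from hc₀', mul_pow, hq]; ring⟩
  obtain ⟨u, v, huv⟩ := hsep
  rw [Polynomial.derivative_map] at huv
  obtain ⟨a, ha, ha'⟩ := IsLocalization.integerNormalization_spec (nonZeroDivisors A) u
  obtain ⟨a₂, ha₂, ha₂'⟩ := IsLocalization.integerNormalization_spec (nonZeroDivisors A) v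
  obtain ⟨b, hb, hb'⟩ := IsLocalization.integerNormalization_spec (nonZeroDivisors A) q'
  rw [Algebra.smul_def, Polynomial.algebraMap_apply] at ha' ha₂' hb'
  set u' := IsLocalization.integerNormalization (nonZeroDivisors A) u
  set v' := IsLocalization.integerNormalization (nonZeroDivisors A) v
  set r := IsLocalization.integerNormalization (nonZeroDivisors A) q'
  have key : Polynomial.C a₂ * u' * S + Polynomial.C a * v' * Polynomial.derivative S =
      Polynomial.C (a * a₂) := by
    apply Polynomial.map_injective ι hι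
    simp only [ι, Polynomial.map_add, Polynomial.map_mul, Polynomial.map_C, map_mul, ha', ha₂']
    linear_combination (Polynomial.C (algebraMap A K a) *
      Polynomial.C (algebraMap A K a₂)) * huv
  have key₂ : Polynomial.C b * S ^ N = f * r := by
    apply Polynomial.map_injective ι hι
    simp only [ι, Polynomial.map_mul, Polynomial.map_C, Polynomial.map_pow, hb']
    linear_combination (Polynomial.C (algebraMap A K b)) * hq'
  have hS0 : S ≠ 0 := fun h => by
    rw [h, Polynomial.map_zero] at huv hq'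
    simp at huv
  refine ⟨S, a * a₂ * b * S.leadingCoeff, mul_ne_zero (mul_ne_zero (mul_ne_zero
    (mem_nonZeroDivisors_iff_ne_zero.1 ha) (mem_nonZeroDivisors_iff_ne_zero.1 ha₂))
    (mem_nonZeroDivisors_iff_ne_zero.1 hb)) (Polynomial.leadingCoeff_ne_zero.2 hS0),
    fun y hy => ?_⟩
  simp only [map_mul, mul_ne_zero_iff] at hy
  obtain ⟨⟨⟨hay, hay₂⟩, hby⟩, hly⟩ := hy
  set ev := MvPolynomial.eval ![y.1, y.2]
  refine ⟨hly, fun t ht h0 => ?_, fun T hT t ht => ?_⟩
  · have := congrArg (fun p => (p.map ev).eval t) key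
    simp only [Polynomial.map_add, Polynomial.map_mul, Polynomial.map_C, Polynomial.eval_add,
      Polynomial.eval_mul, Polynomial.eval_C, ← Polynomial.derivative_map, map_mul] at this
    simp only [spec, Polynomial.IsRoot.def] at ht h0
    rw [ht, h0] at this
    simp [hay, hay₂] at this
  · have hTf : (f.map ev).eval t = 0 := by
      obtain ⟨T', hT'⟩ := Finset.dvd_prod_of_mem (fun T => T) hT
      have ht' : (T.map ev).eval t = 0 := ht
      rw [show f = T * T' from hT', Polynomial.map_mul, Polynomial.eval_mul, ht', zero_mul]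
    have := congrArg (fun p => (p.map ev).eval t) key₂
    simp only [Polynomial.map_mul, Polynomial.map_C, Polynomial.map_pow, Polynomial.eval_mul,
      Polynomial.eval_C, Polynomial.eval_pow, hTf, zero_mul, mul_eq_zero] at this
    exact (pow_eq_zero_iff' .. |>.1 (this.resolve_left hby)).1

/-- A regular structure of a plane algebraic curve. -/
theorem exists_curve_data {P : MvPolynomial (Fin 2) ℝ} (hP : P ≠ 0) :
    ∃ X : Set ℂ, X.Finite ∧ ∀ b : ℂ, P274.pev P b = 0 → b ∉ X →
      ∃ ρ : ℂ → ℝ, ContDiff ℝ 1 ρ ∧ ρ b = 0 ∧ fderiv ℝ ρ b ≠ 0 ∧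
        ∀ᶠ u in 𝓝 b, (P274.pev P u = 0 ↔ ρ u = 0) := by
  classical
  set facs := (UniqueFactorizationMonoid.factors P).toFinset with hfacs
  have hirr : ∀ r ∈ facs, Irreducible r := fun r hr =>
    UniqueFactorizationMonoid.irreducible_of_factor r (Multiset.mem_toFinset.1 hr)
  choose di hdi hdi' using fun r : facs => exists_pderiv_ne_zero (hirr r.1 r.2)
  set A : facs → Set ℂ := fun r =>
    {z | P274.pev r.1 z = 0 ∧ P274.pev (pderiv (di r) r.1) z = 0}
  set B : facs × facs → Set ℂ := fun q =>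
    {z | ¬ q.1.1 ∣ q.2.1 ∧ P274.pev q.1.1 z = 0 ∧ P274.pev q.2.1 z = 0}
  have hA : ∀ r, (A r).Finite := fun r => finite_common (hirr r.1 r.2) (hdi' r)
  have hB : ∀ q, (B q).Finite := fun q => by
    by_cases h : q.1.1 ∣ q.2.1
    · exact Set.finite_empty.subset fun z hz => absurd h hz.1
    · exact (finite_common (hirr q.1.1 q.1.2) h).subset fun z hz => hz.2
  refine ⟨(⋃ r, A r) ∪ ⋃ q, B q, (Set.finite_iUnion hA).union (Set.finite_iUnion hB),
    fun b hb hbX => ?_⟩
  obtain ⟨v, hv⟩ := UniqueFactorizationMonoid.factors_prod hP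
  obtain ⟨a, ha, haC⟩ := MvPolynomial.isUnit_iff_eq_C_of_isReduced.1 v.isUnit
  have hPiff : ∀ u, P274.pev P u = 0 ↔ ∃ r ∈ facs, P274.pev r u = 0 := fun u => by
    rw [← hv, haC]
    simp [P274.pev, hfacs, map_multiset_prod, ha.ne_zero]
  obtain ⟨r₀, hr₀, hr₀b⟩ := (hPiff b).1 hb
  set R : facs := ⟨r₀, hr₀⟩
  have hdR : P274.pev (pderiv (di R) r₀) b ≠ 0 := fun h0 =>
    hbX (Or.inl (mem_iUnion.2 ⟨R, hr₀b, h0⟩))
  have hother : ∀ r ∈ facs, ¬ Associated r₀ r → P274.pev r b ≠ 0 := fun r hr hn h0 =>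
    hbX (Or.inr (mem_iUnion.2 ⟨(R, ⟨r, hr⟩),
      fun h => hn ((hirr r₀ hr₀).associated_of_dvd (hirr r hr) h), hr₀b, h0⟩))
  refine ⟨P274.pev r₀, contDiff_pev r₀, hr₀b, fderiv_pev_ne_zero hdR, ?_⟩
  have hev : ∀ᶠ u in 𝓝 b, ∀ r ∈ facs, ¬ Associated r₀ r → P274.pev r u ≠ 0 :=
    (eventually_all_finset facs).2 fun r hr => by
      by_cases hn : Associated r₀ r
      · exact Eventually.of_forall fun u h => absurd hn h
      · exact ((contDiff_pev r).continuous.continuousAt.eventually_ne (hother r hr hn)).mono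
          fun u hu _ => hu
  filter_upwards [hev] with u hu
  rw [hPiff]
  refine ⟨fun ⟨r, hr, hru⟩ => ?_, fun h => ⟨r₀, hr₀, h⟩⟩
  obtain ⟨w, hw⟩ : Associated r₀ r := by_contra fun hn => hu r hr hn hru
  obtain ⟨t, ht, htC⟩ := MvPolynomial.isUnit_iff_eq_C_of_isReduced.1 w.isUnit
  rw [← hw, htC] at hru
  simpa [P274.pev, ht.ne_zero] using hru

end

end Vale.Agent.P274.Surface
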