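import Vale.Agent.P274.Surface.Corner.Generic

/-!
A corner on a leaf that leaves the domain.
-/

open Filter Metric Set Function Topology Complex

namespace Vale.Agent.P274.Surface

noncomputable section

/-- Exchange of the two chart coordinates. -/
def HChart.swap (c : HChart) : HChart where
  e := c.e.transHomeomorph (Homeomorph.prodComm ℂ ℂ)
  diff := c.diff.snd.prodMk c.diff.fst
  diff_symm := c.diff_symm.comp (by fun_prop : DifferentiableOn ℂ (fun p : C2 => (p.2, p.1)) _)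
    fun _ hp => hp

theorem Sys.exists_corner (Ω : Sys) (W : Web Ω.U) : Nonempty (CornerPt Ω.U) := by
  classical
  obtain ⟨j, Λ, ρ, x, h, hside, hdich⟩ := W.exists_generic
  obtain ⟨σ, q, hqj, hq, hinj, hord⟩ := h.exists_order
  set Act := Λ.filter fun l => ∀ᶠ y in 𝓝 x, y ∈ W.piece j (ρ j) → y ∈ closure (W.wall l)
  have hact : ∀ l ∈ Act, ∀ᶠ y in 𝓝 x, y ∈ W.piece j (ρ j) → y ∈ closure (W.wall l) :=
    fun l hl => (Finset.mem_filter.1 hl).2
  have hfam : ∀ᶠ y in 𝓝 x, ∀ l, (l ∈ Λ → (W.f l y ∈ W.C ↔ ρ l (W.f l y) = 0)) ∧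
      (l ≠ W.i₀ → l ∉ Λ → W.f l y ∉ W.C) ∧ (l ∈ Λ → l ∉ Act → y ∉ W.wall l) := by
    refine eventually_all.2 fun l => ?_
    have hc : ContinuousAt (W.f l) x := W.continuousAt_f h.mem
    by_cases hl : l ∈ Λ
    · by_cases ha : l ∈ Act
      · exact (hc.eventually (h.C_eq l hl)).mono fun y hy =>
          ⟨fun _ => hy, fun _ h' => absurd hl h', fun _ h' => absurd ha h'⟩
      · have hx : x ∉ closure (W.wall l) :=
          (hdich l hl).resolve_left fun hs => ha (Finset.mem_filter.2 ⟨hl, hs⟩)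
        exact ((hc.eventually (h.C_eq l hl)).and
          (isClosed_closure.isOpen_compl.eventually_mem hx)).mono fun y hy =>
          ⟨fun _ => hy.1, fun _ h' => absurd hl h', fun _ _ h' => hy.2 (subset_closure h')⟩
    · by_cases hl0 : l = W.i₀
      · exact Eventually.of_forall fun y =>
          ⟨fun h' => absurd h' hl, fun h' => absurd hl0 h', fun h' => absurd h' hl⟩
      · exact (hc.eventually (W.isClosed_C.isOpen_compl.eventually_mem (h.out l hl0 hl))).mono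
          fun y hy => ⟨fun h' => absurd h' hl, fun _ _ => hy, fun h' => absurd h' hl⟩
  -- the frontier off the face lies on active walls
  have hfree : ∀ᶠ y in 𝓝 x, y ∈ W.chart.e.source → y ∈ frontier Ω.U →
      0 < W.ρ₀ (W.f₀ y) → ∃ l ∈ Act, ρ l (W.f l y) = 0 := by
    filter_upwards [hfam] with y hy hys hyf hpos
    obtain ⟨l, hl⟩ := W.cover y ⟨hyf, W.source_sub hys⟩
    have hl0 : l ≠ W.i₀ := by
      rintro rfl
      exact hpos.ne' (((W.C_eq _ (W.f₀_mem hys).1).1).1 hl)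
    have hlΛ : l ∈ Λ := by_contra fun hn => (hy l).2.1 hl0 hn hl
    exact ⟨l, by_contra fun hn => (hy l).2.2 hlΛ hn ⟨hyf, hpos, hl⟩, ((hy l).1 hlΛ).1 hl⟩
  rcases Act.eq_empty_or_nonempty with hempty | hne
  · -- no active wall: the point would be filled
    exfalso
    obtain ⟨K⟩ := W.exists_coords (h.ne j h.j_mem) h.mem (h.contDiff j h.j_mem) h.mem_piece.1
      h.mem_piece.2 (h.regular j h.j_mem)
    have hev : ∀ᶠ v in 𝓝 (((0 : ℂ), (0 : ℂ)) : C2), v ∈ K.P.target ∧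
        ((K.P.symm v ∈ W.chart.e.source → K.P.symm v ∈ frontier Ω.U →
            0 < W.ρ₀ (W.f₀ (K.P.symm v)) → ∃ l ∈ Act, ρ l (W.f l (K.P.symm v)) = 0) ∧
          (W.ρ₀ (W.f₀ (K.P.symm v)) = 0 → 0 < ρ j (W.f j (K.P.symm v)) →
            K.P.symm v ∈ W.good)) :=
      (K.P.open_target.eventually_mem K.zero_mem).and
        ((K.P.symm.continuousAt K.zero_mem).eventually (p := fun y =>
          (y ∈ W.chart.e.source → y ∈ frontier Ω.U →
            0 < W.ρ₀ (W.f₀ y) → ∃ l ∈ Act, ρ l (W.f l y) = 0) ∧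
          (W.ρ₀ (W.f₀ y) = 0 → 0 < ρ j (W.f j y) → y ∈ W.good))
          (by rw [K.symm_zero]; exact hfree.and hside))
    obtain ⟨O₁, hO₁, O₂, hO₂, hO⟩ := mem_nhds_prod_iff.1 hev
    obtain ⟨s, hs, hsO⟩ := exists_sqr_subset (inter_mem hO₁ hO₂)
    have hbox : ∀ z ∈ sqr s, ∀ w ∈ sqr s, (z, w) ∈ K.P.target ∧
        W.ρ₀ (W.f₀ (K.P.symm (z, w))) = z.re ∧
        (K.P.symm (z, w) ∈ frontier Ω.U → ¬0 < z.re) ∧
        (z.re = 0 → 0 < w.re → K.P.symm (z, w) ∈ W.good) := by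
      intro z hz w hw
      obtain ⟨h1, h2, h3⟩ := hO (mk_mem_prod (hsO hz).1 (hsO hw).2)
      have hs' := K.P.map_target h1
      have e1 : W.ρ₀ (W.f₀ (K.P.symm (z, w))) = z.re := by rw [← K.re_fst hs', K.P.right_inv h1]
      have e2 : ρ j (W.f j (K.P.symm (z, w))) = w.re := by rw [← K.re_snd hs', K.P.right_inv h1]
      refine ⟨h1, e1, fun hf hp => ?_, fun a b => h3 (e1.trans a) (b.trans_eq e2.symm)⟩
      obtain ⟨l, hl, -⟩ := h2 (K.source_sub hs') hf (by rw [e1]; exact hp)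
      simp [hempty] at hl
    have hc : ∀ v ∈ sqr s ×ˢ sqr s, ContinuousAt K.P.symm v := fun v hv =>
      K.P.symm.continuousAt (hbox _ hv.1 _ hv.2).1
    set T := K.P.symm '' ((sqr s ∩ {z | 0 < z.re}) ×ˢ sqr s)
    have hTU : T ⊆ Ω.U := by
      refine subset_of_frontier_free Ω.isOpen_U
        (((convex_sqr_pos s).isPreconnected.prod (convex_sqr s).isPreconnected).image _
          fun v hv => (hc v ⟨hv.1.1, hv.2⟩).continuousWithinAt) ?_ ?_
      · rintro _ ⟨⟨z, w⟩, ⟨⟨hz, hzp⟩, hw⟩, rfl⟩ hf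
        exact (hbox z hz w hw).2.2.1 hf hzp
      · have hw : ((s / 2 : ℝ) : ℂ) ∈ sqr s :=
          ⟨by simp [abs_of_pos (half_pos hs)]; linarith, by simpa using hs⟩
        have hg := (hbox 0 (zero_mem_sqr hs) _ hw).2.2.2 (by simp) (by simpa using half_pos hs)
        have hlim : Tendsto (fun δ : ℝ => K.P.symm ((δ : ℂ), ((s / 2 : ℝ) : ℂ))) (𝓝 0)
            (𝓝 (K.P.symm ((0 : ℂ), ((s / 2 : ℝ) : ℂ)))) :=
          (hc _ ⟨zero_mem_sqr hs, hw⟩).tendsto.comp
            ((Complex.continuous_ofReal.tendsto' 0 0 (by simp)).prodMk_nhds tendsto_const_nhds)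
        obtain ⟨δ, ⟨hδ, hδs⟩, hδg⟩ := (((eventually_mem_nhdsWithin (s := Ioi (0 : ℝ)) (a := 0)).and
          (nhdsWithin_le_nhds (Iio_mem_nhds hs))).and
            (nhdsWithin_le_nhds (hlim.eventually hg))).exists
        have hδ' : (0 : ℝ) < δ := hδ
        have hz : (δ : ℂ) ∈ sqr s := ⟨by simpa [abs_of_pos hδ'] using hδs, by simpa using hs⟩
        refine ⟨_, mem_image_of_mem _ (mk_mem_prod ⟨hz, by simpa using hδ'⟩ hw), hδg.1 ?_⟩
        rw [(hbox _ hz _ hw).2.1]; simpa using hδ'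
    -- the face is in the frontier
    have hface : ∀ z ∈ sqr s, z.re = 0 → ∀ w ∈ sqr s, K.P.symm (z, w) ∈ frontier Ω.U := by
      intro z hz hz0 w₁ hw₁
      set b := K.F₀.φ.symm z
      have hzt : z ∈ K.F₀.φ.target := (K.f₀_symm (hbox z hz w₁ hw₁).1).1
      have hwt : sqr s ⊆ K.F.φ.target := fun w hw => (K.f_symm (hbox z hz w hw).1).1
      set D := K.F.φ.symm '' sqr s
      have hDo : IsOpen D := K.F.φ.symm.isOpen_image_of_subset_source (isOpen_sqr s) hwt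
      have hDc : IsPreconnected D := (convex_sqr s).isPreconnected.image _
        fun w hw => (K.F.φ.symm.continuousAt (hwt hw)).continuousWithinAt
      have htar : ∀ t ∈ D, (b, t) ∈ K.c.e.target := by
        rintro _ ⟨w, hw, rfl⟩
        exact (hbox z hz w hw).1.2
      have hopen := Ω.leaf_open K.c ((W.contDiff₀.differentiable (by norm_num)) b)
        (by rw [K.F₀.symm_re hzt]; exact hz0) (K.F₀.fderiv_ne (K.F₀.φ.map_target hzt)) hDo htar ?_
      · have hw₂ : ((s / 2 : ℝ) : ℂ) ∈ sqr s :=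
          ⟨by simp [abs_of_pos (half_pos hs)]; linarith, by simpa using hs⟩
        have hg : (K.P.symm (z, ((s / 2 : ℝ) : ℂ))) ∈ W.good :=
          (hbox z hz _ hw₂).2.2.2 hz0 (by simpa using half_pos hs)
        have hsub := eq_of_relclopen hDc hopen ?_ ⟨_, mem_image_of_mem _ hw₂,
          mem_image_of_mem _ hw₂, hg.self_of_nhds.2 (by rw [(hbox z hz _ hw₂).2.1]; exact hz0)⟩
        · exact (hsub (mem_image_of_mem _ hw₁)).2
        rintro t ⟨htA, ht⟩
        refine ⟨ht, ?_⟩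
        have hct : ContinuousAt (fun t => K.c.e.symm (b, t)) t :=
          ContinuousAt.comp (g := K.c.e.symm) (f := fun t : ℂ => (b, t))
            (K.c.e.symm.continuousAt (htar t ht)) (by fun_prop)
        exact closure_minimal (by rintro _ ⟨t', h', rfl⟩; exact h'.2) isClosed_frontier
          (hct.continuousWithinAt.mem_closure_image htA)
      · rintro _ ⟨w, hw, rfl⟩
        have hwts := K.F.φ.map_target (hwt hw)
        have hzts := K.F₀.φ.map_target hzt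
        filter_upwards [(continuousAt_fst.eventually (K.F₀.φ.open_source.eventually_mem hzts) :
            ∀ᶠ v : ℂ × ℂ in 𝓝 (b, K.F.φ.symm w), v.1 ∈ K.F₀.φ.source),
          (continuousAt_snd.eventually (K.F.φ.open_source.eventually_mem hwts) :
            ∀ᶠ v : ℂ × ℂ in 𝓝 (b, K.F.φ.symm w), v.2 ∈ K.F.φ.source),
          (ContinuousAt.comp (g := K.F₀.φ) (f := Prod.fst) (x := (b, K.F.φ.symm w))
            (K.F₀.φ.continuousAt hzts) continuousAt_fst).eventually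
              ((isOpen_sqr s).eventually_mem (show K.F₀.φ b ∈ sqr s by
                rw [K.F₀.φ.right_inv hzt]; exact hz)),
          (ContinuousAt.comp (g := K.F.φ) (f := Prod.snd) (x := (b, K.F.φ.symm w))
            (K.F.φ.continuousAt hwts) continuousAt_snd).eventually
              ((isOpen_sqr s).eventually_mem (show K.F.φ (K.F.φ.symm w) ∈ sqr s by
                rw [K.F.φ.right_inv (hwt hw)]; exact hw))] with v hv1 hv2 hv3 hv4 hpos
        refine hTU ⟨(K.F₀.φ v.1, K.F.φ v.2), ⟨⟨hv3, ?_⟩, hv4⟩, ?_⟩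
        · show 0 < (K.F₀.φ v.1).re
          rw [K.F₀.re_eq _ hv1]; exact hpos
        · show K.c.e.symm (K.F₀.φ.symm (K.F₀.φ v.1), K.F.φ.symm (K.F.φ v.2)) = K.c.e.symm v
          rw [K.F₀.φ.left_inv hv1, K.F.φ.left_inv hv2]
    refine (h.bd.self_of_nhds h.mem_piece).2 ?_
    show ∀ᶠ y in 𝓝 x, _
    filter_upwards [K.P.open_source.eventually_mem K.self_mem,
      (K.P.continuousAt K.self_mem).eventually (((isOpen_sqr s).prod (isOpen_sqr s)).eventually_mem
        (by rw [K.self_eq]; exact ⟨zero_mem_sqr hs, zero_mem_sqr hs⟩))] with y hy hyb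
    refine ⟨fun hpos => hTU ⟨K.P y, ⟨⟨hyb.1, ?_⟩, hyb.2⟩, K.P.left_inv hy⟩, fun h0 => ?_⟩
    · show 0 < (K.P y).1.re
      rw [K.re_fst hy]; exact hpos
    · have := hface _ hyb.1 (by rw [K.re_fst hy]; exact h0) _ hyb.2
      rwa [show K.P.symm ((K.P y).1, (K.P y).2) = y from K.P.left_inv hy] at this
  -- the active wall of largest slope and the face bound a corner
  obtain ⟨m, hm, hmax⟩ := Finset.exists_max_image Act σ hne
  have hmΛ := (Finset.mem_filter.1 hm).1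
  set ρm : ℂ → ℝ := fun u => ρ m u / q m with hρm
  have hρmc : ContDiff ℝ 1 ρm := (h.contDiff m hmΛ).div_const _
  have hρm0 : ∀ {u}, ρm u = 0 ↔ ρ m u = 0 := fun {u} => by simp [hρm, hq m hmΛ]
  have hzm : ρ m (W.f m x) = 0 := (h.sub m hmΛ).self_of_nhds h.mem_piece
  have hρmd : fderiv ℝ ρm (W.f m x) ≠ 0 := by
    have hd := (h.contDiff m hmΛ).differentiable (by norm_num) (W.f m x)
    have he : ρm = (q m)⁻¹ • ρ m := by
      funext u; simp [hρm, div_eq_inv_mul]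
    rw [he, fderiv_const_smul hd]
    simpa [hq m hmΛ] using h.regular m hmΛ
  obtain ⟨K⟩ := W.exists_coords (h.ne m hmΛ) h.mem hρmc h.mem_piece.1 (hρm0.2 hzm) hρmd
  -- the facts near `x`
  have hgoal : ∀ᶠ y in 𝓝 x,
      (y ∈ frontier Ω.U → y ∈ W.chart.e.source → 0 < W.ρ₀ (W.f₀ y) → ¬0 < ρm (W.f m y)) ∧
      (W.ρ₀ (W.f₀ y) = 0 → 0 < ρm (W.f m y) → y ∈ W.good) ∧
      (W.ρ₀ (W.f₀ y) = 0 → ρm (W.f m y) = 0 → y ∈ W.bd ∧ y ∈ closure (W.wall m)) ∧
      (W.f m y ∈ W.C → ρm (W.f m y) = 0) := by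
    filter_upwards [hfree, hord, hside, h.bd, hact m hm, hfam]
      with y hyf hyo hys hyb hya hyfam
    refine ⟨fun hf hs hpos hv => ?_, fun h0 hv => hys h0 (((hyo m hmΛ).1 h0).2.1 hv),
      fun h0 hv => ?_, fun hC => hρm0.2 (((hyfam m).1 hmΛ).1 hC)⟩
    · obtain ⟨l, hl, hl0⟩ := hyf hs hf hpos
      have hlΛ := (Finset.mem_filter.1 hl).1
      rcases eq_or_ne l m with rfl | hlm
      · exact hv.ne' (hρm0.2 hl0)
      · have hlt : σ l < σ m :=
          (hmax l hl).lt_of_ne fun he => hlm (hinj hlΛ hmΛ he)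
        exact hv.not_gt ((hyo l hlΛ).2 hpos hl0 m hmΛ hlt)
    · have hp : y ∈ W.piece j (ρ j) := ⟨h0, ((hyo m hmΛ).1 h0).1.1 (hρm0.1 hv)⟩
      exact ⟨hyb hp, hya hp⟩
  have hev : ∀ᶠ v in 𝓝 (((0 : ℂ), (0 : ℂ)) : C2), v ∈ K.P.target ∧
      ((K.P.symm v ∈ frontier Ω.U → K.P.symm v ∈ W.chart.e.source →
          0 < W.ρ₀ (W.f₀ (K.P.symm v)) → ¬0 < ρm (W.f m (K.P.symm v))) ∧
        (W.ρ₀ (W.f₀ (K.P.symm v)) = 0 → 0 < ρm (W.f m (K.P.symm v)) → K.P.symm v ∈ W.good) ∧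
        (W.ρ₀ (W.f₀ (K.P.symm v)) = 0 → ρm (W.f m (K.P.symm v)) = 0 →
          K.P.symm v ∈ W.bd ∧ K.P.symm v ∈ closure (W.wall m)) ∧
        (W.f m (K.P.symm v) ∈ W.C → ρm (W.f m (K.P.symm v)) = 0)) := by
    refine (K.P.open_target.eventually_mem K.zero_mem).and
      ((K.P.symm.continuousAt K.zero_mem).eventually (p := fun y =>
        (y ∈ frontier Ω.U → y ∈ W.chart.e.source → 0 < W.ρ₀ (W.f₀ y) → ¬0 < ρm (W.f m y)) ∧
        (W.ρ₀ (W.f₀ y) = 0 → 0 < ρm (W.f m y) → y ∈ W.good) ∧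
        (W.ρ₀ (W.f₀ y) = 0 → ρm (W.f m y) = 0 → y ∈ W.bd ∧ y ∈ closure (W.wall m)) ∧
        (W.f m y ∈ W.C → ρm (W.f m y) = 0)) ?_)
    rw [K.symm_zero]; exact hgoal
  obtain ⟨O₁, hO₁, O₂, hO₂, hO⟩ := mem_nhds_prod_iff.1 hev
  obtain ⟨s, hs, hsO⟩ := exists_sqr_subset (inter_mem hO₁ hO₂)
  have hbox : ∀ z ∈ sqr s, ∀ v ∈ sqr s, (z, v) ∈ K.P.target ∧
      (W.ρ₀ (W.f₀ (K.P.symm (z, v))) = z.re ∧ ρm (W.f m (K.P.symm (z, v))) = v.re) ∧
      (K.P.symm (z, v) ∈ frontier Ω.U → 0 < z.re → ¬0 < v.re) ∧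
      (z.re = 0 → 0 < v.re → K.P.symm (z, v) ∈ W.good) ∧
      (z.re = 0 → v.re = 0 → K.P.symm (z, v) ∈ W.bd ∧ K.P.symm (z, v) ∈ closure (W.wall m)) ∧
      (W.f m (K.P.symm (z, v)) ∈ W.C → v.re = 0) := by
    intro z hz v hv
    obtain ⟨h1, h2, h3, h4, h5⟩ := hO (mk_mem_prod (hsO hz).1 (hsO hv).2)
    have hs' := K.P.map_target h1
    have e1 : W.ρ₀ (W.f₀ (K.P.symm (z, v))) = z.re := by rw [← K.re_fst hs', K.P.right_inv h1]
    have e2 : ρm (W.f m (K.P.symm (z, v))) = v.re := by rw [← K.re_snd hs', K.P.right_inv h1]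
    exact ⟨h1, ⟨e1, e2⟩, fun hf a b => h2 hf (K.source_sub hs') (a.trans_eq e1.symm) (b.trans_eq e2.symm),
      fun a b => h3 (e1.trans a) (b.trans_eq e2.symm), fun a b => h4 (e1.trans a) (e2.trans b),
      fun hC => e2.symm.trans (h5 hC)⟩
  have hc : ∀ v ∈ sqr s ×ˢ sqr s, ContinuousAt K.P.symm v := fun v hv =>
    K.P.symm.continuousAt (hbox _ hv.1 _ hv.2).1
  have hhalf : ((s / 2 : ℝ) : ℂ) ∈ sqr s :=
    ⟨by simp [abs_of_pos (half_pos hs)]; linarith, by simpa using hs⟩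
  -- the wedge
  set R := K.P.symm '' ((sqr s ∩ {z | 0 < z.re}) ×ˢ (sqr s ∩ {v | 0 < v.re})) with hR
  have hRU : R ⊆ Ω.U := by
    refine subset_of_frontier_free Ω.isOpen_U
      (((convex_sqr_pos s).isPreconnected.prod (convex_sqr_pos s).isPreconnected).image _
        fun v hv => (hc v ⟨hv.1.1, hv.2.1⟩).continuousWithinAt) ?_ ?_
    · rintro _ ⟨⟨z, v⟩, ⟨⟨hz, hzp⟩, hv, hvp⟩, rfl⟩ hf
      exact (hbox z hz v hv).2.2.1 hf hzp hvp
    · have hg := (hbox 0 (zero_mem_sqr hs) _ hhalf).2.2.2.1 (by simp) (by simpa using half_pos hs)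
      have hlim : Tendsto (fun δ : ℝ => K.P.symm ((δ : ℂ), ((s / 2 : ℝ) : ℂ))) (𝓝 0)
          (𝓝 (K.P.symm ((0 : ℂ), ((s / 2 : ℝ) : ℂ)))) :=
        (hc _ ⟨zero_mem_sqr hs, hhalf⟩).tendsto.comp
          ((Complex.continuous_ofReal.tendsto' 0 0 (by simp)).prodMk_nhds tendsto_const_nhds)
      obtain ⟨δ, ⟨hδ, hδs⟩, hδg⟩ := (((eventually_mem_nhdsWithin (s := Ioi (0 : ℝ)) (a := 0)).and
        (nhdsWithin_le_nhds (Iio_mem_nhds hs))).and
          (nhdsWithin_le_nhds (hlim.eventually hg))).exists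
      have hδ' : (0 : ℝ) < δ := hδ
      have hz : (δ : ℂ) ∈ sqr s := ⟨by simpa [abs_of_pos hδ'] using hδs, by simpa using hs⟩
      refine ⟨_, mem_image_of_mem _ (mk_mem_prod ⟨hz, by simpa using hδ'⟩
        ⟨hhalf, by simpa using half_pos hs⟩), hδg.1 ?_⟩
      rw [(hbox _ hz _ hhalf).2.1.1]; simpa using hδ'
  -- the half wall is in the frontier
  have hwall : ∀ z ∈ sqr s, 0 < z.re → ∀ v ∈ sqr s, v.re = 0 →
      K.P.symm (z, v) ∈ frontier Ω.U := by
    intro z hz hzp v hv hv0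
    have hleaf : ∀ z' ∈ sqr s, 0 < z'.re → ∀ v' ∈ sqr s, v'.re = 0 →
        K.P.symm (z', v') ∈ frontier Ω.U → K.P.symm (z, v') ∈ frontier Ω.U := by
      intro z' hz' hz'p v' hv' hv'0 hf
      set b := K.F.φ.symm v'
      have hvt : v' ∈ K.F.φ.target := (K.f_symm (hbox z' hz' v' hv').1).1
      have hzt : sqr s ⊆ K.F₀.φ.target := fun w hw => (K.f₀_symm (hbox w hw v' hv').1).1
      set D := K.F₀.φ.symm '' (sqr s ∩ {w | 0 < w.re})
      have hDo : IsOpen D := K.F₀.φ.symm.isOpen_image_of_subset_source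
        ((isOpen_sqr s).inter (isOpen_lt continuous_const continuous_re))
        fun w hw => hzt hw.1
      have hDc : IsPreconnected D := (convex_sqr_pos s).isPreconnected.image _
        fun w hw => (K.F₀.φ.symm.continuousAt (hzt hw.1)).continuousWithinAt
      have htar : ∀ t ∈ D, (b, t) ∈ K.c.swap.e.target := by
        rintro _ ⟨w, hw, rfl⟩
        exact (hbox w hw.1 v' hv').1.2
      have hopen := Ω.leaf_open K.c.swap (hρmc.differentiable (by norm_num) b)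
        (by rw [K.F.symm_re hvt]; exact hv'0) (K.F.fderiv_ne (K.F.φ.map_target hvt)) hDo htar ?_
      · have hsub := eq_of_relclopen hDc hopen ?_ ⟨_, mem_image_of_mem _ ⟨hz', hz'p⟩,
          mem_image_of_mem _ ⟨hz', hz'p⟩, hf⟩
        · exact (hsub (mem_image_of_mem _ ⟨hz, hzp⟩)).2
        rintro t ⟨htA, ht⟩
        refine ⟨ht, ?_⟩
        have hct : ContinuousAt (fun t => K.c.swap.e.symm (b, t)) t :=
          ContinuousAt.comp (g := K.c.swap.e.symm) (f := fun t : ℂ => (b, t))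
            (K.c.swap.e.symm.continuousAt (htar t ht)) (by fun_prop)
        exact closure_minimal (by rintro _ ⟨t', h', rfl⟩; exact h'.2) isClosed_frontier
          (hct.continuousWithinAt.mem_closure_image htA)
      · rintro _ ⟨w, ⟨hw, hwp⟩, rfl⟩
        have hwts := K.F₀.φ.map_target (hzt hw)
        have hvts := K.F.φ.map_target hvt
        filter_upwards [(continuousAt_fst.eventually (K.F.φ.open_source.eventually_mem hvts) :
            ∀ᶠ u : ℂ × ℂ in 𝓝 (b, K.F₀.φ.symm w), u.1 ∈ K.F.φ.source),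
          (continuousAt_snd.eventually (K.F₀.φ.open_source.eventually_mem hwts) :
            ∀ᶠ u : ℂ × ℂ in 𝓝 (b, K.F₀.φ.symm w), u.2 ∈ K.F₀.φ.source),
          (ContinuousAt.comp (g := K.F.φ) (f := Prod.fst) (x := (b, K.F₀.φ.symm w))
            (K.F.φ.continuousAt hvts) continuousAt_fst).eventually
              ((isOpen_sqr s).eventually_mem (show K.F.φ b ∈ sqr s by
                rw [K.F.φ.right_inv hvt]; exact hv')),
          (ContinuousAt.comp (g := K.F₀.φ) (f := Prod.snd) (x := (b, K.F₀.φ.symm w))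
            (K.F₀.φ.continuousAt hwts) continuousAt_snd).eventually
              (((isOpen_sqr s).inter (isOpen_lt continuous_const continuous_re)).eventually_mem
                (show K.F₀.φ (K.F₀.φ.symm w) ∈ sqr s ∩ {w | 0 < w.re} by
                  rw [K.F₀.φ.right_inv (hzt hw)]; exact ⟨hw, hwp⟩))] with u hu1 hu2 hu3 hu4 hpos
        refine hRU ⟨(K.F₀.φ u.2, K.F.φ u.1), ⟨hu4, hu3, ?_⟩, ?_⟩
        · show 0 < (K.F.φ u.1).re
          rw [K.F.re_eq _ hu1]; exact hpos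
        · show K.c.e.symm (K.F₀.φ.symm (K.F₀.φ u.2), K.F.φ.symm (K.F.φ u.1)) = K.c.e.symm (u.2, u.1)
          rw [K.F₀.φ.left_inv hu2, K.F.φ.left_inv hu1]
    obtain ⟨he, -, -, -, hedge, -⟩ := hbox 0 (zero_mem_sqr hs) v hv
    set e := K.P.symm (0, v)
    have hes := K.P.map_target he
    have hee : K.P e = (0, v) := K.P.right_inv he
    set Φ : C2 → C2 := fun p => K.P.symm (z, (K.P p).2)
    have hΦe : Φ e = K.P.symm (z, v) := by simp only [Φ, hee]
    have hΦc : ContinuousAt Φ e :=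
      ContinuousAt.comp (g := K.P.symm) (f := fun p => (z, (K.P p).2))
        (K.P.symm.continuousAt (by rw [hee]; exact (hbox z hz v hv).1))
        (continuousAt_const.prodMk (K.P.continuousAt hes).snd)
    have hnear : ∀ᶠ p in 𝓝 e, p ∈ W.wall m → Φ p ∈ frontier Ω.U := by
      filter_upwards [K.P.open_source.eventually_mem hes,
        (K.P.continuousAt hes).eventually (((isOpen_sqr s).prod (isOpen_sqr s)).eventually_mem
          (by rw [hee]; exact ⟨zero_mem_sqr hs, hv⟩))] with p hp hpb hpw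
      obtain ⟨-, ⟨e1, -⟩, -, -, -, hC⟩ := hbox _ hpb.1 _ hpb.2
      have hpe : K.P.symm ((K.P p).1, (K.P p).2) = p := K.P.left_inv hp
      rw [hpe] at e1 hC
      exact hleaf _ hpb.1 (e1 ▸ hpw.2.1) _ hpb.2 (hC hpw.2.2) (hpe.symm ▸ hpw.1)
    rw [← hΦe]
    exact isClosed_frontier.mem_of_frequently_of_tendsto
      (((mem_closure_iff_frequently.1 (hedge (by simp) hv0).2).and_eventually hnear).mono
        fun p hp => hp.2 hp.1) hΦc.tendsto
  -- the corner
  set Bx := K.P.source ∩ K.P ⁻¹' (sqr s ×ˢ sqr s)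
  have hBo : IsOpen Bx := K.P.isOpen_inter_preimage ((isOpen_sqr s).prod (isOpen_sqr s))
  set e' := K.c.e.restrOpen Bx hBo
  have hxB : x ∈ Bx :=
    ⟨K.self_mem, by rw [mem_preimage, K.self_eq]; exact ⟨zero_mem_sqr hs, zero_mem_sqr hs⟩⟩
  have hfx : x ∈ frontier Ω.U := W.closure_fill_subset (h.bd.self_of_nhds h.mem_piece).1
  have he' : ∀ y, e' y = (W.f₀ y, W.f m y) := fun y => K.c_eq y
  have hsplit : ∀ y ∈ e'.source, (K.P y).1 ∈ sqr s ∧ (K.P y).2 ∈ sqr s ∧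
      K.P.symm ((K.P y).1, (K.P y).2) = y ∧
      (K.P y).1.re = W.ρ₀ (e' y).1 ∧ (K.P y).2.re = ρm (e' y).2 := fun y hy =>
    ⟨hy.2.2.1, hy.2.2.2, K.P.left_inv hy.2.1, by rw [K.re_fst hy.2.1, he'],
      by rw [K.re_snd hy.2.1, he']⟩
  refine ⟨⟨x, hfx, ⟨e', K.c.diff.mono fun y hy => hy.1, K.c.diff_symm.mono fun y hy => hy.1⟩,
    ⟨K.mem, hxB⟩, W.ρ₀, ρm, W.contDiff₀, hρmc, by rw [he']; exact h.mem_piece.1,
    by rw [he']; exact hρm0.2 hzm, by rw [he']; exact W.regular₀ _ (W.f₀_mem h.mem).1,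
    by rw [he']; exact hρmd, fun y hy h1 h2 => ?_, fun y hy hyU h1 h2 => ?_⟩⟩
  · obtain ⟨hz, hv, he, e1, e2⟩ := hsplit y hy
    exact hRU ⟨_, ⟨⟨hz, h1.trans_eq e1.symm⟩, hv, h2.trans_eq e2.symm⟩, he⟩
  · obtain ⟨hz, hv, he, e1, e2⟩ := hsplit y hy
    obtain ⟨-, ⟨h0, -⟩, -, hgood, hbd, -⟩ := hbox _ hz _ hv
    simp only [e1, e2, he] at h0 hgood hbd
    have hnf : y ∉ frontier Ω.U := fun hf => by
      rw [Ω.isOpen_U.frontier_eq] at hf; exact hf.2 hyU
    rcases h1.eq_or_lt with ha | ha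
    · rcases h2.eq_or_lt with hb | hb
      · exact absurd (W.closure_fill_subset (hbd ha.symm hb.symm).1.1) hnf
      · exact absurd ((hgood ha.symm hb).self_of_nhds.2 (h0.trans ha.symm)) hnf
    · rcases h2.eq_or_lt with hb | hb
      · refine absurd ?_ hnf
        rw [← he]
        exact hwall _ hz (ha.trans_eq e1.symm) _ hv (e2.trans hb.symm)
      · exact ⟨ha, hb⟩

end

end Vale.Agent.P274.Surface
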