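import Vale.Agent.P274.Surface.Thin
import Vale.Agent.P274.Arc

/-!
Extension of holomorphic functions across boundary points.
-/

open Filter Metric Set Function Topology Complex

namespace Vale.Agent.P274.Surface

noncomputable section

/-- The disc function vanishing at `0.6`. -/
def bump (τ : ℂ) : ℂ := 1 - Complex.exp (10 * ((τ - 0.6) / (1 - 0.6 * τ)))

theorem bump_den {τ : ℂ} (h : ‖τ‖ < 1.5) : (1 - 0.6 * τ : ℂ) ≠ 0 := by
  intro h0
  rw [sub_eq_zero] at h0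
  have := congrArg norm h0
  rw [norm_one, norm_mul] at this
  norm_num at this
  norm_num at h
  linarith

theorem bump_bad {τ : ℂ} (h1 : ‖τ‖ = 1) (h2 : τ.re ≤ 0.7) : 1 / 2 ≤ (bump τ).re := by
  have hsq : τ.re * τ.re + τ.im * τ.im = 1 := by
    rw [← Complex.normSq_apply, Complex.normSq_eq_norm_sq, h1]; norm_num
  have hm : ((τ - 0.6) / (1 - 0.6 * τ)).re ≤ -0.09 := by
    have hden : 0 < Complex.normSq (1 - 0.6 * τ) :=
      Complex.normSq_pos.2 (bump_den (by rw [h1]; norm_num))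
    rw [Complex.normSq_apply] at hden
    rw [Complex.div_re, ← add_div, div_le_iff₀ (by rwa [Complex.normSq_apply]),
      Complex.normSq_apply]
    norm_num [Complex.sub_re, Complex.sub_im, Complex.mul_re, Complex.mul_im] at hden h2 ⊢
    nlinarith
  have hb : ‖Complex.exp (10 * ((τ - 0.6) / (1 - 0.6 * τ)))‖ ≤ 1 / 2 := by
    rw [Complex.norm_exp]
    have h9 : (10 * ((τ - 0.6) / (1 - 0.6 * τ))).re ≤ -0.9 := by
      rw [Complex.mul_re]; norm_num at hm ⊢; linarith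
    refine (Real.exp_le_exp.2 h9).trans ?_
    rw [Real.exp_neg, inv_le_comm₀ (Real.exp_pos _) (by norm_num)]
    have := Real.quadratic_le_exp_of_nonneg (by norm_num : (0:ℝ) ≤ 0.9)
    norm_num at this ⊢
    linarith
  have := Complex.re_le_norm (Complex.exp (10 * ((τ - 0.6) / (1 - 0.6 * τ))))
  rw [bump, Complex.sub_re, Complex.one_re]
  linarith

/-- The good arc of a small disc through `t₀` lies in the tangent disc. -/
theorem arc_in_disc {r₀ r : ℝ} (hr₀ : 0 < r₀) (hr : r = r₀ / 20) {τ : ℂ} (h1 : ‖τ‖ = 1)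
    (h2 : 0.7 ≤ τ.re) : ‖(r : ℂ) * (τ - 0.6) - (r₀ : ℂ)‖ < r₀ := by
  have hsq : τ.re * τ.re + τ.im * τ.im = 1 := by
    rw [← Complex.normSq_apply, Complex.normSq_eq_norm_sq, h1]; norm_num
  refine lt_of_pow_lt_pow_left₀ 2 hr₀.le ?_
  rw [← Complex.normSq_eq_norm_sq, Complex.normSq_apply]
  norm_num [Complex.sub_re, Complex.sub_im, Complex.mul_re, Complex.mul_im] at h2 ⊢
  subst hr
  have hle : τ.re ≤ 1 := by nlinarith
  nlinarith [mul_pos hr₀ hr₀]

/-- A leaf point on the frontier next to a disc of the leaf in `U`, with one side filled, is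
impossible. -/
theorem Sys.no_tangent_disc (Ω : Sys) (c : HChart) {ρ : ℂ → ℝ} {b : ℂ}
    (hρ : DifferentiableAt ℝ ρ b) (h0 : ρ b = 0) (hd : fderiv ℝ ρ b ≠ 0) {t₀ t' : ℂ} {r₀ : ℝ}
    (hr₀ : 0 < r₀) (hdist : dist t₀ t' = r₀)
    (htar : ∀ t ∈ closedBall t₀ r₀, (b, t) ∈ c.e.target)
    (hside : ∀ t ∈ closedBall t₀ r₀, ∀ᶠ y in 𝓝 (b, t), 0 < ρ y.1 → c.e.symm y ∈ Ω.U)
    (hball : ∀ t ∈ ball t' r₀ ∩ closedBall t₀ r₀, c.e.symm (b, t) ∈ Ω.U)
    (hfr : c.e.symm (b, t₀) ∈ frontier Ω.U) : False := by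
  set r := r₀ / 20 with hr
  set n : ℂ := (t' - t₀) / (r₀ : ℂ) with hn
  have hr₀C : (r₀ : ℂ) ≠ 0 := by exact_mod_cast hr₀.ne'
  have hn1 : ‖n‖ = 1 := by
    rw [hn, norm_div, Complex.norm_real, Real.norm_eq_abs, abs_of_pos hr₀, ← dist_eq_norm',
      hdist, div_self hr₀.ne']
  have hrn : (r : ℂ) * n ≠ 0 := by
    refine mul_ne_zero (by exact_mod_cast (by positivity : r ≠ 0)) fun h => ?_
    rw [h] at hn1; simp at hn1
  set ν := nrm ρ b
  have hν : ν ≠ 0 := nrm_ne_zero hd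
  have hνn : ‖ν‖ = 1 := norm_nrm hd
  set pos : ℂ → ℂ := fun τ => t₀ + (r : ℂ) * n * (τ - 0.6) with hpos
  have hposball : ∀ τ : ℂ, ‖τ‖ ≤ 1 → pos τ ∈ closedBall t₀ r₀ := by
    intro τ hτ
    rw [mem_closedBall, dist_eq_norm, hpos]
    simp only [add_sub_cancel_left]
    rw [norm_mul, norm_mul, hn1, Complex.norm_real, Real.norm_eq_abs, abs_of_pos (by positivity),
      mul_one]
    have : ‖τ - 0.6‖ ≤ 2 := by
      refine (norm_sub_le _ _).trans ?_
      norm_num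
      linarith
    rw [hr]
    nlinarith
  have hgood : ∀ τ ∈ sphere (0 : ℂ) 1 ∩ {τ | 0.7 ≤ τ.re}, c.e.symm (b, pos τ) ∈ Ω.U := by
    rintro τ ⟨h1, h2⟩
    rw [mem_sphere_zero_iff_norm] at h1
    refine hball _ ⟨?_, hposball τ h1.le⟩
    rw [mem_ball, dist_eq_norm]
    have : pos τ - t' = n * ((r : ℂ) * (τ - 0.6) - (r₀ : ℂ)) := by
      rw [hpos]
      simp only
      rw [mul_sub n, hn, div_mul_cancel₀ _ hr₀C]
      ring
    rw [this, norm_mul, hn1, one_mul]
    exact arc_in_disc hr₀ hr h1 h2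
  have hbumpc : ContinuousOn bump (closedBall 0 1) := by
    refine ContinuousOn.sub continuousOn_const (Complex.continuous_exp.comp_continuousOn ?_)
    exact continuousOn_const.mul ((continuousOn_id.sub continuousOn_const).div
      (continuousOn_const.sub (continuousOn_const.mul continuousOn_id)) fun τ hτ =>
        bump_den (lt_of_le_of_lt (mem_closedBall_zero_iff.1 hτ) (by norm_num)))
  obtain ⟨H₀, hH₀⟩ := (isCompact_closedBall (0 : ℂ) 1).exists_bound_of_continuousOn hbumpc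
  set H := |H₀| + 1 with hH
  have hH1 : 1 ≤ H := by rw [hH]; linarith [abs_nonneg H₀]
  have hbump : ∀ τ : ℂ, ‖τ‖ ≤ 1 → ‖bump τ‖ ≤ H := fun τ hτ =>
    (hH₀ τ (mem_closedBall_zero_iff.2 hτ)).trans (by rw [hH]; linarith [le_abs_self H₀])
  -- uniform size of the neighbourhoods
  have hpc : Continuous pos := by fun_prop
  have hKc : IsCompact (pos '' closedBall 0 1) := (isCompact_closedBall _ _).image hpc
  have hKsub : pos '' closedBall 0 1 ⊆ closedBall t₀ r₀ := by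
    rintro _ ⟨τ, hτ, rfl⟩; exact hposball τ (mem_closedBall_zero_iff.1 hτ)
  have e1 : ∀ᶠ w in 𝓝 b, ∀ t ∈ pos '' closedBall 0 1,
      (w, t) ∈ c.e.target ∧ (0 < ρ w → c.e.symm (w, t) ∈ Ω.U) :=
    hKc.eventually_forall_of_forall_eventually fun t ht =>
      (show ∀ᶠ y in 𝓝 (b, t), y ∈ c.e.target from
        c.e.open_target.mem_nhds (htar t (hKsub ht))).and (hside t (hKsub ht))
  have e2 : ∀ᶠ w in 𝓝 b, ∀ t ∈ pos '' (sphere 0 1 ∩ {τ | 0.7 ≤ τ.re}),
      c.e.symm (w, t) ∈ Ω.U := by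
    refine (((isCompact_sphere _ _).inter_right (isClosed_le continuous_const
      Complex.continuous_re)).image hpc).eventually_forall_of_forall_eventually ?_
    rintro _ ⟨τ, hτ, rfl⟩
    exact (c.e.continuousAt_symm (htar _ (hposball τ
      (le_of_eq (mem_sphere_zero_iff_norm.1 hτ.1))))).eventually
        (Ω.isOpen_U.mem_nhds (hgood τ hτ))
  obtain ⟨ζ₀, hζ₀, hwb⟩ := Metric.eventually_nhds_iff.1 (e1.and e2)
  -- positivity of `ρ` in a cone
  have hg : 0 < ‖grad ρ b‖ := norm_pos_iff.2 (grad_ne_zero hd)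
  set δ := 1 / (32 * H) with hδ
  have hδ0 : 0 < δ := by positivity
  obtain ⟨ζ₁, hζ₁, hlin⟩ := Metric.eventually_nhds_iff.1
    (hρ.hasFDerivAt.isLittleO.bound (mul_pos (mul_pos hg hδ0) one_half_pos))
  have hcone : ∀ ζ : ℂ, ‖ζ‖ < ζ₁ → 0 < ζ.re → δ * ‖ζ‖ ≤ ζ.re → 0 < ρ (b + ν * ζ) := by
    intro ζ h1 h2 h3
    have := @hlin (b + ν * ζ) (by rw [dist_eq_norm, add_sub_cancel_left, norm_mul, hνn, one_mul]
                                  exact h1)
    rw [h0, sub_zero, add_sub_cancel_left, fderiv_nrm_mul, norm_mul, hνn, one_mul,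
      Real.norm_eq_abs] at this
    nlinarith [(abs_le.1 this).1, mul_le_mul_of_nonneg_left h3 hg.le, mul_pos hg h2]
  set k := min ζ₀ ζ₁ / (8 * H) with hk
  have hk0 : 0 < k := by positivity
  set S : Set ℂ := {s | -(k / 4) < s.re} ∩ ball 0 (3 * H * k) with hS
  have hSo : IsOpen S := (isOpen_lt continuous_const Complex.continuous_re).inter isOpen_ball
  have hsize : ∀ s ∈ S, ∀ τ : ℂ, ‖τ‖ ≤ 1 → ‖s + (k : ℂ) * bump τ‖ ≤ 4 * H * k := by
    intro s hs τ hτ
    refine (norm_add_le _ _).trans ?_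
    rw [norm_mul, Complex.norm_real, Real.norm_eq_abs, abs_of_pos hk0]
    have := mem_ball_zero_iff.1 hs.2
    nlinarith [hbump τ hτ]
  have hsmall : ∀ s ∈ S, ∀ τ : ℂ, ‖τ‖ ≤ 1 →
      dist (b + ν * (s + (k : ℂ) * bump τ)) b < ζ₀ ∧ ‖s + (k : ℂ) * bump τ‖ < ζ₁ := by
    intro s hs τ hτ
    have h := hsize s hs τ hτ
    have h4 : 4 * H * k = min ζ₀ ζ₁ / 2 := by rw [hk]; field_simp; ring
    rw [dist_eq_norm, add_sub_cancel_left, norm_mul, hνn, one_mul]
    have : 0 < min ζ₀ ζ₁ := lt_min hζ₀ hζ₁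
    exact ⟨by linarith [min_le_left ζ₀ ζ₁], by linarith [min_le_right ζ₀ ζ₁]⟩
  set Φ : C2 → C2 := fun p => (b + ν * (p.1 + (k : ℂ) * bump p.2), pos p.2) with hΦ
  set W : Set C2 := {p | ‖p.2‖ < 1.5} ∩ Φ ⁻¹' c.e.target with hW
  have hbd : DifferentiableOn ℂ (fun p : C2 => bump p.2) {p : C2 | ‖p.2‖ < 1.5} := by
    have h1 : DifferentiableOn ℂ (fun p : C2 => (1 - 0.6 * p.2 : ℂ)⁻¹) {p : C2 | ‖p.2‖ < 1.5} :=
      DifferentiableOn.fun_inv (by fun_prop) fun p hp => bump_den hp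
    simp only [bump, div_eq_mul_inv]
    fun_prop
  have hΦd : DifferentiableOn ℂ Φ {p : C2 | ‖p.2‖ < 1.5} := by
    simp only [hΦ, hpos]
    fun_prop
  have hWo : IsOpen W := hΦd.continuousOn.isOpen_inter_preimage
    (isOpen_lt (by fun_prop) continuous_const) c.e.open_target
  set Ψ : C2 → C2 := fun p => c.e.symm (Φ p) with hΨ
  have hΨd : DifferentiableOn ℂ Ψ W :=
    c.diff_symm.comp (hΦd.mono inter_subset_left) fun p hp => hp.2
  set τi : C2 → ℂ := fun y => (((c.e y).2 - t₀) / ((r : ℂ) * n) + 0.6) with hτi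
  set Ψi : C2 → C2 := fun y =>
    (((c.e y).1 - b) / ν - (k : ℂ) * bump (τi y), τi y) with hΨi
  set M : Set C2 := c.e.source ∩ τi ⁻¹' ball 0 0.8 with hM
  have hτid : DifferentiableOn ℂ τi c.e.source := by
    simp only [hτi, div_eq_mul_inv]; exact ((c.diff.snd.sub_const _).mul_const _).add_const _
  have hMo : IsOpen M := hτid.continuousOn.isOpen_inter_preimage c.e.open_source isOpen_ball
  have hΨid : DifferentiableOn ℂ Ψi M := by
    have hb1 : DifferentiableOn ℂ (fun y => bump (τi y)) M := by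
      refine hbd.comp (f := fun y => ((0 : ℂ), τi y))
        ((differentiableOn_const _).prodMk (hτid.mono inter_subset_left)) fun y hy => ?_
      simp only [mem_ofPred_eq]
      exact (mem_ball_zero_iff.1 hy.2).trans (by norm_num)
    simp only [hΨi, div_eq_mul_inv]
    exact ((((c.diff.fst.sub_const _).mul_const _).mono inter_subset_left).sub
      (hb1.const_mul _)).prodMk (hτid.mono inter_subset_left)
  set N : Set C2 := M ∩ Ψi ⁻¹' (S ×ˢ ball 0 0.8) with hN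
  have hNo : IsOpen N :=
    hΨid.continuousOn.isOpen_inter_preimage hMo (hSo.prod isOpen_ball)
  have hright : ∀ y ∈ N, Ψ (Ψi y) = y := by
    intro y hy
    simp only [hΨ, hΨi, hΦ, hpos, hτi, sub_add_cancel, add_sub_cancel_right]
    rw [mul_div_cancel₀ _ hν, mul_div_cancel₀ _ hrn, add_sub_cancel, add_sub_cancel]
    exact c.e.left_inv hy.1.1
  have hmemU : ∀ s ∈ S, ∀ τ : ℂ, ‖τ‖ ≤ 1 → 0 < ρ (b + ν * (s + (k : ℂ) * bump τ)) →
      (s, τ) ∈ W ∧ Ψ (s, τ) ∈ Ω.U := by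
    intro s hs τ hτ hpos'
    obtain ⟨h1, h2⟩ := (hwb (hsmall s hs τ hτ).1).1 (pos τ) ⟨τ, mem_closedBall_zero_iff.2 hτ, rfl⟩
    exact ⟨⟨lt_of_le_of_lt hτ (by norm_num), h1⟩, h2 hpos'⟩
  have hcirc : ∀ s ∈ S, ∀ τ ∈ sphere (0 : ℂ) 1, (s, τ) ∈ W ∧ Ψ (s, τ) ∈ Ω.U := by
    intro s hs τ hτ
    have hτ1 := mem_sphere_zero_iff_norm.1 hτ
    rcases le_total τ.re 0.7 with h | h
    · refine hmemU s hs τ hτ1.le ?_
      have hre : k / 4 ≤ (s + (k : ℂ) * bump τ).re := by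
        rw [Complex.add_re, Complex.re_ofReal_mul]
        nlinarith [bump_bad hτ1 h, (show -(k / 4) < s.re from hs.1)]
      refine hcone _ (hsmall s hs τ hτ1.le).2 (by linarith) ?_
      calc δ * ‖s + (k : ℂ) * bump τ‖ ≤ δ * (4 * H * k) :=
            mul_le_mul_of_nonneg_left (hsize s hs τ hτ1.le) hδ0.le
        _ = k / 8 := by rw [hδ]; field_simp; ring
        _ ≤ _ := by linarith
    · obtain ⟨h1, -⟩ := (hwb (hsmall s hs τ hτ1.le).1).1 (pos τ)
        ⟨τ, sphere_subset_closedBall hτ, rfl⟩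
      exact ⟨⟨lt_of_le_of_lt hτ1.le (by norm_num), h1⟩,
        (hwb (hsmall s hs τ hτ1.le).1).2 _ ⟨τ, ⟨hτ, h⟩, rfl⟩⟩
  -- the seed disc and the segment to the centre
  have hb6 : bump 0.6 = 0 := by simp [bump]
  have hseg : ∀ s : ℝ, 0 < s → s ≤ 2 * H * k →
      (s : ℂ) ∈ S ∧ Ψ ((s : ℂ), 0.6) ∈ Ω.U ∧ Ψi (Ψ ((s : ℂ), 0.6)) = ((s : ℂ), 0.6) ∧
        Ψ ((s : ℂ), 0.6) ∈ N := by
    intro s hs0 hs1
    have hsS : (s : ℂ) ∈ S := ⟨by simp only [mem_ofPred_eq, Complex.ofReal_re]; linarith,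
      by rw [mem_ball_zero_iff, Complex.norm_real, Real.norm_eq_abs, abs_of_pos hs0]; nlinarith⟩
    have h6 : ‖(0.6 : ℂ)‖ ≤ 1 := by norm_num
    have hp : 0 < ρ (b + ν * ((s : ℂ) + (k : ℂ) * bump 0.6)) := by
      refine hcone _ (hsmall _ hsS _ h6).2 (by simp [hb6, hs0]) ?_
      simp only [hb6, mul_zero, add_zero, Complex.norm_real, Real.norm_eq_abs, abs_of_pos hs0,
        Complex.ofReal_re]
      have : δ ≤ 1 := by rw [hδ, div_le_one (by positivity)]; linarith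
      nlinarith
    obtain ⟨hW', hU'⟩ := hmemU _ hsS _ h6 hp
    have hinv : Ψi (Ψ ((s : ℂ), 0.6)) = ((s : ℂ), 0.6) := by
      have he := c.e.right_inv hW'.2
      simp only [hΨi, hτi, hΨ, he]
      simp only [hΦ, hpos, hb6, mul_zero, add_zero, add_sub_cancel_left, sub_self,
        mul_div_cancel_left₀ _ hν, zero_div, zero_add, sub_zero]
    refine ⟨hsS, hU', hinv, ⟨c.e.map_target hW'.2, ?_⟩, ?_⟩
    · have := congrArg Prod.snd hinv
      simp only [hΨi] at this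
      rw [mem_preimage, this, mem_ball_zero_iff]
      norm_num
    · rw [mem_preimage, hinv]
      exact ⟨hsS, by rw [mem_ball_zero_iff]; norm_num⟩
  set q := c.e.symm (b, t₀) with hq
  have hΨ6 : ∀ s : ℂ, Ψ (s, 0.6) = c.e.symm (b + ν * s, t₀) := fun s => by
    simp [hΨ, hΦ, hpos, hb6]
  have htq : (b, t₀) ∈ c.e.target := htar t₀ (mem_closedBall_self hr₀.le)
  have hqN : q ∈ N := by
    have he : c.e q = (b, t₀) := c.e.right_inv htq
    have hi : Ψi q = (0, 0.6) := by simp [hΨi, hτi, he, hb6]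
    refine ⟨⟨c.e.map_target htq, ?_⟩, ?_⟩
    · have := congrArg Prod.snd hi
      simp only [hΨi] at this
      rw [mem_preimage, this, mem_ball_zero_iff]
      norm_num
    · rw [mem_preimage, hi]
      refine ⟨⟨by simp only [mem_ofPred_eq, Complex.zero_re]; linarith, mem_ball_self ?_⟩,
        by rw [mem_ball_zero_iff]; norm_num⟩
      positivity
  set Γ := (fun s : ℝ => Ψ ((s : ℂ), 0.6)) '' Ioc 0 (2 * H * k) with hΓ
  have hHk : 0 < 2 * H * k := by positivity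
  obtain ⟨hs0S, hs0U, hs0i, hs0N⟩ := hseg _ hHk le_rfl
  refine Ω.no_hartogs_disc hfr hWo hΨd hSo hcirc (by norm_num : (0.8 : ℝ) < 1) hNo hqN
    (hΨid.mono inter_subset_left) (fun y hy => hy.2) hright
    (y₀ := Ψ (((2 * H * k : ℝ) : ℂ), 0.6)) (Γ := Γ) ?_ ?_ ⟨_, right_mem_Ioc.2 hHk, rfl⟩ ?_ ?_
  · -- the whole seed disc is in `U`
    intro τ hτ
    rw [hs0i]
    have hτ1 := mem_closedBall_zero_iff.1 hτ
    refine hmemU _ hs0S τ hτ1 ?_
    have hre : H * k ≤ (((2 * H * k : ℝ) : ℂ) + (k : ℂ) * bump τ).re := by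
      rw [Complex.add_re, Complex.re_ofReal_mul, Complex.ofReal_re]
      nlinarith [(abs_le.1 ((Complex.abs_re_le_norm _).trans (hbump τ hτ1))).1]
    refine hcone _ (hsmall _ hs0S τ hτ1).2 (by nlinarith) ?_
    calc δ * ‖((2 * H * k : ℝ) : ℂ) + (k : ℂ) * bump τ‖ ≤ δ * (4 * H * k) :=
          mul_le_mul_of_nonneg_left (hsize _ hs0S τ hτ1) hδ0.le
      _ = k / 8 := by rw [hδ]; field_simp; ring
      _ ≤ H * k := by nlinarith
      _ ≤ _ := hre
  · refine isPreconnected_Ioc.image _ (hΨd.continuousOn.comp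
      (by fun_prop : Continuous fun s : ℝ => ((s : ℂ), (0.6 : ℂ))).continuousOn fun s hs => ?_)
    exact ⟨by simp only [mem_ofPred_eq]; norm_num,
      ((hwb (hsmall _ (hseg s hs.1 hs.2).1 _ (by norm_num)).1).1 _
        ⟨0.6, by simp; norm_num, rfl⟩).1⟩
  · rintro _ ⟨s, hs, rfl⟩
    exact ⟨(hseg s hs.1 hs.2).2.1, (hseg s hs.1 hs.2).2.2.2⟩
  · refine mem_closure_of_tendsto (b := 𝓝[>] (0 : ℝ)) (f := fun s : ℝ => Ψ ((s : ℂ), 0.6)) ?_ ?_
    · simp only [hΨ6]
      have h : Tendsto (fun s : ℝ => (b + ν * (s : ℂ), t₀)) (𝓝[>] 0) (𝓝 (b, t₀)) := by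
        have hc : Continuous fun s : ℝ => (b + ν * (s : ℂ), t₀) := by fun_prop
        simpa using (hc.tendsto 0).mono_left nhdsWithin_le_nhds
      exact (c.e.continuousAt_symm htq).tendsto.comp h
    · filter_upwards [Ioc_mem_nhdsGT hHk] with s hs using ⟨s, hs, rfl⟩

/-- On a leaf along which one side is filled, the frontier is open. -/
theorem Sys.leaf_open (Ω : Sys) (c : HChart) {ρ : ℂ → ℝ} {b : ℂ} (hρ : DifferentiableAt ℝ ρ b)
    (h0 : ρ b = 0) (hd : fderiv ℝ ρ b ≠ 0) {T : Set ℂ} (hT : IsOpen T)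
    (htar : ∀ t ∈ T, (b, t) ∈ c.e.target)
    (hside : ∀ t ∈ T, ∀ᶠ y in 𝓝 (b, t), 0 < ρ y.1 → c.e.symm y ∈ Ω.U) :
    IsOpen {t | t ∈ T ∧ c.e.symm (b, t) ∈ frontier Ω.U} := by
  rw [isOpen_iff_mem_nhds]
  rintro t₂ ⟨ht₂, hf₂⟩
  obtain ⟨d, hd0, hdT⟩ := Metric.isOpen_iff.1 hT t₂ ht₂
  refine mem_of_superset (ball_mem_nhds t₂ (by positivity : 0 < d / 8)) fun t' ht' => ?_
  have hct : ∀ t ∈ T, ContinuousAt (fun t => c.e.symm (b, t)) t := fun t ht =>
    (c.e.continuousAt_symm (htar t ht)).comp (f := fun t => (b, t)) (by fun_prop)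
  have ht'T : t' ∈ T := hdT (ball_subset_ball (by linarith) ht')
  refine ⟨ht'T, by_contra fun hnf => ?_⟩
  -- the leaf point over `t'` lies in `U`
  have hU' : c.e.symm (b, t') ∈ Ω.U := by
    by_contra hnU
    refine hnf ?_
    rw [Ω.isOpen_U.frontier_eq]
    refine ⟨mem_closure_of_tendsto (b := 𝓝[>] (0 : ℝ))
      (f := fun s : ℝ => c.e.symm (b + nrm ρ b * (s : ℂ), t')) ?_ ?_, hnU⟩
    · have hc : Continuous fun s : ℝ => (b + nrm ρ b * (s : ℂ), t') := by fun_prop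
      have h : Tendsto (fun s : ℝ => (b + nrm ρ b * (s : ℂ), t')) (𝓝[>] 0) (𝓝 (b, t')) := by
        simpa using (hc.tendsto 0).mono_left nhdsWithin_le_nhds
      exact (c.e.continuousAt_symm (htar t' ht'T)).tendsto.comp h
    · have hc : Continuous fun s : ℝ => (b + nrm ρ b * (s : ℂ), t') := by fun_prop
      have h : Tendsto (fun s : ℝ => (b + nrm ρ b * (s : ℂ), t')) (𝓝[>] 0) (𝓝 (b, t')) := by
        simpa using (hc.tendsto 0).mono_left nhdsWithin_le_nhds
      filter_upwards [h.eventually (hside t' ht'T),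
        eventually_pos_of_compact hρ h0 hd (isCompact_singleton (x := (1 : ℂ))) (by simp)
          univ_mem] with s hs hs'
      refine hs ?_
      simpa using (hs' 1 rfl).2
  -- the nearest frontier point of the leaf
  set A := {t | t ∈ closedBall t₂ (d / 2) ∧ c.e.symm (b, t) ∈ frontier Ω.U} with hA
  have hsub2 : closedBall t₂ (d / 2) ⊆ T :=
    (closedBall_subset_ball (by linarith)).trans hdT
  have hAc : IsCompact A := by
    refine (isCompact_closedBall _ _).of_isClosed_subset ?_ fun t ht => ht.1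
    exact ContinuousOn.preimage_isClosed_of_isClosed
      (fun t ht => (hct t (hsub2 ht)).continuousWithinAt) isClosed_closedBall isClosed_frontier
  obtain ⟨t₀, ⟨ht₀, hf₀⟩, hmin⟩ := hAc.exists_isMinOn ⟨t₂, mem_closedBall_self (by positivity), hf₂⟩
    (f := fun t => dist t t') (Continuous.continuousOn (by fun_prop))
  have hne : t₀ ≠ t' := by
    rintro rfl
    rw [Ω.isOpen_U.frontier_eq] at hf₀
    exact hf₀.2 hU'
  have hr₀ : 0 < dist t₀ t' := dist_pos.2 hne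
  have hle : dist t₀ t' < d / 8 :=
    lt_of_le_of_lt (hmin ⟨mem_closedBall_self (by positivity), hf₂⟩)
      (by simp only; rw [dist_comm]; exact mem_ball.1 ht')
  have ht'2 := mem_ball.1 ht'
  have hsub : closedBall t₀ (dist t₀ t') ⊆ closedBall t₂ (d / 2) := closedBall_subset_closedBall' (by
    linarith [dist_triangle t₀ t' t₂])
  refine Ω.no_tangent_disc c hρ h0 hd hr₀ rfl (fun t ht => htar t (hsub2 (hsub ht)))
    (fun t ht => hside t (hsub2 (hsub ht))) (fun t ht => ?_) hf₀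
  have htT := hsub2 (hsub ht.2)
  by_contra hnU
  have htf : c.e.symm (b, t) ∈ frontier Ω.U := by
    rw [Ω.isOpen_U.frontier_eq]
    refine ⟨mem_closure_of_tendsto (b := 𝓝[>] (0 : ℝ))
      (f := fun s : ℝ => c.e.symm (b + nrm ρ b * (s : ℂ), t)) ?_ ?_, hnU⟩
    · have hc : Continuous fun s : ℝ => (b + nrm ρ b * (s : ℂ), t) := by fun_prop
      have h : Tendsto (fun s : ℝ => (b + nrm ρ b * (s : ℂ), t)) (𝓝[>] 0) (𝓝 (b, t)) := by
        simpa using (hc.tendsto 0).mono_left nhdsWithin_le_nhds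
      exact (c.e.continuousAt_symm (htar t htT)).tendsto.comp h
    · have hc : Continuous fun s : ℝ => (b + nrm ρ b * (s : ℂ), t) := by fun_prop
      have h : Tendsto (fun s : ℝ => (b + nrm ρ b * (s : ℂ), t)) (𝓝[>] 0) (𝓝 (b, t)) := by
        simpa using (hc.tendsto 0).mono_left nhdsWithin_le_nhds
      filter_upwards [h.eventually (hside t htT),
        eventually_pos_of_compact hρ h0 hd (isCompact_singleton (x := (1 : ℂ))) (by simp)
          univ_mem] with s hs hs'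
      refine hs ?_
      simpa using (hs' 1 rfl).2
  have h1 := hmin (show t ∈ A from ⟨hsub ht.2, htf⟩)
  have h2 := mem_ball.1 ht.1
  simp only [mem_ofPred_eq] at h1
  linarith

end

end Vale.Agent.P274.Surface
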