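import Vale.Agent.P274.Surface.Dense
import Mathlib.Analysis.ODE.Gronwall
import Mathlib.Analysis.Calculus.FDeriv.Analytic
import Mathlib.Analysis.Analytic.Constructions
import Mathlib.Algebra.MvPolynomial.Funext

/-!
Foliations covering the frontier near a peak point.
-/

open Filter Metric Set Function Topology Complex

namespace Vale.Agent.P274.Surface

noncomputable section

/-! ### Real polynomials on `ℂ²` -/

private theorem analyticAt_pev (R : MvPolynomial (Fin 4) ℝ) (z : C2) : AnalyticAt ℝ (pev R) z := by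
  induction R using MvPolynomial.induction_on with
  | C a =>
    have : pev (MvPolynomial.C a) = fun _ => a := by funext w; simp [pev]
    rw [this]
    exact analyticAt_const
  | add P Q hP hQ =>
    have : pev (P + Q) = pev P + pev Q := by funext w; simp [pev]
    rw [this]
    exact hP.add hQ
  | mul_X P i hP =>
    have : pev (P * MvPolynomial.X i) = pev P * DenseReg.cl i := by
      funext w; simp [pev, DenseReg.coord_apply]
    rw [this]
    exact hP.mul ((DenseReg.cl i).analyticAt z)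

private theorem hasStrictFDerivAt_pev (R : MvPolynomial (Fin 4) ℝ) (z : C2) :
    HasStrictFDerivAt (pev R) (∑ i, pev (MvPolynomial.pderiv i R) z • DenseReg.cl i) z :=
  (DenseReg.hasFDerivAt R z).fderiv ▸ (analyticAt_pev R z).hasStrictFDerivAt

/-- The differential in complex notation. -/
private theorem dpev_apply (R : MvPolynomial (Fin 4) ℝ) (z v : C2) :
    (∑ i, pev (MvPolynomial.pderiv i R) z • DenseReg.cl i) v = 2 * (dz1 R z * v.1 + dz2 R z * v.2).re := by
  simp [Fin.sum_univ_four, DenseReg.cl, dz1, dz2]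
  ring

private theorem continuous_dz1 (R : MvPolynomial (Fin 4) ℝ) : Continuous (dz1 R) := by
  have := DenseReg.continuous_pev (MvPolynomial.pderiv 0 R)
  have := DenseReg.continuous_pev (MvPolynomial.pderiv 1 R)
  unfold dz1
  fun_prop

private theorem continuous_dz2 (R : MvPolynomial (Fin 4) ℝ) : Continuous (dz2 R) := by
  have := DenseReg.continuous_pev (MvPolynomial.pderiv 2 R)
  have := DenseReg.continuous_pev (MvPolynomial.pderiv 3 R)
  unfold dz2
  fun_prop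

private theorem dz2_ne {R : MvPolynomial (Fin 4) ℝ} {z : C2}
    (h : pev (MvPolynomial.pderiv 2 R) z ≠ 0 ∨ pev (MvPolynomial.pderiv 3 R) z ≠ 0) :
    dz2 R z ≠ 0 := by
  intro h0
  have hre := congrArg Complex.re h0
  have him := congrArg Complex.im h0
  simp [dz2] at hre him
  tauto

/-- Off the zeros of `dz2` the differential is nonzero. -/
private theorem dR_ne {R : MvPolynomial (Fin 4) ℝ} {z : C2} (h : dz2 R z ≠ 0) :
    (∑ j, pev (MvPolynomial.pderiv j R) z • DenseReg.cl j) ≠ 0 := by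
  intro h0
  have h2 := DFunLike.congr_fun h0 ((0 : ℂ), (2 * dz2 R z)⁻¹)
  simp only [dpev_apply, _root_.zero_apply, mul_zero, zero_add, mul_inv_rev] at h2
  rw [← mul_assoc, mul_inv_cancel₀ h] at h2
  norm_num at h2

/-- At regular zeros of an irreducible `R` one can avoid one partial derivative and all members of
the family not associated to `R`. -/
private theorem exists_avoid {F : Finset (MvPolynomial (Fin 4) ℝ)}
    (hirr : ∀ R ∈ F, Irreducible R) {R : MvPolynomial (Fin 4) ℝ} (hR : R ∈ F)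
    (h : MvPolynomial.pderiv 2 R ≠ 0 ∨ MvPolynomial.pderiv 3 R ≠ 0) :
    ∃ P : MvPolynomial (Fin 4) ℝ, ¬ R ∣ P ∧ ∀ y, pev P y ≠ 0 →
      dz2 R y ≠ 0 ∧ ∀ R' ∈ F, ¬ Associated R R' → pev R' y ≠ 0 := by
  classical
  obtain ⟨j, hj, hjne⟩ : ∃ j, (j = 2 ∨ j = 3) ∧ MvPolynomial.pderiv j R ≠ 0 :=
    h.elim (fun h => ⟨2, Or.inl rfl, h⟩) fun h => ⟨3, Or.inr rfl, h⟩
  refine ⟨MvPolynomial.pderiv j R * ∏ R' ∈ F with ¬ Associated R R', R', fun hd => ?_,
    fun y hy => ?_⟩
  · have hp : Prime R := UniqueFactorizationMonoid.irreducible_iff_prime.1 (hirr R hR)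
    rcases hp.dvd_or_dvd hd with hd | hd
    · exact (DenseReg.totalDegree_pderiv_lt hjne).not_ge
        (MvPolynomial.totalDegree_le_of_dvd_of_isDomain hd hjne)
    · obtain ⟨R', hR', hd'⟩ := hp.exists_mem_finset_dvd hd
      rw [Finset.mem_filter] at hR'
      exact hR'.2 ((hirr R hR).associated_of_dvd (hirr R' hR'.1) hd')
  · simp only [pev, map_mul, map_prod, mul_ne_zero_iff, Finset.prod_ne_zero_iff,
      Finset.mem_filter] at hy
    refine ⟨dz2_ne ?_, fun R' hR' hna => hy.2 R' ⟨hR', hna⟩⟩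
    rcases hj with rfl | rfl
    exacts [Or.inl hy.1, Or.inr hy.1]

/-- A nonzero real polynomial is nonzero somewhere in every nonempty open set. -/
private theorem exists_pev_ne {P : MvPolynomial (Fin 4) ℝ} (hP : P ≠ 0) {O : Set C2}
    (hO : IsOpen O) (hne : O.Nonempty) : ∃ y ∈ O, pev P y ≠ 0 := by
  by_contra hcon
  push Not at hcon
  obtain ⟨c, hc⟩ := hne
  obtain ⟨ε, hε, hεO⟩ := Metric.isOpen_iff.1 hO c hc
  refine hP (MvPolynomial.funext_set (fun i => Ioo (coord c i - ε / 2) (coord c i + ε / 2))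
    (fun i => Ioo_infinite (by linarith)) fun x hx => ?_)
  rw [map_zero]
  have hz : coord ((⟨x 0, x 1⟩ : ℂ), (⟨x 2, x 3⟩ : ℂ)) = x := by
    funext i; fin_cases i <;> rfl
  have habs : ∀ i, |x i - coord c i| < ε / 2 := fun i => by
    have := hx i trivial
    rw [mem_Ioo] at this
    rw [abs_lt]
    constructor <;> linarith
  have := hcon ((⟨x 0, x 1⟩ : ℂ), (⟨x 2, x 3⟩ : ℂ)) (hεO ?_)
  · rwa [pev, hz] at this
  · rw [mem_ball, Prod.dist_eq, dist_eq_norm, dist_eq_norm]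
    refine max_lt ?_ ?_ <;> refine (Complex.norm_le_abs_re_add_abs_im _).trans_lt ?_
    · have h0 := habs 0; have h1 := habs 1
      simp [coord] at h0 h1 ⊢
      linarith
    · have h0 := habs 2; have h1 := habs 3
      simp [coord] at h0 h1 ⊢
      linarith

/-- A nonzero complex polynomial is nonzero somewhere in every nonempty open set. -/
private theorem exists_eval_ne {Q : MvPolynomial (Fin 2) ℂ} (hQ : Q ≠ 0) {O : Set C2}
    (hO : IsOpen O) (hne : O.Nonempty) : ∃ y ∈ O, MvPolynomial.eval ![y.1, y.2] Q ≠ 0 := by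
  by_contra hcon
  push Not at hcon
  obtain ⟨c, hc⟩ := hne
  obtain ⟨ε, hε, hεO⟩ := Metric.isOpen_iff.1 hO c hc
  refine hQ (MvPolynomial.funext_set (fun i => ball (![c.1, c.2] i) ε)
    (fun i => infinite_of_mem_nhds _ (ball_mem_nhds _ hε)) fun x hx => ?_)
  have h2 : ![x 0, x 1] = x := by funext i; fin_cases i <;> rfl
  have := hcon (x 0, x 1) (hεO ?_)
  · rw [map_zero]; rwa [h2] at this
  · rw [mem_ball, Prod.dist_eq]
    exact max_lt (by simpa using hx 0 trivial) (by simpa using hx 1 trivial)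

/-! ### Zero sets of real functions -/

/-- Near a zero at which the differential is nonzero, there is a zero on the transversal line. -/
private theorem eventually_exists_zero {E : Type*} [NormedAddCommGroup E] [NormedSpace ℝ E]
    {F : E → ℝ} {F' : E →L[ℝ] ℝ} {q : E} (hF : HasStrictFDerivAt F F' q) (h0 : F q = 0) {N : E}
    (hN : F' N = 1) {V : Set E} (hV : V ∈ 𝓝 q) :
    ∀ᶠ z in 𝓝 q, ∃ u : ℝ, |F z + u| ≤ |u| / 2 ∧ F (z + u • N) = 0 ∧ z + u • N ∈ V := by
  set c : NNReal := ⟨1 / (2 * (‖N‖ + 1)), by positivity⟩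
  obtain ⟨s, hs, hap⟩ := hF.approximates_deriv_on_nhds (c := c) (Or.inr (by
    rw [← NNReal.coe_pos]
    show (0 : ℝ) < 1 / (2 * (‖N‖ + 1))
    positivity))
  obtain ⟨L, s', hs', hlip⟩ := hF.exists_lipschitzOnWith
  obtain ⟨δ, hδ, hball⟩ := Metric.mem_nhds_iff.1 (inter_mem (inter_mem hs hs') hV)
  have hev : ∀ᶠ z in 𝓝 q, 2 * |F z| * ‖N‖ + dist z q < δ := by
    have hc : ContinuousAt (fun z => 2 * |F z| * ‖N‖ + dist z q) q :=
      ((hF.hasFDerivAt.continuousAt.abs.const_mul 2).mul_const _).add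
        (continuousAt_id.dist continuousAt_const)
    exact hc.eventually (eventually_lt_nhds (by simp [h0, hδ]))
  filter_upwards [hev] with z hz
  have hin : ∀ u ∈ uIcc (-(2 * F z)) 0, z + u • N ∈ ball q δ := by
    intro u hu
    have h1 : |u| ≤ 2 * |F z| := by
      rcases mem_uIcc.1 hu with h | h <;> rw [abs_le] <;>
        constructor <;> linarith [le_abs_self (F z), neg_le_abs (F z), abs_nonneg (F z)]
    rw [mem_ball]
    calc dist (z + u • N) q ≤ dist (z + u • N) z + dist z q := dist_triangle _ _ _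
      _ = |u| * ‖N‖ + dist z q := by simp [dist_eq_norm, norm_smul]
      _ ≤ 2 * |F z| * ‖N‖ + dist z q := by gcongr
      _ < δ := hz
  have hzb : z ∈ ball q δ := by simpa using hin 0 right_mem_uIcc
  have key : ∀ u ∈ uIcc (-(2 * F z)) 0, |F (z + u • N) - F z - u| ≤ |u| / 2 := by
    intro u hu
    have := hap (z + u • N) (hball (hin u hu)).1.1 z (hball hzb).1.1
    simp only [add_sub_cancel_left, map_smul, hN, smul_eq_mul, mul_one, norm_smul,
      Real.norm_eq_abs] at this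
    refine this.trans ?_
    change 1 / (2 * (‖N‖ + 1)) * (|u| * ‖N‖) ≤ |u| / 2
    rw [one_div_mul_eq_div, div_le_iff₀ (by positivity)]
    nlinarith [abs_nonneg u, norm_nonneg N]
  have hcont : ContinuousOn (fun u : ℝ => F (z + u • N)) (uIcc (-(2 * F z)) 0) :=
    hlip.continuousOn.comp (by fun_prop) fun u hu => (hball (hin u hu)).1.2
  have hmem : (0 : ℝ) ∈ uIcc (F (z + (-(2 * F z)) • N)) (F (z + (0 : ℝ) • N)) := by
    have := key _ left_mem_uIcc
    rw [abs_le] at this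
    rw [zero_smul, add_zero, mem_uIcc]
    rcases le_total 0 (F z) with h | h
    · exact Or.inl ⟨by rw [abs_of_nonpos (by linarith)] at this; linarith [this.2], h⟩
    · exact Or.inr ⟨h, by rw [abs_of_nonneg (by linarith)] at this; linarith [this.1]⟩
  obtain ⟨u, hu, hu0⟩ := intermediate_value_uIcc hcont hmem
  refine ⟨u, ?_, hu0, (hball (hin u hu)).2⟩
  have := key u hu
  simp only at hu0
  rwa [hu0, zero_sub, ← neg_add', abs_neg] at this

/-- Two equations with the same regular zero set have proportional signs. -/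
private theorem exists_sign {E : Type*} [NormedAddCommGroup E] [NormedSpace ℝ E]
    {F G : E → ℝ} {F' G' : E →L[ℝ] ℝ} {q : E} (hF : HasStrictFDerivAt F F' q)
    (hG : HasStrictFDerivAt G G' q) (hF0 : F q = 0) (hF' : F' ≠ 0) (hG' : G' ≠ 0)
    (h : ∀ᶠ z in 𝓝 q, F z = 0 → G z = 0) :
    ∃ s : ℝ, s ≠ 0 ∧ ∀ᶠ z in 𝓝 q, (0 < s * G z → 0 < F z) ∧ (G z = 0 → F z = 0) := by
  obtain ⟨N, hN, hγ⟩ : ∃ N, F' N = 1 ∧ G' N ≠ 0 := by
    obtain ⟨N₁, hN₁⟩ : ∃ N, F' N ≠ 0 := by
      by_contra hc; exact hF' (ContinuousLinearMap.ext fun v => by simpa using not_exists.1 hc v)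
    obtain ⟨N₂, hN₂⟩ : ∃ N, G' N ≠ 0 := by
      by_contra hc; exact hG' (ContinuousLinearMap.ext fun v => by simpa using not_exists.1 hc v)
    obtain ⟨N, h1, h2⟩ : ∃ N, F' N ≠ 0 ∧ G' N ≠ 0 := by
      by_cases hA : G' N₁ = 0
      · by_cases hB : F' N₂ = 0
        · exact ⟨N₁ + N₂, by simp [hB, hN₁], by simp [hA, hN₂]⟩
        · exact ⟨N₂, hB, hN₂⟩
      · exact ⟨N₁, hN₁, hA⟩
    exact ⟨(F' N)⁻¹ • N, by simp [h1], by simp [h1, h2]⟩
  set γ := G' N
  set c : NNReal := ⟨|γ| / (2 * (‖N‖ + 1)), by positivity⟩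
  obtain ⟨T, hT, hap⟩ := hG.approximates_deriv_on_nhds (c := c) (Or.inr (by
    rw [← NNReal.coe_pos]
    show (0 : ℝ) < |γ| / (2 * (‖N‖ + 1))
    positivity))
  refine ⟨γ⁻¹, inv_ne_zero hγ, ?_⟩
  filter_upwards [hT, eventually_exists_zero hF hF0 hN (inter_mem hT h)]
    with z hz ⟨u, hu, hu0, hzT, hzG⟩
  have := hap (z + u • N) hzT z hz
  simp only [hzG hu0, add_sub_cancel_left, map_smul, smul_eq_mul, norm_smul,
    Real.norm_eq_abs] at this
  have hle : |G z + u * γ| ≤ |γ| * |u| / 2 := by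
    rw [show 0 - G z - u * γ = -(G z + u * γ) by ring, abs_neg] at this
    refine this.trans ?_
    change |γ| / (2 * (‖N‖ + 1)) * (|u| * ‖N‖) ≤ |γ| * |u| / 2
    rw [div_mul_eq_mul_div, div_le_iff₀ (by positivity)]
    nlinarith [abs_nonneg u, norm_nonneg N, abs_nonneg γ,
      mul_nonneg (abs_nonneg γ) (abs_nonneg u)]
  have hs : |γ⁻¹ * G z + u| ≤ |u| / 2 := by
    rw [show γ⁻¹ * G z + u = γ⁻¹ * (G z + u * γ) by field_simp, abs_mul, abs_inv,
      inv_mul_le_iff₀ (abs_pos.2 hγ)]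
    linarith
  refine ⟨fun hpos => ?_, fun hG0 => ?_⟩
  · rw [abs_le] at hs hu
    rcases le_or_gt 0 u with hu1 | hu1
    · rw [abs_of_nonneg hu1] at hs; linarith [hs.2]
    · rw [abs_of_neg hu1] at hs hu; linarith [hu.1]
  · rw [hG0, mul_zero, zero_add] at hs
    have : u = 0 := abs_eq_zero.1 (le_antisymm (by linarith) (abs_nonneg u))
    simpa [this] using hu0

/-- A function vanishing on a regular zero set is bounded by the defining function. -/
private theorem exists_bound_of_vanish {E V : Type*} [NormedAddCommGroup E] [NormedSpace ℝ E]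
    [NormedAddCommGroup V] {F : E → ℝ} {F' : E →L[ℝ] ℝ} {G : E → V} {q : E}
    (hF : HasStrictFDerivAt F F' q) (hF0 : F q = 0) (hF' : F' ≠ 0) {L : NNReal} {T : Set E}
    (hT : T ∈ 𝓝 q) (hG : LipschitzOnWith L G T) (h : ∀ᶠ z in 𝓝 q, F z = 0 → G z = 0) :
    ∃ K, ∀ᶠ z in 𝓝 q, ‖G z‖ ≤ K * |F z| := by
  obtain ⟨N₁, hN₁⟩ : ∃ N, F' N ≠ 0 := by
    by_contra hc; exact hF' (ContinuousLinearMap.ext fun v => by simpa using not_exists.1 hc v)
  set N := (F' N₁)⁻¹ • N₁
  have hN : F' N = 1 := by simp [N, hN₁]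
  refine ⟨L * (2 * ‖N‖), ?_⟩
  filter_upwards [hT, eventually_exists_zero hF hF0 hN (inter_mem hT h)]
    with z hz ⟨u, hu, hu0, hzT, hzG⟩
  have hu2 : |u| ≤ 2 * |F z| := by
    have : |u| - |F z| ≤ |F z + u| := by
      have := abs_sub (F z + u) (F z)
      rw [add_sub_cancel_left] at this
      linarith
    linarith
  calc ‖G z‖ = dist (G z) (G (z + u • N)) := by rw [hzG hu0, dist_zero_right]
    _ ≤ L * dist z (z + u • N) := hG.dist_le_mul z hz _ hzT
    _ = L * (|u| * ‖N‖) := by simp [dist_eq_norm, norm_smul]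
    _ ≤ L * (2 * |F z| * ‖N‖) := by gcongr
    _ = L * (2 * ‖N‖) * |F z| := by ring

/-! ### Leaves -/

/-- A holomorphic leaf along which the defect of tangency is controlled by `R` stays in
`R = 0`. -/
private theorem leaf_vanish {R : MvPolynomial (Fin 4) ℝ} {σ g : C2 → ℂ} {p : C2} {δ : ℝ}
    (hg : DifferentiableOn ℂ g (ball p δ))
    (hode : ∀ y ∈ ball p δ, HasDerivAt (fun t => g (t, y.2)) (σ (y.1, g y)) y.1) {t₀ h : ℂ}
    (ht₀ : t₀ ∈ ball p.1 δ) (hh : h ∈ ball p.2 δ) (h0 : pev R (t₀, g (t₀, h)) = 0) {K : ℝ}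
    (hK : ∀ᶠ w in 𝓝 (t₀, g (t₀, h)), ‖dz1 R w + σ w * dz2 R w‖ ≤ K * |pev R w|) :
    ∀ t ∈ ball p.1 δ, pev R (t, g (t, h)) = 0 := by
  have hmem : ∀ t ∈ ball p.1 δ, (t, h) ∈ ball p δ := fun t ht => by
    rw [← Prod.mk.eta (p := p), ← ball_prod_same]; exact ⟨ht, hh⟩
  set ℓ : ℂ → C2 := fun t => (t, g (t, h))
  have hℓ : DifferentiableOn ℂ ℓ (ball p.1 δ) := differentiableOn_id.prodMk
    (hg.comp (differentiableOn_id.prodMk (differentiableOn_const h)) hmem)
  have han : AnalyticOnNhd ℝ (fun t => pev R (ℓ t)) (ball p.1 δ) := fun t ht =>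
    (analyticAt_pev R (ℓ t)).comp (hℓ.analyticOnNhd isOpen_ball t ht).restrictScalars
  have hev : ∀ᶠ t in 𝓝 t₀, t ∈ ball p.1 δ ∧ ‖dz1 R (ℓ t) + σ (ℓ t) * dz2 R (ℓ t)‖ ≤
      K * |pev R (ℓ t)| :=
    (isOpen_ball.eventually_mem ht₀).and
      ((hℓ.continuousOn.continuousAt (isOpen_ball.mem_nhds ht₀)).eventually hK)
  obtain ⟨ε, hε, hεb⟩ := Metric.eventually_nhds_iff_ball.1 hev
  refine fun t ht => han.eqOn_zero_of_preconnected_of_eventuallyEq_zero
    (convex_ball _ _).isPreconnected ht₀ ?_ ht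
  filter_upwards [ball_mem_nhds t₀ hε] with t ht
  set θ := t - t₀
  have hseg : ∀ s ∈ Icc (0 : ℝ) 1, t₀ + (s : ℂ) * θ ∈ ball t₀ ε := by
    intro s hs
    rw [mem_ball, dist_eq_norm] at ht ⊢
    rw [add_sub_cancel_left, norm_mul, Complex.norm_real, Real.norm_eq_abs, abs_of_nonneg hs.1]
    exact (mul_le_of_le_one_left (norm_nonneg _) hs.2).trans_lt ht
  have hd : ∀ s ∈ Icc (0 : ℝ) 1, HasDerivAt (fun s : ℝ => pev R (ℓ (t₀ + s * θ)))
      (2 * (θ * (dz1 R (ℓ (t₀ + s * θ)) + σ (ℓ (t₀ + s * θ)) * dz2 R (ℓ (t₀ + s * θ)))).re) s := by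
    intro s hs
    have h1 : HasDerivAt ℓ (1, σ (ℓ (t₀ + s * θ))) (t₀ + s * θ) :=
      (hasDerivAt_id (t₀ + s * θ)).prodMk (hode (t₀ + s * θ, h) (hmem _ (hεb _ (hseg s hs)).1))
    have h2 : HasDerivAt (fun s : ℝ => t₀ + (s : ℂ) * θ) θ s := by
      simpa using ((hasDerivAt_id s).ofReal_comp.mul_const θ).const_add t₀
    have h3 := (DenseReg.hasFDerivAt R (ℓ (t₀ + s * θ))).comp_hasDerivAt s (h1.scomp s h2)
    refine h3.congr_deriv ?_
    rw [dpev_apply]
    simp
    ring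
  have hz := eq_zero_of_abs_deriv_le_mul_abs_self_of_eq_zero_right
    (K := 2 * ‖θ‖ * K) (fun s hs => (hd s hs).continuousAt.continuousWithinAt)
    (fun s hs => (hd s (Ico_subset_Icc_self hs)).hasDerivWithinAt) (by simpa [ℓ] using h0)
    (fun s hs => ?_) 1 (right_mem_Icc.2 zero_le_one)
  · simpa [θ] using hz
  · rw [Real.norm_eq_abs, Real.norm_eq_abs, abs_mul, abs_two, mul_assoc, mul_assoc]
    gcongr
    refine (Complex.abs_re_le_norm _).trans ?_
    rw [norm_mul]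
    gcongr
    exact (hεb _ (hseg s (Ico_subset_Icc_self hs))).2

/-- The function whose maximum defines the peak. -/
private theorem exists_sphere_ge {Q : MvPolynomial (Fin 2) ℂ} {ε ρ : ℝ} (hε : 0 < ε) (hρ : 0 < ρ)
    {L : ℂ → C2} {t₀ : ℂ} (hL : DifferentiableOn ℂ L (closedBall t₀ ρ))
    (hL1 : ∀ t ∈ closedBall t₀ ρ, (L t).1 = t) :
    ∃ t ∈ sphere t₀ ρ,
      ‖MvPolynomial.eval ![(L t₀).1, (L t₀).2] Q‖ ^ 2 +
          ε * (‖(L t₀).1‖ ^ 2 + ‖(L t₀).2‖ ^ 2) + ε * ρ ^ 2 ≤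
        ‖MvPolynomial.eval ![(L t).1, (L t).2] Q‖ ^ 2 +
          ε * (‖(L t).1‖ ^ 2 + ‖(L t).2‖ ^ 2) := by
  set q : C2 → ℂ := fun y => MvPolynomial.eval ![y.1, y.2] Q
  set h : ℂ → ℂ := fun t => (starRingEnd ℂ) (q (L t₀)) * q (L t) +
    (ε : ℂ) * ((starRingEnd ℂ) (L t₀).1 * (L t).1 + (starRingEnd ℂ) (L t₀).2 * (L t).2)
  have hh : DifferentiableOn ℂ h (closedBall t₀ ρ) :=
    (((differentiable_eval Q).comp_differentiableOn hL).const_mul _).add
      (((hL.fst.const_mul _).add (hL.snd.const_mul _)).const_mul _)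
  obtain ⟨t, ht, hmax⟩ : ∃ t ∈ sphere t₀ ρ, (h t₀).re ≤ (h t).re := by
    obtain ⟨t, ht, hmax⟩ := (isCompact_sphere t₀ ρ).exists_isMaxOn
      (NormedSpace.sphere_nonempty.2 hρ.le) (Complex.continuous_re.comp_continuousOn
        (hh.continuousOn.mono sphere_subset_closedBall))
    refine ⟨t, ht, Real.exp_le_exp.1 ?_⟩
    have hd : DiffContOnCl ℂ (fun t => Complex.exp (h t)) (ball t₀ ρ) :=
      DifferentiableOn.diffContOnCl (by rw [closure_ball _ hρ.ne']; exact hh.cexp)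
    have := Complex.norm_le_of_forall_mem_frontier_norm_le isBounded_ball hd
      (C := Real.exp (h t).re) (fun s hs => by
        rw [frontier_ball _ hρ.ne'] at hs
        rw [Complex.norm_exp]
        exact Real.exp_le_exp.2 (hmax hs))
      (subset_closure (mem_ball_self hρ))
    rwa [Complex.norm_exp] at this
  refine ⟨t, ht, ?_⟩
  have e1 : ∀ u v : ℂ, ‖v‖ ^ 2 = 2 * ((starRingEnd ℂ) u * v).re - ‖u‖ ^ 2 + ‖v - u‖ ^ 2 := by
    intro u v
    simp only [← Complex.normSq_eq_norm_sq, Complex.normSq_apply, Complex.mul_re, Complex.conj_re,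
      Complex.conj_im, Complex.sub_re, Complex.sub_im]
    ring
  have hρt : ‖(L t).1 - (L t₀).1‖ = ρ := by
    rw [hL1 t (sphere_subset_closedBall ht), hL1 t₀ (mem_closedBall_self hρ.le), ← dist_eq_norm]
    exact ht
  have h0 : (h t₀).re = ‖q (L t₀)‖ ^ 2 + ε * (‖(L t₀).1‖ ^ 2 + ‖(L t₀).2‖ ^ 2) := by
    simp [h, Complex.conj_mul', Complex.add_re, ← Complex.ofReal_pow]
  have h1 : (h t).re = ((starRingEnd ℂ) (q (L t₀)) * q (L t)).re +
      ε * (((starRingEnd ℂ) (L t₀).1 * (L t).1).re +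
        ((starRingEnd ℂ) (L t₀).2 * (L t).2).re) := by
    simp [h, Complex.add_re]
  rw [h0, h1] at hmax
  change ‖q (L t₀)‖ ^ 2 + _ + _ ≤ ‖q (L t)‖ ^ 2 + _
  rw [e1 (q (L t₀)) (q (L t)), e1 (L t₀).1 (L t).1, e1 (L t₀).2 (L t).2, hρt]
  nlinarith [sq_nonneg ‖q (L t) - q (L t₀)‖,
    mul_nonneg hε.le (sq_nonneg ‖(L t).2 - (L t₀).2‖)]

/-- The differential of a holomorphic chart is injective. -/
private theorem chart_injective {e : OpenPartialHomeomorph C2 C2} {y : C2} (hy : y ∈ e.source)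
    (hd : DifferentiableAt ℂ e y) (hs : DifferentiableOn ℂ e.symm e.target) :
    Injective (fderiv ℂ e y) := by
  have h1 := ((hs _ (e.map_source hy)).differentiableAt
    (e.open_target.mem_nhds (e.map_source hy))).hasFDerivAt.comp y hd.hasFDerivAt
  have h2 := h1.unique ((hasFDerivAt_id y).congr_of_eventuallyEq
    (eventually_of_mem (e.open_source.mem_nhds hy) fun z hz => e.left_inv hz))
  intro v w hvw
  have hv := DFunLike.congr_fun h2 v
  have hw := DFunLike.congr_fun h2 w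
  simp only [ContinuousLinearMap.comp_apply, ContinuousLinearMap.id_apply] at hv hw
  rw [← hv, ← hw, hvw]

theorem Sys.exists_web (Ω : Sys) {F : Finset (MvPolynomial (Fin 4) ℝ)}
    (hirr : ∀ R ∈ F, Irreducible R)
    (hdense : ∀ q ∈ frontier Ω.U, ∀ O ∈ 𝓝 q, ∃ y ∈ O, ∃ R ∈ F, RegPt Ω.U R y)
    (hsign : SignConst Ω.U F) (hflat : ∀ R ∈ F, (∃ y, RegPt Ω.U R y) → R ∣ leviPoly R ∧
      (MvPolynomial.pderiv 2 R ≠ 0 ∨ MvPolynomial.pderiv 3 R ≠ 0)) :
    Nonempty (Web Ω.U) := by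
  classical
  set F' := F.filter fun R => ∃ y, RegPt Ω.U R y
  have hFm : ∀ {R}, R ∈ F' → R ∈ F ∧ ∃ y, RegPt Ω.U R y := fun h => Finset.mem_filter.1 h
  have hzero : ∀ {R y}, RegPt Ω.U R y → pev R y = 0 := fun h =>
    h.local_eq.self_of_nhds.1.1 h.mem_frontier
  -- slopes
  choose Sl hSl0 hSl using fun R : F' =>
    exists_slope_poly (hirr _ (hFm R.2).1)
      ⟨_, hzero (hFm R.2).2.choose_spec, (hFm R.2).2.choose_spec.fderiv_ne⟩
      (hflat _ (hFm R.2).1 (hFm R.2).2).1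
  obtain ⟨S, Q, hQ, hS⟩ := exists_squarefree (Finset.univ.image Sl) (fun T hT => by obtain ⟨R, -, rfl⟩ := Finset.mem_image.1 hT; exact hSl0 R)
  -- the peak
  obtain ⟨Rb, hRb0, hRb⟩ := Ω.exists_bound
  obtain ⟨y₀, hy₀U, hy₀⟩ := exists_eval_ne hQ Ω.isOpen_U Ω.nonempty_U
  set ε := ‖MvPolynomial.eval ![y₀.1, y₀.2] Q‖ ^ 2 / (2 * Rb ^ 2 + 1) with hεdef
  have hεpos : 0 < ε := div_pos (by positivity) (by positivity)
  set φ : C2 → ℝ := fun y =>
    ‖MvPolynomial.eval ![y.1, y.2] Q‖ ^ 2 + ε * (‖y.1‖ ^ 2 + ‖y.2‖ ^ 2)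
  have hφc : Continuous φ := by
    have := (differentiable_eval Q).continuous
    simp only [φ]
    fun_prop
  obtain ⟨p, hp, hmax⟩ := Ω.bounded_U.isCompact_closure.exists_isMaxOn Ω.nonempty_U.closure
    hφc.continuousOn
  have hQp : MvPolynomial.eval ![p.1, p.2] Q ≠ 0 := by
    intro h0
    have h1 : φ y₀ ≤ φ p := hmax (subset_closure hy₀U)
    have hb : ‖p‖ ≤ Rb := closure_minimal (fun z hz => hRb z hz)
      (isClosed_le continuous_norm continuous_const) hp
    have h2 : ε * (2 * Rb ^ 2 + 1) = ‖MvPolynomial.eval ![y₀.1, y₀.2] Q‖ ^ 2 := by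
      rw [hεdef]; field_simp
    simp only [φ, h0, norm_zero] at h1
    nlinarith [sq_nonneg ‖y₀.1‖, sq_nonneg ‖y₀.2‖,
      pow_le_pow_left₀ (norm_nonneg _) ((norm_fst_le p).trans hb) 2,
      pow_le_pow_left₀ (norm_nonneg _) ((norm_snd_le p).trans hb) 2,
      mul_nonneg hεpos.le (sq_nonneg ‖y₀.1‖), mul_nonneg hεpos.le (sq_nonneg ‖y₀.2‖)]
  have hpfr : p ∈ frontier Ω.U := by
    refine ⟨hp, fun hpi => ?_⟩
    rw [Ω.isOpen_U.interior_eq] at hpi
    obtain ⟨ρ, hρ, hρU⟩ := Metric.nhds_basis_closedBall.mem_iff.1 (Ω.isOpen_U.mem_nhds hpi)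
    obtain ⟨t, ht, hge⟩ := exists_sphere_ge (Q := Q) hεpos hρ (L := fun t => (t, p.2)) (t₀ := p.1)
      (differentiableOn_id.prodMk (differentiableOn_const _)) (fun t _ => rfl)
    have hin : (t, p.2) ∈ closedBall p ρ := by
      simp [Prod.dist_eq, mem_sphere.1 ht, hρ.le]
    have : φ (t, p.2) ≤ φ p := hmax (subset_closure (hρU hin))
    simp only [φ] at this
    nlinarith [mul_pos hεpos (pow_pos hρ 2)]
  -- branches and flows
  obtain ⟨r₀, hr₀, σ, hσd, hroot, hinj⟩ :=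
    exists_branches S p (hS p hQp).1 (hS p hQp).2.1
  obtain ⟨r₁, hr₁, hQ₁⟩ := Metric.eventually_nhds_iff_ball.1
    ((differentiable_eval Q).continuous.continuousAt.eventually_ne hQp)
  choose rf hrf g hgd hgb hflow using fun i => exists_flow hr₀ (hσd i)
  set Φ : Fin S.natDegree → C2 → C2 := fun i x => (x.1, g i x)
  have hgp : ∀ i, g i p = p.2 := fun i => hgb i p.2 (mem_ball_self (hrf i))
  have hΦd : ∀ i, DifferentiableOn ℂ (Φ i) (ball p (rf i)) := fun i =>
    differentiableOn_fst.prodMk (hgd i)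
  have hΦinj : ∀ i, Injective (fderiv ℂ (Φ i) p) := by
    intro i
    have hg : HasFDerivAt (g i) (fderiv ℂ (g i) p) p :=
      ((hgd i p (mem_ball_self (hrf i))).differentiableAt (ball_mem_nhds p (hrf i))).hasFDerivAt
    have hΦ : HasFDerivAt (Φ i) _ p := hasFDerivAt_fst.prodMk hg
    have hl : HasDerivAt (fun b : ℂ => (p.1, b)) ((0 : ℂ), (1 : ℂ)) p.2 :=
      (hasDerivAt_const p.2 p.1).prodMk (hasDerivAt_id p.2)
    have hline := hg.comp_hasDerivAt p.2 hl
    have h01 : fderiv ℂ (g i) p (0, 1) = 1 := hline.unique ((hasDerivAt_id p.2).congr_of_eventuallyEq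
      (eventually_of_mem (ball_mem_nhds p.2 (hrf i)) fun b hb => hgb i b hb))
    rw [injective_iff_map_eq_zero]
    intro v hv
    rw [hΦ.fderiv, ContinuousLinearMap.prod_apply, Prod.mk_eq_zero] at hv
    have hv1 : v.1 = 0 := hv.1
    have hv' : v = v.2 • ((0 : ℂ), (1 : ℂ)) := by ext <;> simp [hv1]
    have h2 := hv.2
    rw [hv', map_smul, h01, smul_eq_mul, mul_one] at h2
    rw [hv', h2, zero_smul]
  choose e hpe hesub heq hed using fun i =>
    exists_chart isOpen_ball (hΦd i) (mem_ball_self (hrf i)) (hΦinj i)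
  have hΦp : ∀ i, Φ i p = p := fun i => by simp [Φ, hgp]
  obtain ⟨δ, hδ, hδe⟩ := Metric.mem_nhds_iff.1
    (inter_mem (inter_mem (ball_mem_nhds p hr₀) (ball_mem_nhds p hr₁))
      (iInter_mem.2 fun i => (e i).open_source.mem_nhds (hpe i)))
  have hδs : ∀ i, ∀ x ∈ ball p δ, x ∈ (e i).source ∧ x ∈ ball p (rf i) := fun i x hx =>
    ⟨mem_iInter.1 (hδe hx).2 i, hesub i (mem_iInter.1 (hδe hx).2 i)⟩
  have hprod : ∀ {t h : ℂ}, t ∈ ball p.1 δ → h ∈ ball p.2 δ → (t, h) ∈ ball p δ := fun ht hh => by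
    rw [← Prod.mk.eta (p := p), ← ball_prod_same]; exact ⟨ht, hh⟩
  have hprod' : ∀ {x : C2}, x ∈ ball p δ → x.1 ∈ ball p.1 δ ∧ x.2 ∈ ball p.2 δ := fun {x} hx => by
    rw [← Prod.mk.eta (p := p), ← ball_prod_same] at hx; exact hx
  -- the shifted base point
  set P : MvPolynomial (Fin 4) ℝ := ∏ R ∈ F', R
  have hP : P ≠ 0 := Finset.prod_ne_zero_iff.2 fun R hR => (hirr R (hFm hR).1).ne_zero
  obtain ⟨⟨a, w₁⟩, hy₁, hPa0⟩ := exists_pev_ne hP (isOpen_ball (x := p) (ε := δ))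
    ⟨p, mem_ball_self hδ⟩
  have ha : a ∈ ball p.1 δ := (hprod' hy₁).1
  set Pa : MvPolynomial (Fin 2) ℝ := MvPolynomial.aeval
    ![MvPolynomial.C a.re, MvPolynomial.C a.im, MvPolynomial.X 0, MvPolynomial.X 1] P
  have hPa : ∀ b : ℂ, P274.pev Pa b = pev P (a, b) := by
    intro b
    rw [P274.pev, pev]
    simp only [Pa, MvPolynomial.aeval_def, MvPolynomial.algebraMap_eq, ← MvPolynomial.eval_assoc]
    congr 1
    congr 1
    funext j
    fin_cases j <;> simp [coord]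
  have hPane : Pa ≠ 0 := fun h0 => hPa0 (by rw [← hPa w₁, h0]; simp [P274.pev])
  obtain ⟨X, hXfin, hXreg⟩ := exists_curve_data hPane
  set C : Set ℂ := {b | P274.pev Pa b = 0}
  -- the first integrals
  set hh : Fin S.natDegree → C2 → ℂ := fun i y => ((e i).symm y).2
  set f : Fin S.natDegree → C2 → ℂ := fun i y => g i (a, hh i y)
  have hback : ∀ i, ∀ x ∈ ball p δ, Φ i x ∈ (e i).target ∧ (e i).symm (Φ i x) = x := fun i x hx =>
    ⟨heq i ▸ (e i).map_source (hδs i x hx).1, heq i ▸ (e i).left_inv (hδs i x hx).1⟩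
  set O : Fin S.natDegree → Set C2 := fun i => (e i).target ∩ (e i).symm ⁻¹' ball p δ
  have hOo : ∀ i, IsOpen (O i) := fun i => (e i).isOpen_inter_preimage_symm isOpen_ball
  have hfwd : ∀ i, ∀ y ∈ O i, (y.1, hh i y) ∈ ball p δ ∧ g i (y.1, hh i y) = y.2 := by
    intro i y hy
    have h1 : Φ i ((e i).symm y) = y := heq i ▸ (e i).right_inv hy.1
    have h2 : ((e i).symm y).1 = y.1 := by
      have h : (Φ i ((e i).symm y)).1 = y.1 := by rw [h1]
      exact h
    have h3 : (y.1, hh i y) = (e i).symm y := by rw [← h2]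
    rw [h3]
    have h : (Φ i ((e i).symm y)).2 = y.2 := by rw [h1]
    exact ⟨hy.2, h⟩
  have hpO : ∀ i, p ∈ O i := fun i => by
    have h := hback i p (mem_ball_self hδ)
    rw [hΦp] at h
    exact ⟨h.1, by rw [mem_preimage, h.2]; exact mem_ball_self hδ⟩
  have hhd : ∀ i, ∀ y ∈ O i, DifferentiableAt ℂ (hh i) y := fun i y hy =>
    differentiableAt_snd.comp y ((hed i y hy.1).differentiableAt ((e i).open_target.mem_nhds hy.1))
  have hfd : ∀ i, ∀ y ∈ O i, DifferentiableAt ℂ (f i) y := fun i y hy =>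
    (((hgd i _ (hδs i _ (hprod ha (hprod' (hfwd i y hy).1).2)).2).differentiableAt
      (isOpen_ball.mem_nhds (hδs i _ (hprod ha (hprod' (hfwd i y hy).1).2)).2))).comp y
      ((differentiableAt_const a).prodMk (hhd i y hy))
  have hleaf : ∀ i t h, (t, h) ∈ ball p δ → hh i (t, g i (t, h)) = h := fun i t h hth =>
    congrArg Prod.snd (hback i (t, h) hth).2
  -- charts straightening the foliations
  set Ψ : Fin S.natDegree → C2 → C2 := fun i y => (f i y, y.1)
  have hΨinj : ∀ i, Injective (fderiv ℂ (Ψ i) p) := by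
    intro i
    have hf : HasFDerivAt (f i) (fderiv ℂ (f i) p) p := (hfd i p (hpO i)).hasFDerivAt
    have hΨ : HasFDerivAt (Ψ i) _ p := hf.prodMk hasFDerivAt_fst
    set pa : C2 := (a, p.2)
    have hpa : pa ∈ ball p δ := hprod ha (mem_ball_self hδ)
    have hga : HasFDerivAt (g i) (fderiv ℂ (g i) pa) pa := ((hgd i pa (hδs i pa hpa).2)
      |>.differentiableAt (isOpen_ball.mem_nhds (hδs i pa hpa).2)).hasFDerivAt
    have hne : fderiv ℂ (g i) pa (0, 1) ≠ 0 := by
      intro h0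
      have hde : HasFDerivAt (e i) ((ContinuousLinearMap.fst ℂ ℂ ℂ).prod (fderiv ℂ (g i) pa)) pa := by
        rw [heq i]
        exact hasFDerivAt_fst.prodMk hga
      have := chart_injective (hδs i pa hpa).1 hde.differentiableAt (hed i)
      rw [hde.fderiv] at this
      have h2 := @this ((0 : ℂ), (1 : ℂ)) 0 (by simp [h0])
      simp [Prod.ext_iff] at h2
    have hl : HasDerivAt (fun b : ℂ => (p.1, b)) ((0 : ℂ), (1 : ℂ)) p.2 :=
      (hasDerivAt_const p.2 p.1).prodMk (hasDerivAt_id p.2)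
    have hl' : HasDerivAt (fun b : ℂ => (a, b)) ((0 : ℂ), (1 : ℂ)) p.2 :=
      (hasDerivAt_const p.2 a).prodMk (hasDerivAt_id p.2)
    have hline := hf.comp_hasDerivAt p.2 hl
    have hline' := hga.comp_hasDerivAt p.2 hl'
    have heqd : fderiv ℂ (f i) p (0, 1) = fderiv ℂ (g i) pa (0, 1) := by
      refine hline.unique (hline'.congr_of_eventuallyEq ?_)
      filter_upwards [ball_mem_nhds p.2 (hrf i), ball_mem_nhds p.2 hδ] with b hb hbδ
      have h := hleaf i p.1 b (hprod (mem_ball_self hδ) hbδ)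
      rw [hgb i b hb] at h
      simp [f, h]
    rw [injective_iff_map_eq_zero]
    intro v hv
    rw [hΨ.fderiv, ContinuousLinearMap.prod_apply, Prod.mk_eq_zero] at hv
    have hv1 : v.1 = 0 := hv.2
    have hv' : v = v.2 • ((0 : ℂ), (1 : ℂ)) := by ext <;> simp [hv1]
    have h2 := hv.1
    rw [hv', map_smul, heqd, smul_eq_mul] at h2
    rw [hv', (mul_eq_zero.1 h2).resolve_right hne, zero_smul]
  choose E hpE hEsub hEeq hEd using fun i => exists_chart (hOo i)
    (fun y hy => ((hfd i y hy).prodMk differentiableAt_fst).differentiableWithinAt) (hpO i)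
    (hΨinj i)
  set B : Set C2 := ball p δ ∩ ⋂ i, (E i).source
  have hB : IsOpen B := isOpen_ball.inter (isOpen_iInter_of_finite fun i => (E i).open_source)
  have hpB : p ∈ B := ⟨mem_ball_self hδ, mem_iInter.2 hpE⟩
  have hBs : ∀ i, ∀ y ∈ B, y ∈ (E i).source := fun i y hy => mem_iInter.1 hy.2 i
  have hBO : ∀ i, ∀ y ∈ B, y ∈ O i := fun i y hy => hEsub i (hBs i y hy)
  have hnd : ∀ i, ∀ y ∈ B, fderiv ℂ (f i) y (0, 1) ≠ 0 := by
    intro i y hy h0
    have hde : HasFDerivAt (E i)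
        ((fderiv ℂ (f i) y).prod (ContinuousLinearMap.fst ℂ ℂ ℂ)) y := by
      rw [hEeq i]
      exact (hfd i y (hBO i y hy)).hasFDerivAt.prodMk hasFDerivAt_fst
    have := chart_injective (hBs i y hy) hde.differentiableAt (hEd i)
    rw [hde.fderiv] at this
    have h2 := @this ((0 : ℂ), (1 : ℂ)) 0 (by simp [h0])
    simp [Prod.ext_iff] at h2
  have hfℓ : ∀ i t h, (t, h) ∈ ball p δ → f i (t, g i (t, h)) = g i (a, h) := fun i t h hth => by
    simp only [f, hleaf i t h hth]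
  have htan : ∀ i, ∀ y ∈ B, fderiv ℂ (f i) y (1, σ i y) = 0 := by
    intro i y hy
    obtain ⟨hmem, hg2⟩ := hfwd i y (hBO i y hy)
    have hode := (hflow i _ (hδs i _ hmem).2).2
    simp only [hg2, Prod.mk.eta] at hode
    have hf : HasFDerivAt (f i) (fderiv ℂ (f i) y) (y.1, g i (y.1, hh i y)) := by
      rw [hg2, Prod.mk.eta]; exact (hfd i y (hBO i y hy)).hasFDerivAt
    have hl : HasDerivAt (fun t : ℂ => (t, g i (t, hh i y))) ((1 : ℂ), σ i y) y.1 :=
      (hasDerivAt_id y.1).prodMk hode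
    have hline := hf.comp_hasDerivAt y.1 hl
    refine hline.unique ((hasDerivAt_const y.1 (g i (a, hh i y))).congr_of_eventuallyEq ?_)
    filter_upwards [isOpen_ball.mem_nhds (hprod' hmem).1] with t ht
    exact hfℓ i t _ (hprod ht (hprod' hmem).2)
  have htrans : ∀ i j, i ≠ j → ∀ y ∈ B,
      fderiv ℂ (f i) y (1, 0) * fderiv ℂ (f j) y (0, 1) -
        fderiv ℂ (f i) y (0, 1) * fderiv ℂ (f j) y (1, 0) ≠ 0 := by
    intro i j hij y hy
    have key : ∀ k, fderiv ℂ (f k) y (1, 0) = -(σ k y * fderiv ℂ (f k) y (0, 1)) := by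
      intro k
      have h := htan k y hy
      rw [show ((1 : ℂ), σ k y) = ((1 : ℂ), (0 : ℂ)) + σ k y • ((0 : ℂ), (1 : ℂ)) by simp,
        map_add, map_smul, smul_eq_mul] at h
      linear_combination h
    have hne : σ j y - σ i y ≠ 0 :=
      sub_ne_zero.2 fun h => hij (hinj y (hδe hy.1).1.1 h).symm
    rw [key i, key j]
    intro h
    refine mul_ne_zero (mul_ne_zero hne (hnd i y hy)) (hnd j y hy) ?_
    linear_combination h
  -- every regular point puts a leaf into the curve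
  have hC : ∀ R ∈ F', ∀ y ∈ B, pev R y = 0 → dz2 R y ≠ 0 →
      ∃ i, ∀ᶠ z in 𝓝 y, pev R z = 0 → f i z ∈ C := by
    intro R hR y hy hy0 hy2
    have hrootS : ∀ z ∈ ball p δ, pev R z = 0 → dz2 R z ≠ 0 →
        ∃ i, -dz1 R z / dz2 R z = σ i z := by
      intro z hz hz0 hz2
      exact (hroot z (hδe hz).1.1 _).1 ((hS z (hQ₁ z (hδe hz).1.2)).2.2 (Sl ⟨R, hR⟩)
        (Finset.mem_image_of_mem _ (Finset.mem_univ _)) _ (hSl ⟨R, hR⟩ z hz0 hz2))
    obtain ⟨i, hi⟩ := hrootS y hy.1 hy0 hy2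
    have hyb : y ∈ ball p r₀ := (hδe hy.1).1.1
    have hsc : ContinuousAt (fun z => -dz1 R z / dz2 R z) y :=
      (continuous_dz1 R).neg.continuousAt.div (continuous_dz2 R).continuousAt hy2
    have hσc : ∀ j, ContinuousAt (σ j) y := fun j =>
      (hσd j).continuousOn.continuousAt (isOpen_ball.mem_nhds hyb)
    have hevE : ∀ᶠ z in 𝓝 y, pev R z = 0 → dz1 R z + σ i z * dz2 R z = 0 := by
      have hne : ∀ᶠ z in 𝓝 y, ∀ j, j ≠ i → -dz1 R z / dz2 R z ≠ σ j z := by
        refine eventually_all.2 fun j => ?_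
        by_cases hj : j = i
        · simp [hj]
        · filter_upwards [(hsc.sub (hσc j)).eventually_ne (y := 0) (by
            rw [Pi.sub_apply, hi, sub_ne_zero]
            exact fun h => hj (hinj y hyb h).symm)] with z hz _ using sub_ne_zero.1 hz
      filter_upwards [hne, isOpen_ball.eventually_mem hy.1,
        (continuous_dz2 R).continuousAt.eventually_ne hy2] with z hz hzb hz2 hz0
      obtain ⟨j, hj⟩ := hrootS z hzb hz0 hz2
      have hji : j = i := by
        by_contra h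
        exact hz j h hj
      subst hji
      rw [← hj]
      field_simp
      ring
    have hσ' : HasStrictFDerivAt (σ i) ((fderiv ℂ (σ i) y).restrictScalars ℝ) y :=
      (hasStrictFDerivAt isOpen_ball (hσd i) hyb).restrictScalars ℝ
    have hof : ∀ P : MvPolynomial (Fin 4) ℝ, HasStrictFDerivAt (fun z => (pev P z : ℂ))
        (ofRealCLM.comp (∑ j, pev (MvPolynomial.pderiv j P) y • DenseReg.cl j)) y := fun P =>
      ofRealCLM.hasStrictFDerivAt.comp y (hasStrictFDerivAt_pev P y)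
    obtain ⟨L, T, hT, hlip⟩ := ((((hof _).sub ((hof _).const_mul I)).mul_const (2 : ℂ)⁻¹).add
      (hσ'.mul (((hof _).sub ((hof _).const_mul I)).mul_const (2 : ℂ)⁻¹))).exists_lipschitzOnWith
        (f := fun z => dz1 R z + σ i z * dz2 R z)
    obtain ⟨K, hK⟩ := exists_bound_of_vanish (hasStrictFDerivAt_pev R y) hy0 (dR_ne hy2) hT hlip hevE
    refine ⟨i, ?_⟩
    filter_upwards [hK.eventually_nhds, hB.eventually_mem hy] with z hz hzB hz0
    obtain ⟨hmem, hg2⟩ := hfwd i z (hBO i z hzB)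
    have hz' : (z.1, g i (z.1, hh i z)) = z := by rw [hg2]
    have h := leaf_vanish (hgd i |>.mono fun x hx => (hδs i x hx).2)
      (fun x hx => (hflow i x (hδs i x hx).2).2) (hprod' hmem).1 (hprod' hmem).2
      (by rw [hz']; exact hz0) (by rw [hz']; exact hz) a ha
    show P274.pev Pa (f i z) = 0
    rw [hPa]
    simp only [pev, P, map_prod]
    exact Finset.prod_eq_zero hR h
  have hgood : ∀ y ∈ frontier Ω.U, ∀ W ∈ 𝓝 y, ∃ z ∈ W, ∃ R ∈ F',
      (∀ᶠ x in 𝓝 z, (x ∈ frontier Ω.U ↔ pev R x = 0) ∧ (0 < pev R x → x ∈ Ω.U)) ∧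
        pev R z = 0 ∧ ∃ P : MvPolynomial (Fin 4) ℝ, pev P z ≠ 0 ∧ ∀ x, pev P x ≠ 0 →
          dz2 R x ≠ 0 ∧ ∀ R' ∈ F, ¬ Associated R R' → pev R' x ≠ 0 := by
    intro y hy W hW
    obtain ⟨y₁, hy₁, R, hR, hreg⟩ := hdense y hy (interior W) (interior_mem_nhds.2 hW)
    obtain ⟨P, hRP, hPr⟩ := exists_avoid hirr hR (hflat R hR ⟨y₁, hreg⟩).2
    obtain ⟨z, ⟨hzW, hzl⟩, hz0, hzP⟩ := exists_zero_ne (hirr R hR) hRP (hzero hreg)
      hreg.fderiv_ne (inter_mem (isOpen_interior.mem_nhds hy₁) hreg.local_eq.eventually_nhds)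
    exact ⟨z, interior_subset hzW, R, Finset.mem_filter.2 ⟨hR, y₁, hreg⟩, hzl, hz0, P, hzP, hPr⟩
  -- the radii
  have hcontE : ∀ i, ∀ᶠ x in 𝓝 p, (x.1, g i x) ∈ B := fun i => by
    have hc : ContinuousAt (Φ i) p :=
      (hΦd i).continuousOn.continuousAt (ball_mem_nhds p (hrf i))
    have := hc.preimage_mem_nhds (t := B) (by rw [hΦp]; exact hB.mem_nhds hpB)
    exact this
  obtain ⟨δ₂, hδ₂, hδ₂B⟩ := Metric.eventually_nhds_iff_ball.1
    ((eventually_all.2 hcontE).and (ball_mem_nhds p hδ))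
  set E' : Fin S.natDegree → OpenPartialHomeomorph C2 C2 := fun i => (E i).restrOpen B hB
  obtain ⟨R₀, hR₀, hbox⟩ : ∃ R₀ > 0, ∀ i, ball (Ψ i p) R₀ ⊆ (E' i).target := by
    have h : ∀ i, ∀ᶠ r in 𝓝[>] (0 : ℝ), ball (Ψ i p) r ⊆ (E' i).target := fun i => by
      have hmem : Ψ i p ∈ (E' i).target := by
        have := (E' i).map_source (x := p) ⟨hpE i, hpB⟩
        rwa [show (E' i) p = Ψ i p from congrFun (hEeq i) p] at this
      obtain ⟨r, hr, hsub⟩ := Metric.isOpen_iff.1 (E' i).open_target _ hmem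
      filter_upwards [Ioo_mem_nhdsGT hr] with s hs using (ball_subset_ball hs.2.le).trans hsub
    obtain ⟨r, hr, hr0⟩ := ((eventually_all.2 h).and self_mem_nhdsWithin).exists
    exact ⟨r, hr0, hr⟩
  set ρc := min (R₀ / 2) (δ₂ / 2) / 2 with hρcdef
  have hρc : 0 < ρc := by positivity
  have hρc1 : ρc < R₀ / 2 := by linarith [min_le_left (R₀ / 2) (δ₂ / 2), half_lt_self hρc]
  have hρc2 : ρc < δ₂ / 2 := by linarith [min_le_right (R₀ / 2) (δ₂ / 2), half_lt_self hρc]
  have hfc : ∀ i, ∀ y ∈ B, ContinuousAt (f i) y := fun i y hy =>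
    (hfd i y (hBO i y hy)).continuousAt
  have hW : ∀ᶠ y in 𝓝 p, y ∈ B ∧ φ p - ε * ρc ^ 2 < φ y ∧ dist y p < δ₂ / 2 ∧
      ∀ i, dist (hh i y) p.2 < δ₂ / 2 ∧ dist (Ψ i y) (Ψ i p) < R₀ / 2 := by
    refine (hB.eventually_mem hpB).and (Eventually.and ?_ (Eventually.and
      (ball_mem_nhds p (by positivity)) (eventually_all.2 fun i => Eventually.and ?_ ?_)))
    · exact hφc.continuousAt.eventually (eventually_gt_nhds (by
        linarith [mul_pos hεpos (pow_pos hρc 2)]))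
    · have hp2 : hh i p = p.2 := by
        have := (hback i p (mem_ball_self hδ)).2
        rw [hΦp] at this
        simp [hh, this]
      have hc := (hhd i p (hpO i)).continuousAt
      rw [ContinuousAt, hp2] at hc
      exact hc (ball_mem_nhds _ (by positivity))
    · exact ((hfc i p hpB).prodMk continuous_fst.continuousAt) (ball_mem_nhds _ (by positivity))
  -- the point `q`
  obtain ⟨y₂, ⟨hy₂W, hy₂B⟩, R, hR, hy₂l, hy₂0, PR, hy₂P, hPR⟩ :=
    hgood p hpfr _ (inter_mem hW.eventually_nhds (hB.mem_nhds hpB))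
  have hy₂2 := (hPR y₂ hy₂P).1
  obtain ⟨i₀, hi₀⟩ := hC R hR y₂ hy₂B hy₂0 hy₂2
  set D' : C2 →L[ℝ] ℝ := ∑ j, pev (MvPolynomial.pderiv j R) y₂ • DenseReg.cl j
  set N₂ : ℂ := (2 * dz2 R y₂)⁻¹
  have hN : D' ((0 : ℂ), N₂) = 1 := by
    simp only [D', dpev_apply, N₂, mul_zero, zero_add, mul_inv_rev]
    rw [← mul_assoc, mul_inv_cancel₀ hy₂2]
    norm_num
  set V : Set C2 := {x | x ∈ B ∧
    (∀ᶠ z in 𝓝 x, (z ∈ frontier Ω.U ↔ pev R z = 0) ∧ (0 < pev R z → z ∈ Ω.U)) ∧ pev PR x ≠ 0 ∧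
    (∀ᶠ z in 𝓝 x, pev R z = 0 → f i₀ z ∈ C) ∧
    ∀ᶠ z in 𝓝 x, z ∈ B ∧ φ p - ε * ρc ^ 2 < φ z ∧ dist z p < δ₂ / 2 ∧
      ∀ i, dist (hh i z) p.2 < δ₂ / 2 ∧ dist (Ψ i z) (Ψ i p) < R₀ / 2}
  have hV : V ∈ 𝓝 y₂ := (hB.eventually_mem hy₂B).and (hy₂l.eventually_nhds.and
    (((DenseReg.continuous_pev PR).continuousAt.eventually_ne hy₂P).and
      (hi₀.eventually_nhds.and hy₂W.eventually_nhds)))
  obtain ⟨q, hqV, hq0, hqX⟩ : ∃ q ∈ V, pev R q = 0 ∧ f i₀ q ∉ X := by
    by_contra hcon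
    push Not at hcon
    have hsc : Continuous fun s : ℝ => y₂ + ((0 : ℂ), (s : ℂ) * (I * N₂)) := by fun_prop
    have hev := (hsc.tendsto' 0 y₂ (by simp)).eventually
      (eventually_exists_zero (hasStrictFDerivAt_pev R y₂) hy₂0 hN hV)
    obtain ⟨η, hη, hηs⟩ := Metric.eventually_nhds_iff_ball.1 hev
    choose! u _ hu hv using hηs
    set w : ℝ → C2 := fun s => y₂ + ((0 : ℂ), (s : ℂ) * (I * N₂)) + u s • ((0 : ℂ), N₂)
    refine Set.infinite_of_injOn_mapsTo (f := fun s => f i₀ (w s)) ?_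
      (fun s hs => hcon (w s) (hv s hs) (hu s hs)) (infinite_of_mem_nhds _ (ball_mem_nhds 0 hη))
      hXfin
    intro s hs s' hs' hss
    have hww : w s = w s' := (E i₀).injOn (hBs i₀ _ (hv s hs).1) (hBs i₀ _ (hv s' hs').1) (by
      rw [hEeq i₀]
      simpa [w] using hss)
    have h2 := congrArg Prod.snd hww
    simp only [w, Prod.snd_add, Prod.smul_snd, Complex.real_smul] at h2
    have hN0 : N₂ ≠ 0 := inv_ne_zero (mul_ne_zero two_ne_zero hy₂2)
    have h3 : ((s : ℂ) * I + (u s : ℂ)) * N₂ = ((s' : ℂ) * I + (u s' : ℂ)) * N₂ := by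
      linear_combination h2
    simpa using congrArg Complex.im (mul_right_cancel₀ hN0 h3)
  obtain ⟨hqB, hql, hqP, hqi, hqW⟩ := hqV
  have hq2 := (hPR q hqP).1
  obtain ⟨-, hqφ, hqd, hqh⟩ := hqW.self_of_nhds
  obtain ⟨hqh, hqΨ⟩ := hqh i₀
  set b₀ := f i₀ q with hb₀
  set c₀ := q.1
  have hbC : b₀ ∈ C := hqi.self_of_nhds hq0
  obtain ⟨ρ, hρ, hρ0, hρd, hρC⟩ := hXreg b₀ hbC hqX
  -- orientation of the transversal equation
  have hfq : HasStrictFDerivAt (f i₀) ((fderiv ℂ (f i₀) q).restrictScalars ℝ) q :=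
    (hasStrictFDerivAt hB (fun y hy => (hfd i₀ y (hBO i₀ y hy)).differentiableWithinAt)
      hqB).restrictScalars ℝ
  have hρs : HasStrictFDerivAt ρ (fderiv ℝ ρ b₀) b₀ :=
    (hρ.contDiffAt).hasStrictFDerivAt one_ne_zero
  have hG := hρs.comp q hfq
  have hG' : (fderiv ℝ ρ b₀).comp ((fderiv ℂ (f i₀) q).restrictScalars ℝ) ≠ 0 := by
    intro h
    refine hρd (ContinuousLinearMap.ext fun v => ?_)
    have h2 := DFunLike.congr_fun h ((v / fderiv ℂ (f i₀) q (0, 1)) • ((0 : ℂ), (1 : ℂ)))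
    simp only [ContinuousLinearMap.comp_apply, ContinuousLinearMap.coe_restrictScalars',
      map_smul, smul_eq_mul, div_mul_cancel₀ v (hnd i₀ q hqB)] at h2
    simpa using h2
  obtain ⟨s, hs, hsign'⟩ := exists_sign (hasStrictFDerivAt_pev R q) hG hq0 (dR_ne hq2) hG' (by
    filter_upwards [hqi, (hfc i₀ q hqB).eventually hρC] with z hz hzρ hz0
    exact hzρ.1 (hz hz0))
  -- the chart
  have hlocal : ∀ᶠ b in 𝓝 b₀, (b ∈ C ↔ ρ b = 0) ∧ fderiv ℝ ρ b ≠ 0 ∧ b ∉ X :=
    hρC.and (((hρ.continuous_fderiv one_ne_zero).continuousAt.eventually_ne hρd).and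
      (hXfin.isClosed.isOpen_compl.eventually_mem hqX))
  obtain ⟨η, hη, hηb⟩ := Metric.eventually_nhds_iff_ball.1 hlocal
  have hqS : q ∈ (E' i₀).source := ⟨hBs i₀ q hqB, hqB⟩
  have hΨq : (E' i₀) q = (b₀, c₀) := congrFun (hEeq i₀) q
  have hnear : ∀ᶠ w in 𝓝 (b₀, c₀), pev PR ((E' i₀).symm w) ≠ 0 ∧
      (ρ w.1 = 0 → pev R ((E' i₀).symm w) = 0) := by
    have hct : Tendsto (E' i₀).symm (𝓝 (b₀, c₀)) (𝓝 q) := by
      rw [← hΨq]; exact (E' i₀).tendsto_symm hqS
    filter_upwards [hct.eventually ((DenseReg.continuous_pev PR).continuousAt.eventually_ne hqP),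
      hct.eventually hsign', (E' i₀).open_target.eventually_mem
        (hΨq ▸ (E' i₀).map_source hqS : (b₀, c₀) ∈ (E' i₀).target)] with w h1 h2 hw
    refine ⟨h1, fun h0 => h2.2 ?_⟩
    have h := (E' i₀).right_inv hw
    rw [show (E' i₀) ((E' i₀).symm w) = Ψ i₀ ((E' i₀).symm w) from congrFun (hEeq i₀) _] at h
    have h' : f i₀ ((E' i₀).symm w) = w.1 := by
      have h'' : (Ψ i₀ ((E' i₀).symm w)).1 = w.1 := by rw [h]
      exact h''
    simp [h', h0]
  obtain ⟨η', hη', hη'w⟩ := Metric.eventually_nhds_iff_ball.1 hnear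
  set rb := min (min η η') (R₀ / 2)
  have hrb : 0 < rb := lt_min (lt_min hη hη') (by positivity)
  set box : Set C2 := ball b₀ rb ×ˢ ball c₀ (R₀ / 2)
  have hboxo : IsOpen box := isOpen_ball.prod isOpen_ball
  have hboxT : box ⊆ (E' i₀).target := by
    rintro w ⟨h1, h2⟩
    refine hbox i₀ (mem_ball.2 ?_)
    rw [Prod.dist_eq] at hqΨ ⊢
    rw [max_lt_iff] at hqΨ ⊢
    have : rb ≤ R₀ / 2 := min_le_right _ _
    constructor
    · linarith [dist_triangle w.1 b₀ (Ψ i₀ p).1, mem_ball.1 h1, hqΨ.1]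
    · linarith [dist_triangle w.2 c₀ (Ψ i₀ p).2, mem_ball.1 h2, hqΨ.2]
  set ch := ((E' i₀).symm.restrOpen box hboxo).symm
  have hchT : ch.target = box := inter_eq_right.2 hboxT
  have hchS : ch.source ⊆ (E' i₀).source := fun y hy => hy.1
  have hchv : ∀ y, ch y = (f i₀ y, y.1) := fun y => congrFun (hEeq i₀) y
  have hchd : DifferentiableOn ℂ ch ch.source := fun y hy =>
    (((hfd i₀ y (hBO i₀ y (hchS hy).2)).prodMk differentiableAt_fst).differentiableWithinAt).congr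
      (fun z _ => hchv z) (hchv y)
  have hchd' : DifferentiableOn ℂ ch.symm ch.target := fun w hw =>
    ((hEd i₀) w (hboxT (hchT ▸ hw)).1).mono (fun z hz => (hboxT (hchT ▸ hz)).1)
  have hctr : (b₀, c₀) ∈ box := ⟨mem_ball_self hrb, mem_ball_self (by positivity)⟩
  have hsymm : ∀ y ∈ (E' i₀).source, ch.symm (f i₀ y, y.1) = y := fun y hy => by
    have h := (E' i₀).left_inv hy
    rwa [show (E' i₀) y = (f i₀ y, y.1) from congrFun (hEeq i₀) y] at h
  refine ⟨{
    d := S.natDegree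
    f := f
    B := B
    isOpen_B := hB
    diff := fun i y hy => (hfd i y (hBO i y hy)).differentiableWithinAt
    nondeg := hnd
    transversal := htrans
    C := C
    X := X
    isClosed_C := isClosed_eq (contDiff_pev Pa).continuous continuous_const
    finite_X := hXfin
    regular_C := hXreg
    cover := ?_
    i₀ := i₀
    b₀ := b₀
    c₀ := c₀
    rb := rb
    rb_pos := hrb
    r := R₀ / 2
    r_pos := by positivity
    chart := ⟨ch, hchd, hchd'⟩
    target_eq := hchT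
    source_sub := fun y hy => (hchS hy).2
    chart_eq := fun y _ => hchv y
    ρ₀ := fun b => s * ρ b
    contDiff₀ := contDiff_const.mul hρ
    zero₀ := by simp [hρ0]
    regular₀ := ?_
    C_eq := ?_
    filled := ?_
    edges := ?_
    exit := ?_ }⟩
  · rintro y ⟨hy, hyB⟩
    by_contra hcon
    push Not at hcon
    have hev : ∀ᶠ z in 𝓝 y, z ∈ B ∧ ∀ i, f i z ∉ C :=
      (hB.eventually_mem hyB).and (eventually_all.2 fun i => (hfc i y hyB).eventually
        ((isClosed_eq (contDiff_pev Pa).continuous continuous_const).isOpen_compl.eventually_mem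
          (hcon i)))
    obtain ⟨z, ⟨hzB, hzC⟩, R', hR', -, hz0, P', hzP', hP'⟩ := hgood y hy _ hev
    obtain ⟨i, hi⟩ := hC R' hR' z hzB hz0 (hP' z hzP').1
    exact hzC i (hi.self_of_nhds hz0)
  · intro b hb
    rw [fderiv_const_mul (hρ.differentiable one_ne_zero b)]
    exact smul_ne_zero hs (hηb b (ball_subset_ball ((min_le_left _ _).trans (min_le_left _ _)) hb)).2.1
  · intro b hb
    obtain ⟨h1, -, h3⟩ := hηb b (ball_subset_ball ((min_le_left _ _).trans (min_le_left _ _)) hb)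
    exact ⟨h1.trans (by simp [hs]), h3⟩
  · show ∀ᶠ w in 𝓝 (b₀, c₀), _
    have hct : Tendsto ch.symm (𝓝 (b₀, c₀)) (𝓝 q) := by
      have h := ch.continuousAt_symm (hchT ▸ hctr)
      rwa [ContinuousAt, hsymm q ⟨hBs i₀ q hqB, hqB⟩] at h
    filter_upwards [hboxo.eventually_mem hctr, hct.eventually hsign', hct.eventually hql]
      with w hw h1 h2
    have hfw : f i₀ (ch.symm w) = w.1 := by
      have h := ch.right_inv (hchT.symm ▸ hw)
      rw [hchv] at h
      exact congrArg Prod.fst h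
    simp only [hfw] at h1
    exact ⟨fun hpos => h2.2 (h1.1 hpos),
      fun h0 => h2.1.2 (h1.2 ((mul_eq_zero.1 h0).resolve_left hs))⟩
  · intro b hb hb0 T hT hTne hTsub
    have hbox' : ∀ {u t : ℂ}, u ∈ ball b₀ rb → t ∈ ball c₀ (R₀ / 2) → (u, t) ∈ ch.target :=
      fun hu ht => hchT.symm ▸ mk_mem_prod hu ht
    have han : ∀ (P : MvPolynomial (Fin 4) ℝ) {u : ℂ}, u ∈ ball b₀ rb →
        AnalyticOnNhd ℝ (fun t => pev P (ch.symm (u, t))) (ball c₀ (R₀ / 2)) := fun P u hu t ht =>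
      (analyticAt_pev P _).comp
        (((hchd'.comp (differentiableOn_const u |>.prodMk differentiableOn_id)
          fun t' ht' => hbox' hu ht').analyticOnNhd isOpen_ball t ht).restrictScalars)
    have hRz : ∀ u ∈ ball b₀ rb, ρ u = 0 → ∀ t ∈ ball c₀ (R₀ / 2),
        pev R (ch.symm (u, t)) = 0 := fun u hu hu0 t ht => by
      refine (han R hu).eqOn_zero_of_preconnected_of_eventuallyEq_zero
        (convex_ball _ _).isPreconnected (mem_ball_self (by positivity)) ?_ ht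
      filter_upwards [ball_mem_nhds c₀ hη'] with t' ht'
      exact (hη'w (u, t') (ball_prod_same b₀ c₀ η' ▸
        mk_mem_prod (ball_subset_ball ((min_le_left _ _).trans (min_le_right _ _)) hu) ht')).2 hu0
    obtain ⟨t₁, ht₁, ht₁P⟩ : ∃ t ∈ T, pev PR (ch.symm (b, t)) ≠ 0 := by
      by_contra hcon
      push Not at hcon
      obtain ⟨t₁, ht₁⟩ := hTne
      have h0 := (han PR hb).eqOn_zero_of_preconnected_of_eventuallyEq_zero
        (convex_ball _ _).isPreconnected (hTsub ht₁) (eventually_of_mem (hT.mem_nhds ht₁) hcon)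
        (mem_ball_self (by positivity))
      exact (hη'w (b, c₀) (ball_prod_same b₀ c₀ η' ▸
        mk_mem_prod (ball_subset_ball ((min_le_left _ _).trans (min_le_right _ _)) hb)
          (mem_ball_self hη'))).1 h0
    refine ⟨t₁, ht₁, ?_⟩
    have hρb : ρ b = 0 := (mul_eq_zero.1 hb0).resolve_left hs
    obtain ⟨hd2, hoth⟩ := hPR _ ht₁P
    have hsc := hsign R (hFm hR).1 _ (hRz b hb hρb t₁ (hTsub ht₁))
      (by rw [(DenseReg.hasFDerivAt R _).fderiv]; exact dR_ne hd2) hoth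
    show ∀ᶠ w in 𝓝 (b, t₁), s * ρ w.1 = 0 → _
    filter_upwards [(ch.continuousAt_symm (hbox' hb (hTsub ht₁))).eventually hsc,
      ch.open_target.eventually_mem (hbox' hb (hTsub ht₁))] with w hw hwt hw0
    have hwb : w ∈ box := hchT ▸ hwt
    exact hw (hRz w.1 hwb.1 ((mul_eq_zero.1 hw0).resolve_left hs) w.2 hwb.2)
  · obtain ⟨hmem, hg2⟩ := hfwd i₀ q (hBO i₀ q hqB)
    set h := hh i₀ q
    have hin : ∀ t ∈ closedBall c₀ ρc, (t, h) ∈ ball p δ₂ := fun t ht => by
      rw [mem_ball, Prod.dist_eq]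
      have := (le_max_left _ _).trans_lt (mem_ball.1 (show q ∈ ball p (δ₂ / 2) from hqd))
      exact max_lt (by linarith [dist_triangle t c₀ p.1, mem_closedBall.1 ht]) (by linarith)
    have hℓ : DifferentiableOn ℂ (fun t => (t, g i₀ (t, h))) (closedBall c₀ ρc) :=
      differentiableOn_id.prodMk ((hgd i₀).comp
        (differentiableOn_id.prodMk (differentiableOn_const h))
        fun t ht => (hδs i₀ _ (hδ₂B _ (hin t ht)).2).2)
    obtain ⟨t, ht, hge⟩ := exists_sphere_ge (Q := Q) hεpos hρc hℓ fun t _ => rfl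
    have htc := sphere_subset_closedBall ht
    refine ⟨t, mem_ball.2 (by rw [mem_sphere.1 ht]; exact hρc1), fun hcl => ?_⟩
    obtain ⟨hall, htδ⟩ := hδ₂B _ (hin t htc)
    have hval : f i₀ (t, g i₀ (t, h)) = b₀ := hfℓ i₀ t h htδ
    have hy : ch.symm (b₀, t) = (t, g i₀ (t, h)) := by
      rw [← hval]
      exact hsymm (t, g i₀ (t, h)) ⟨hBs i₀ _ (hall i₀), hall i₀⟩
    rw [hy] at hcl
    have h1 : φ (t, g i₀ (t, h)) ≤ φ p := hmax hcl
    simp only [c₀, hg2] at hge
    simp only [φ] at h1 hqφ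
    linarith

end

end Vale.Agent.P274.Surface
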