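import Vale.Agent.P274.Surface.Setup
import Mathlib.Algebra.MvPolynomial.PDeriv
import Mathlib.Data.Sign.Basic
import Mathlib.Analysis.Calculus.ContDiff.Basic
import Mathlib.Topology.OpenPartialHomeomorph.Basic

/-!
Shared definitions for semialgebraic domains in `ℂ²`.
-/

open Filter Metric Set Function Topology Complex

namespace Vale.Agent.P274.Surface

noncomputable section

/-- The real coordinates of a point of `ℂ²`. -/
def coord (z : C2) : Fin 4 → ℝ := ![z.1.re, z.1.im, z.2.re, z.2.im]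

/-- A real polynomial as a function on `ℂ²`. -/
def pev (P : MvPolynomial (Fin 4) ℝ) (z : C2) : ℝ := MvPolynomial.eval (coord z) P

/-- A semialgebraic subset of `ℂ²`: membership depends only on the signs of finitely many real
polynomials. -/
def IsSA (U : Set C2) : Prop :=
  ∃ (k : ℕ) (P : Fin k → MvPolynomial (Fin 4) ℝ) (T : Set (Fin k → SignType)),
    ∀ z, z ∈ U ↔ (fun i => SignType.sign (pev (P i) z)) ∈ T

/-- `∂R/∂z₁`. -/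
def dz1 (R : MvPolynomial (Fin 4) ℝ) (z : C2) : ℂ :=
  ((pev (MvPolynomial.pderiv 0 R) z : ℂ) - I * (pev (MvPolynomial.pderiv 1 R) z : ℂ)) / 2

/-- `∂R/∂z₂`. -/
def dz2 (R : MvPolynomial (Fin 4) ℝ) (z : C2) : ℂ :=
  ((pev (MvPolynomial.pderiv 2 R) z : ℂ) - I * (pev (MvPolynomial.pderiv 3 R) z : ℂ)) / 2

/-- Sixteen times the Levi determinant of `R`. -/
def leviPoly (R : MvPolynomial (Fin 4) ℝ) : MvPolynomial (Fin 4) ℝ :=
  let D : Fin 4 → MvPolynomial (Fin 4) ℝ := fun i => MvPolynomial.pderiv i R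
  let H : Fin 4 → Fin 4 → MvPolynomial (Fin 4) ℝ := fun i j => MvPolynomial.pderiv i (D j)
  (H 0 0 + H 1 1) * (D 2 * D 2 + D 3 * D 3) + (H 2 2 + H 3 3) * (D 0 * D 0 + D 1 * D 1) -
    2 * ((H 0 2 + H 1 3) * (D 2 * D 0 + D 3 * D 1) - (H 0 3 - H 1 2) * (D 2 * D 1 - D 3 * D 0))

/-- A regular frontier point: near `q` the frontier is the zero set of `R` and `{R > 0}` lies
in `U`. -/
structure RegPt (U : Set C2) (R : MvPolynomial (Fin 4) ℝ) (q : C2) : Prop where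
  mem_frontier : q ∈ frontier U
  fderiv_ne : fderiv ℝ (pev R) q ≠ 0
  local_eq : ∀ᶠ y in 𝓝 q, (y ∈ frontier U ↔ pev R y = 0) ∧ (0 < pev R y → y ∈ U)

/-- Where only `R` of the family `F` vanishes, and regularly, the frontier status is locally
constant on the zero set of `R`. -/
def SignConst (U : Set C2) (F : Finset (MvPolynomial (Fin 4) ℝ)) : Prop :=
  ∀ R ∈ F, ∀ y, pev R y = 0 → fderiv ℝ (pev R) y ≠ 0 →
    (∀ R' ∈ F, ¬ Associated R R' → pev R' y ≠ 0) →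
      ∀ᶠ y' in 𝓝 y, pev R y' = 0 → (y' ∈ frontier U ↔ y ∈ frontier U)

/-- Biholomorphic open sets. -/
def Biholo {Y : Type*} [NormedAddCommGroup Y] [NormedSpace ℂ Y] (U : Set C2) (V : Set Y) : Prop :=
  ∃ (F : C2 → Y) (G : Y → C2), DifferentiableOn ℂ F U ∧ MapsTo F U V ∧ DifferentiableOn ℂ G V ∧
    MapsTo G V U ∧ (∀ z ∈ U, G (F z) = z) ∧ ∀ w ∈ V, F (G w) = w

/-- A holomorphic chart. -/
structure HChart where
  e : OpenPartialHomeomorph C2 C2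
  diff : DifferentiableOn ℂ e e.source
  diff_symm : DifferentiableOn ℂ e.symm e.target

/-- A corner of `U`: in a holomorphic chart `(w₁, w₂)` the wedge `ρ₁ w₁ > 0, ρ₂ w₂ > 0` lies in
`U` and its faces do not meet `U`. -/
structure CornerPt (U : Set C2) where
  q : C2
  mem_frontier : q ∈ frontier U
  chart : HChart
  mem_source : q ∈ chart.e.source
  ρ₁ : ℂ → ℝ
  ρ₂ : ℂ → ℝ
  contDiff₁ : ContDiff ℝ 1 ρ₁
  contDiff₂ : ContDiff ℝ 1 ρ₂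
  zero₁ : ρ₁ (chart.e q).1 = 0
  zero₂ : ρ₂ (chart.e q).2 = 0
  regular₁ : fderiv ℝ ρ₁ (chart.e q).1 ≠ 0
  regular₂ : fderiv ℝ ρ₂ (chart.e q).2 ≠ 0
  wedge : ∀ y ∈ chart.e.source, 0 < ρ₁ (chart.e y).1 → 0 < ρ₂ (chart.e y).2 → y ∈ U
  faces : ∀ y ∈ chart.e.source, y ∈ U → 0 ≤ ρ₁ (chart.e y).1 → 0 ≤ ρ₂ (chart.e y).2 →
    0 < ρ₁ (chart.e y).1 ∧ 0 < ρ₂ (chart.e y).2

/-- Foliations covering the frontier near a point, with a leaf that leaves `closure U`. -/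
structure Web (U : Set C2) where
  d : ℕ
  f : Fin d → C2 → ℂ
  B : Set C2
  isOpen_B : IsOpen B
  diff : ∀ i, DifferentiableOn ℂ (f i) B
  nondeg : ∀ i, ∀ y ∈ B, fderiv ℂ (f i) y (0, 1) ≠ 0
  transversal : ∀ i j, i ≠ j → ∀ y ∈ B,
    fderiv ℂ (f i) y (1, 0) * fderiv ℂ (f j) y (0, 1) -
      fderiv ℂ (f i) y (0, 1) * fderiv ℂ (f j) y (1, 0) ≠ 0
  C : Set ℂ
  X : Set ℂ
  isClosed_C : IsClosed C
  finite_X : X.Finite
  regular_C : ∀ b ∈ C, b ∉ X → ∃ ρ : ℂ → ℝ, ContDiff ℝ 1 ρ ∧ ρ b = 0 ∧ fderiv ℝ ρ b ≠ 0 ∧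
    ∀ᶠ u in 𝓝 b, (u ∈ C ↔ ρ u = 0)
  cover : ∀ y ∈ frontier U ∩ B, ∃ i, f i y ∈ C
  i₀ : Fin d
  b₀ : ℂ
  c₀ : ℂ
  rb : ℝ
  rb_pos : 0 < rb
  r : ℝ
  r_pos : 0 < r
  chart : HChart
  target_eq : chart.e.target = ball b₀ rb ×ˢ ball c₀ r
  source_sub : chart.e.source ⊆ B
  chart_eq : ∀ y ∈ chart.e.source, chart.e y = (f i₀ y, y.1)
  ρ₀ : ℂ → ℝ
  contDiff₀ : ContDiff ℝ 1 ρ₀
  zero₀ : ρ₀ b₀ = 0
  regular₀ : ∀ b ∈ ball b₀ rb, fderiv ℝ ρ₀ b ≠ 0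
  C_eq : ∀ b ∈ ball b₀ rb, (b ∈ C ↔ ρ₀ b = 0) ∧ b ∉ X
  filled : ∀ᶠ w in 𝓝 (b₀, c₀), (0 < ρ₀ w.1 → chart.e.symm w ∈ U) ∧
    (ρ₀ w.1 = 0 → chart.e.symm w ∈ frontier U)
  /-- no edges: on every leaf the frontier status inside the hypersurface is generically locally
  constant -/
  edges : ∀ b ∈ ball b₀ rb, ρ₀ b = 0 → ∀ T : Set ℂ, IsOpen T → T.Nonempty → T ⊆ ball c₀ r →
    ∃ t ∈ T, ∀ᶠ w in 𝓝 (b, t), ρ₀ w.1 = 0 →
      (chart.e.symm w ∈ frontier U ↔ chart.e.symm (b, t) ∈ frontier U)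
  exit : ∃ t ∈ ball c₀ r, chart.e.symm (b₀, t) ∉ closure U

end

end Vale.Agent.P274.Surface
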