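import Vale.Agent.P274.Surface.Hartogs
import Mathlib.Analysis.Normed.Module.Connected

/-!
The frontier is nowhere contained in a surface.
-/

open Filter Metric Set Function Topology Complex

namespace Vale.Agent.P274.Surface

noncomputable section

/-- A complex direction transversal to two independent real linear forms. -/
theorem exists_transversal {a b : C2 →L[ℝ] ℝ} (hsurj : Surjective fun v => (a v, b v)) :
    ∃ v : C2, a v * b (I • v) - a (I • v) * b v ≠ 0 := by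
  by_contra h
  push Not at h
  obtain ⟨v₁, h₁⟩ := hsurj (1, 0)
  obtain ⟨v₂, h₂⟩ := hsurj (0, 1)
  simp only [Prod.mk.injEq] at h₁ h₂
  have hpol : ∀ v w, a v * b (I • w) + a w * b (I • v) - a (I • v) * b w - a (I • w) * b v = 0 := by
    intro v w
    have h0 := h (v + w)
    simp only [smul_add, map_add] at h0
    linarith [h v, h w]
  have h2a : a (I • v₂) = 0 := by have := h v₂; rw [h₂.1, h₂.2] at this; linarith
  have key : ∀ w, a (I • w) = b (I • v₂) * a w := by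
    intro w
    have := hpol v₂ w
    rw [h₂.1, h₂.2, h2a] at this
    linarith
  have hII := key (I • v₁)
  rw [smul_smul, I_mul_I, neg_one_smul, map_neg, h₁.1, key v₁, h₁.1] at hII
  nlinarith [sq_nonneg (b (I • v₂))]

theorem segment_to_circle {c τ : ℂ} (hτc : τ ≠ c) (hc : ‖c‖ < 1) :
    ∃ τ' : ℂ, ‖τ'‖ = 1 ∧ (∀ r ∈ Icc (0 : ℝ) 1, τ + (r : ℂ) * (τ' - τ) ≠ c) := by
  rcases le_total 1 ‖τ‖ with h | h
  · refine ⟨τ / (‖τ‖ : ℂ), ?_, fun r hr heq => ?_⟩
    · rw [norm_div, Complex.norm_real, norm_norm, div_self (by linarith)]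
    · have hn : ‖τ + (r : ℂ) * (τ / (‖τ‖ : ℂ) - τ)‖ = ‖τ‖ + r * (1 - ‖τ‖) := by
        have h1 : τ + (r : ℂ) * (τ / (‖τ‖ : ℂ) - τ) =
            (((‖τ‖ + r * (1 - ‖τ‖)) / ‖τ‖ : ℝ) : ℂ) * τ := by
          have : (‖τ‖ : ℂ) ≠ 0 := by exact_mod_cast (by linarith : (‖τ‖ : ℝ) ≠ 0)
          push_cast
          field_simp
        rw [h1, norm_mul, Complex.norm_real, Real.norm_eq_abs, abs_of_nonneg,
          div_mul_cancel₀ _ (by linarith)]
        exact div_nonneg (by nlinarith [hr.1, hr.2]) (norm_nonneg _)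
      rw [heq] at hn
      nlinarith [hr.1, hr.2]
  · have hpos : 0 < ‖τ - c‖ := norm_pos_iff.2 (sub_ne_zero.2 hτc)
    obtain ⟨K, hK⟩ : ∃ K : ℝ, K = 2 / ‖τ - c‖ := ⟨_, rfl⟩
    have hK0 : 0 ≤ K := by rw [hK]; positivity
    have hend : 1 ≤ ‖τ + (K : ℂ) * (τ - c)‖ := by
      have h1 := norm_sub_norm_le ((K : ℂ) * (τ - c)) (-τ)
      rw [sub_neg_eq_add, add_comm, norm_neg, norm_mul, Complex.norm_real, Real.norm_eq_abs,
        abs_of_nonneg hK0, hK, div_mul_cancel₀ _ hpos.ne'] at h1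
      rw [hK]
      linarith
    obtain ⟨k, hk, hk1⟩ := intermediate_value_Icc hK0
      (f := fun r : ℝ => ‖τ + (r : ℂ) * (τ - c)‖) (Continuous.continuousOn (by fun_prop))
      ⟨by simpa using h, hend⟩
    refine ⟨τ + (k : ℂ) * (τ - c), hk1, fun r hr heq => ?_⟩
    have : ((1 + r * k : ℝ) : ℂ) * (τ - c) = 0 := by push_cast; linear_combination heq
    rcases mul_eq_zero.1 this with h1 | h1
    · have : (1 + r * k : ℝ) = 0 := by exact_mod_cast h1
      nlinarith [hr.1, hk.1]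
    · exact sub_ne_zero.2 hτc h1

/-- The frontier is nowhere contained in a surface. -/
theorem Sys.not_thin (Ω : Sys) {x : C2} (hx : x ∈ frontier Ω.U) {a b : C2 → ℝ}
    {a' b' : C2 →L[ℝ] ℝ} (ha : HasStrictFDerivAt a a' x) (hb : HasStrictFDerivAt b b' x)
    (hsurj : Surjective fun v => (a' v, b' v))
    (h0 : ∀ᶠ y in 𝓝 x, y ∈ frontier Ω.U → a y = 0 ∧ b y = 0) : False := by
  obtain ⟨v, hv⟩ := exists_transversal hsurj
  set D := a' v * b' (I • v) - a' (I • v) * b' v with hD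
  have hv0 : v ≠ 0 := by rintro rfl; simp [hD] at hv
  -- a complementary direction
  obtain ⟨u, hu⟩ : ∃ u : C2, u.1 * v.2 - u.2 * v.1 ≠ 0 := by
    rcases eq_or_ne v.1 0 with h | h
    · exact ⟨(1, 0), by simpa using fun h2 => hv0 (Prod.ext h h2)⟩
    · exact ⟨(0, 1), by simpa using h⟩
  set d := u.1 * v.2 - u.2 * v.1 with hd
  have hcomb : ∀ y : C2,
      ((y.1 * v.2 - y.2 * v.1) / d) • u + ((u.1 * y.2 - u.2 * y.1) / d) • v = y := by
    intro y
    apply Prod.ext <;> simp only [Prod.fst_add, Prod.snd_add, Prod.smul_fst, Prod.smul_snd,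
      smul_eq_mul] <;> field_simp [hd ▸ hu] <;> rw [hd] <;> ring
  -- near `x` a line in direction `v` meets the frontier at most once
  set m := (|a' v| + |a' (I • v)| + |b' v| + |b' (I • v)| + 1) with hm
  set ε := |D| / (4 * m * (‖v‖ + 1)) with hε
  have hε0 : 0 < ε := by positivity
  obtain ⟨δ₁, hδ₁, hball⟩ := Metric.eventually_nhds_iff.1
    (h0.and (eventually_of_mem univ_mem fun _ _ => trivial : ∀ᶠ _y in 𝓝 x, True))
  obtain ⟨δ₂, hδ₂, hstrict⟩ := Metric.eventually_nhds_iff.1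
    ((ha.isLittleO.bound hε0).and (hb.isLittleO.bound hε0))
  have hone : ∀ y, dist y x < δ₁ → dist y x < δ₂ → y ∈ frontier Ω.U → ∀ τ : ℂ,
      dist (y + τ • v) x < δ₁ → dist (y + τ • v) x < δ₂ → y + τ • v ∈ frontier Ω.U → τ = 0 := by
    intro y h1 h2 hyf τ h3 h4 hyf'
    obtain ⟨hA, hB⟩ := @hstrict (y + τ • v, y) (by rw [Prod.dist_eq]; exact max_lt h4 h2)
    obtain ⟨hy0, hy0'⟩ := (hball h1).1 hyf
    obtain ⟨hτ0, hτ0'⟩ := (hball h3).1 hyf'
    simp only [hy0, hy0', hτ0, hτ0', add_sub_cancel_left, sub_self, zero_sub, norm_neg,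
      Real.norm_eq_abs, norm_smul] at hA hB ⊢
    have hτv : τ • v = (τ.re : ℝ) • v + (τ.im : ℝ) • (I • v) := by
      conv_lhs => rw [← re_add_im τ, add_smul, ← smul_smul]
      simp [Complex.coe_smul]
    have hma : ∀ l : C2 →L[ℝ] ℝ, l (τ • v) = τ.re * l v + τ.im * l (I • v) := fun l => by
      rw [hτv, map_add, map_smul, map_smul, smul_eq_mul, smul_eq_mul]
    rw [hma] at hA hB
    set α := τ.re
    set β := τ.im
    set e := ε * (‖τ‖ * ‖v‖)
    have he : 0 ≤ e := by positivity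
    have hαD : |α * D| ≤ e * (|b' (I • v)| + |a' (I • v)|) := by
      have : α * D = (α * a' v + β * a' (I • v)) * b' (I • v) -
          (α * b' v + β * b' (I • v)) * a' (I • v) := by rw [hD]; ring
      rw [this]
      refine (abs_sub _ _).trans ?_
      rw [abs_mul, abs_mul, mul_add]
      gcongr
    have hβD : |β * D| ≤ e * (|b' v| + |a' v|) := by
      have : β * D = (α * b' v + β * b' (I • v)) * a' v -
          (α * a' v + β * a' (I • v)) * b' v := by rw [hD]; ring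
      rw [this]
      refine (abs_sub _ _).trans ?_
      rw [abs_mul, abs_mul, mul_add]
      linarith [mul_le_mul_of_nonneg_right hB (abs_nonneg (a' v)),
        mul_le_mul_of_nonneg_right hA (abs_nonneg (b' v))]
    rw [abs_mul] at hαD hβD
    have hτn : ‖τ‖ * |D| ≤ e * m := by
      calc ‖τ‖ * |D| ≤ (|α| + |β|) * |D| := by
            gcongr; exact Complex.norm_le_abs_re_add_abs_im τ
        _ ≤ e * m := by rw [hm]; nlinarith
    by_contra hne
    have hτpos : 0 < ‖τ‖ := norm_pos_iff.2 hne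
    have hDpos : 0 < |D| := abs_pos.2 hv
    have : e * m ≤ ‖τ‖ * |D| / 4 := by
      have hq : ‖v‖ / (‖v‖ + 1) ≤ 1 := by rw [div_le_one (by positivity)]; linarith
      calc e * m = ‖τ‖ * |D| / 4 * (‖v‖ / (‖v‖ + 1)) := by
            simp only [e, hε]; field_simp; rw [div_self (by positivity : m ≠ 0)]
        _ ≤ ‖τ‖ * |D| / 4 * 1 := by gcongr
        _ = _ := mul_one _
    nlinarith
  -- coordinates
  set δ := min δ₁ δ₂ with hδ
  have hδpos : 0 < δ := lt_min hδ₁ hδ₂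
  set ρ := δ / (8 * (‖v‖ + 1)) with hρ
  have hρ0 : 0 < ρ := by positivity
  set Ψ : C2 → C2 := fun p => x + p.1 • u + ((ρ : ℂ) * p.2) • v with hΨ
  set Ψi : C2 → C2 := fun y =>
    ((((y - x).1 * v.2 - (y - x).2 * v.1) / d),
      (((u.1 * (y - x).2 - u.2 * (y - x).1) / d) / (ρ : ℂ))) with hΨi
  have hρC : (ρ : ℂ) ≠ 0 := by exact_mod_cast hρ0.ne'
  have hright : ∀ y, Ψ (Ψi y) = y := by
    intro y
    simp only [hΨ, hΨi]
    rw [mul_div_cancel₀ _ hρC, add_assoc, hcomb (y - x)]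
    abel
  have hΨd : Differentiable ℂ Ψ := by simp only [hΨ]; fun_prop
  have hΨid : Differentiable ℂ Ψi := by simp only [hΨi, div_eq_mul_inv]; fun_prop
  have hnear : ∀ s : ℂ, ‖s‖ * ‖u‖ < δ / 4 → ∀ τ : ℂ, ‖τ‖ < 3 → dist (Ψ (s, τ)) x < δ := by
    intro s hs τ hτ
    rw [dist_eq_norm, hΨ]
    simp only [add_assoc, add_sub_cancel_left]
    refine (norm_add_le _ _).trans_lt ?_
    rw [norm_smul, norm_smul, norm_mul, Complex.norm_real, Real.norm_eq_abs, abs_of_pos hρ0]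
    have h8 : ρ * (‖v‖ + 1) = δ / 8 := by rw [hρ]; field_simp
    nlinarith [norm_nonneg τ, norm_nonneg v]
  -- in each slice at most one point is on the frontier
  have huniq : ∀ s : ℂ, ‖s‖ * ‖u‖ < δ / 4 → ∀ τ τ' : ℂ, ‖τ‖ < 3 → ‖τ'‖ < 3 →
      Ψ (s, τ) ∈ frontier Ω.U → Ψ (s, τ') ∈ frontier Ω.U → τ' = τ := by
    intro s hs τ τ' hτ hτ' h1 h2
    have hstep : Ψ (s, τ') = Ψ (s, τ) + ((ρ : ℂ) * (τ' - τ)) • v := by
      simp only [hΨ, mul_sub, sub_smul]; abel
    have := hone (Ψ (s, τ)) ((hnear s hs τ hτ).trans_le (min_le_left _ _))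
      ((hnear s hs τ hτ).trans_le (min_le_right _ _)) h1 _
      (hstep ▸ (hnear s hs τ' hτ').trans_le (min_le_left _ _))
      (hstep ▸ (hnear s hs τ' hτ').trans_le (min_le_right _ _)) (hstep ▸ h2)
    simpa [hρC, sub_eq_zero] using this
  have hΨ0 : Ψ (0, 0) = x := by simp [hΨ]
  -- small slices keep the circle off the frontier
  have hoff : ∀ᶠ s in 𝓝 (0 : ℂ), ∀ τ ∈ sphere (0 : ℂ) 1, Ψ (s, τ) ∉ frontier Ω.U := by
    refine (isCompact_sphere _ _).eventually_forall_of_forall_eventually fun τ hτ => ?_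
    refine (hΨd.continuous.continuousAt).eventually
      (isClosed_frontier.isOpen_compl.mem_nhds fun hf => ?_)
    have := huniq 0 (by simpa using (by positivity : (0:ℝ) < δ / 4)) 0 τ (by simp)
      (by rw [mem_sphere_zero_iff_norm.1 hτ]; norm_num) (by rwa [hΨ0]) hf
    rw [this] at hτ
    simp at hτ
  have hsmall : ∀ᶠ s in 𝓝 (0 : ℂ), ‖s‖ * ‖u‖ < δ / 4 := by
    refine (continuous_norm.mul continuous_const).continuousAt.eventually (Iio_mem_nhds ?_)
    simpa using (by positivity : (0:ℝ) < δ / 4)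
  obtain ⟨η, hη, hS⟩ := Metric.eventually_nhds_iff.1 (hoff.and hsmall)
  set S := ball (0 : ℂ) η
  set N := Ψi ⁻¹' (S ×ˢ ball (0 : ℂ) (1 / 2)) with hN
  have hxN : x ∈ N := by simp [hN, hΨi, S, hη]
  have hNo : IsOpen N := (isOpen_ball.prod isOpen_ball).preimage hΨid.continuous
  have hnorm : ∀ t : ℂ, ‖t‖ < 2 → ‖t‖ < 3 := fun t ht => by linarith
  -- the only possible frontier point of a slice
  have hpt : ∀ s ∈ S, ∃ c : ℂ, ‖c‖ < 1 ∧
      ∀ t, ‖t‖ < 2 → t ≠ c → Ψ (s, t) ∈ frontier Ω.U → 1 < ‖t‖ ∧ ∀ t', ‖t'‖ ≤ 1 →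
        Ψ (s, t') ∉ frontier Ω.U := by
    intro s hs
    obtain ⟨hs1, hs2⟩ := hS (mem_ball.1 hs)
    by_cases hex : ∃ c, ‖c‖ < 1 ∧ Ψ (s, c) ∈ frontier Ω.U
    · obtain ⟨c, hc1, hc⟩ := hex
      exact ⟨c, hc1, fun t ht htc htf =>
        absurd (huniq s hs2 c t (by linarith) (hnorm t ht) hc htf) htc⟩
    · refine ⟨0, by simp, fun t ht _ htf => ?_⟩
      have hno : ∀ t', ‖t'‖ ≤ 1 → Ψ (s, t') ∉ frontier Ω.U := by
        intro t' ht' hf
        rcases ht'.lt_or_eq with h | h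
        · exact hex ⟨t', h, hf⟩
        · exact hs1 t' (mem_sphere_zero_iff_norm.2 h) hf
      exact ⟨lt_of_not_ge fun h => hno t h htf, hno⟩
  choose! c hc1 hc using hpt
  -- status along segments to the circle
  have hclop : ∀ {T : Set C2}, IsPreconnected T → (∀ y ∈ T, y ∉ frontier Ω.U) → ∀ y ∈ T,
      y ∈ Ω.U → ∀ y' ∈ T, y' ∈ Ω.U := by
    intro T hT hTf y hy hyU y' hy'
    refine hT.subset_of_closure_inter_subset Ω.isOpen_U ⟨y, hy, hyU⟩ (fun w hw => ?_) hy'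
    by_contra hwU
    exact hTf w hw.2 (by rw [Ω.isOpen_U.frontier_eq]; exact ⟨hw.1, hwU⟩)
  have hsph : IsPreconnected (Ψ '' (S ×ˢ sphere (0 : ℂ) 1)) :=
    (((convex_ball _ _).isPreconnected).prod
      ((isConnected_sphere (by simp [Complex.rank_real_complex]) 0 zero_le_one).isPreconnected)).image _
      hΨd.continuous.continuousOn
  have hsphf : ∀ y ∈ Ψ '' (S ×ˢ sphere (0 : ℂ) 1), y ∉ frontier Ω.U := by
    rintro _ ⟨⟨s, t⟩, ⟨hs, ht⟩, rfl⟩
    exact (hS (mem_ball.1 hs)).1 t ht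
  have hseg : ∀ s ∈ S, ∀ t, ‖t‖ ≤ 1 → t ≠ c s →
      ∃ t' ∈ sphere (0 : ℂ) 1, (Ψ (s, t) ∈ Ω.U ↔ Ψ (s, t') ∈ Ω.U) := by
    intro s hs t ht htc
    obtain ⟨t', ht', hav⟩ := segment_to_circle htc (hc1 s hs)
    set T := (fun r : ℝ => Ψ (s, t + (r : ℂ) * (t' - t))) '' Icc 0 1
    have hT : IsPreconnected T := isPreconnected_Icc.image _
      (hΨd.continuous.comp (by fun_prop)).continuousOn
    have hTf : ∀ y ∈ T, y ∉ frontier Ω.U := by
      rintro _ ⟨r, hr, rfl⟩ hf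
      have hle : ‖t + (r : ℂ) * (t' - t)‖ ≤ 1 := by
        have h1 : t + (r : ℂ) * (t' - t) = ((1 - r : ℝ) : ℂ) * t + (r : ℂ) * t' := by
          push_cast; ring
        rw [h1]
        refine (norm_add_le _ _).trans ?_
        rw [norm_mul, norm_mul, Complex.norm_real, Complex.norm_real, Real.norm_eq_abs,
          Real.norm_eq_abs, abs_of_nonneg hr.1, abs_of_nonneg (by linarith [hr.2]), ht']
        nlinarith [hr.2]
      exact (hc s hs _ (by linarith) (hav r hr) hf).1.not_ge hle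
    have h0 : Ψ (s, t) ∈ T := ⟨0, by simp, by simp⟩
    have h1 : Ψ (s, t') ∈ T := ⟨1, by simp, by simp⟩
    exact ⟨t', mem_sphere_zero_iff_norm.2 ht', fun h => hclop hT hTf _ h0 h _ h1,
      fun h => hclop hT hTf _ h1 h _ h0⟩
  -- some, hence every, circle is in `U`
  have hcirc : ∀ s ∈ S, ∀ t ∈ sphere (0 : ℂ) 1, Ψ (s, t) ∈ Ω.U := by
    have hxcl : x ∈ closure Ω.U := hx.1
    obtain ⟨y, hyN, hyU⟩ := mem_closure_iff_nhds.1 hxcl N (hNo.mem_nhds hxN)
    obtain ⟨h1, h2⟩ := hyN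
    have hy' : Ψ ((Ψi y).1, (Ψi y).2) ∈ Ω.U := by rwa [Prod.mk.eta, hright]
    have hn : ‖(Ψi y).2‖ < 1 := (mem_ball_zero_iff.1 h2).trans (by norm_num)
    obtain ⟨w, hw, hwU⟩ : ∃ w ∈ sphere (0 : ℂ) 1, Ψ ((Ψi y).1, w) ∈ Ω.U := by
      by_cases hyc : (Ψi y).2 = c (Ψi y).1
      · -- move off the exceptional point
        have hev : ∀ᶠ t in 𝓝[≠] (Ψi y).2, Ψ ((Ψi y).1, t) ∈ Ω.U ∧ ‖t‖ < 1 := by
          refine nhdsWithin_le_nhds (((hΨd.continuous.comp (by fun_prop : Continuous fun t =>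
            ((Ψi y).1, t))).continuousAt.eventually_mem (Ω.isOpen_U.mem_nhds hy')).and
              (continuous_norm.continuousAt.eventually (Iio_mem_nhds hn)))
        obtain ⟨t, ⟨htU, ht1⟩, htne⟩ := (hev.and self_mem_nhdsWithin).exists
        obtain ⟨t', ht', hiff⟩ := hseg _ h1 t ht1.le (fun h => htne (h.trans hyc.symm))
        exact ⟨t', ht', hiff.1 htU⟩
      · obtain ⟨t', ht', hiff⟩ := hseg _ h1 _ hn.le hyc
        exact ⟨t', ht', hiff.1 hy'⟩
    intro s hs t ht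
    exact hclop hsph hsphf _ ⟨(_, w), ⟨h1, hw⟩, rfl⟩ hwU _ ⟨(s, t), ⟨hs, ht⟩, rfl⟩
  refine Ω.no_hartogs hx isOpen_univ hΨd.differentiableOn isOpen_ball
    (fun s hs t ht => ⟨trivial, hcirc s hs t ht⟩) (by norm_num : (1 / 2 : ℝ) < 1) hNo hxN
    hΨid.differentiableOn (fun y hy => hy) (Ω.isOpen_U.inter hNo) Subset.rfl ?_
    (fun y hy => hy.2) fun g => ?_
  · exact mem_closure_iff_nhds.2 fun O hO => by
      obtain ⟨y, ⟨hyO, hyN⟩, hyU⟩ :=
        mem_closure_iff_nhds.1 hx.1 _ (inter_mem hO (hNo.mem_nhds hxN))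
      exact ⟨y, hyO, hyU, hyN⟩
  rintro y ⟨hyU, hyN⟩
  obtain ⟨h1, h2⟩ := hyN
  set s := (Ψi y).1
  set f : ℂ → C2 := fun t => Ω.act g (Ψ (s, t)) with hf
  have hmemU : ∀ t, ‖t‖ ≤ 1 → t ≠ c s → Ψ (s, t) ∈ Ω.U := by
    intro t ht htc
    obtain ⟨t', ht', hiff⟩ := hseg s h1 t ht htc
    exact hiff.2 (hcirc s h1 t' ht')
  set V := {t : ℂ | Ψ (s, t) ∈ Ω.U} with hV
  have hVo : IsOpen V := Ω.isOpen_U.preimage (hΨd.continuous.comp (by fun_prop))
  have hfd : DifferentiableOn ℂ f V :=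
    (Ω.diff g).comp (hΨd.comp (by fun_prop)).differentiableOn fun t ht => ht
  obtain ⟨R, -, hR⟩ := Ω.exists_bound
  set u := update f (c s) (limUnder (𝓝[≠] (c s)) f) with hu
  have hu_eq : ∀ t, t ≠ c s → u t = f t := fun t ht => update_of_ne ht _ _
  have hud : DifferentiableOn ℂ u (closedBall 0 1) := by
    intro t ht
    rcases eq_or_ne t (c s) with rfl | htc
    · have hd := differentiableOn_update_limUnder_of_bddAbove (c := c s)
        (s := ball (0 : ℂ) 1) (f := f) (isOpen_ball.mem_nhds (mem_ball_zero_iff.2 (hc1 s h1)))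
        (hfd.mono fun w hw => hmemU w (mem_ball_zero_iff.1 hw.1).le hw.2)
        ⟨R, by
          rintro _ ⟨w, hw, rfl⟩
          exact hR _ (Ω.maps g (hmemU w (mem_ball_zero_iff.1 hw.1).le hw.2))⟩
      exact ((hd (c s) (mem_ball_zero_iff.2 (hc1 s h1))).differentiableAt
        (isOpen_ball.mem_nhds (mem_ball_zero_iff.2 (hc1 s h1)))).differentiableWithinAt
    · refine DifferentiableAt.differentiableWithinAt ?_
      refine ((hfd.differentiableAt (hVo.mem_nhds (hmemU t (mem_closedBall_zero_iff.1 ht) htc)))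
        ).congr_of_eventuallyEq ?_
      filter_upwards [isOpen_ne.mem_nhds htc] with w hw using hu_eq w hw
  have hn : ‖(Ψi y).2‖ < 1 := (mem_ball_zero_iff.1 h2).trans (by norm_num)
  have hsc : ∀ t ∈ sphere (0 : ℂ) 1, u t = Ω.act g (Ψ (s, t)) := fun t ht =>
    hu_eq t fun h => by rw [h, mem_sphere_zero_iff_norm] at ht; linarith [hc1 s h1]
  change cauchy _ (Ψi y) = _
  rw [cauchy_eq hn hud hsc]
  rcases eq_or_ne (Ψi y).2 (c s) with h | h
  · -- continuity at the exceptional point, which is in `U`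
    have hyV : c s ∈ V := by rw [hV, mem_ofPred_eq, ← h, Prod.mk.eta, hright]; exact hyU
    have hlim : limUnder (𝓝[≠] (c s)) f = f (c s) :=
      ((hfd.continuousOn.continuousAt (hVo.mem_nhds hyV)).tendsto.mono_left
        nhdsWithin_le_nhds).limUnder_eq
    rw [h, hu, update_self, hlim, hf]
    simp only
    rw [← h, Prod.mk.eta, hright]
  · rw [hu_eq _ h, hf]
    simp only
    rw [Prod.mk.eta, hright]

end

end Vale.Agent.P274.Surface
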