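import Vale.Agent.P274.Surface.Alg
import Vale.Agent.P274.Surface.Thin

/-!
Regular points are dense in the frontier.
-/

open Filter Metric Set Function Topology

namespace Vale.Agent.P274.Surface

noncomputable section

namespace DenseReg

/-- The coordinates as linear forms. -/
def cl : Fin 4 → C2 →L[ℝ] ℝ :=
  ![Complex.reCLM.comp (ContinuousLinearMap.fst ℝ ℂ ℂ),
    Complex.imCLM.comp (ContinuousLinearMap.fst ℝ ℂ ℂ),
    Complex.reCLM.comp (ContinuousLinearMap.snd ℝ ℂ ℂ),
    Complex.imCLM.comp (ContinuousLinearMap.snd ℝ ℂ ℂ)]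

/-- The coordinate directions. -/
def dir : Fin 4 → C2 := ![(1, 0), (Complex.I, 0), (0, 1), (0, Complex.I)]

theorem coord_apply (z : C2) (i : Fin 4) : coord z i = cl i z := by
  fin_cases i <;> simp [coord, cl]

theorem cl_dir (i j : Fin 4) : cl j (dir i) = if j = i then 1 else 0 := by
  fin_cases i <;> fin_cases j <;> simp [cl, dir]

theorem contDiff (P : MvPolynomial (Fin 4) ℝ) : ContDiff ℝ 1 (pev P) := by
  induction P using MvPolynomial.induction_on with
  | C a =>
    have : pev (MvPolynomial.C a) = fun _ => a := by funext w; simp [pev]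
    rw [this]
    exact contDiff_const
  | add p q hp hq =>
    have : pev (p + q) = pev p + pev q := by funext w; simp [pev]
    rw [this]
    exact ContDiff.add hp hq
  | mul_X p i hp =>
    have : pev (p * MvPolynomial.X i) = fun w => pev p w * cl i w := by
      funext w; simp [pev, coord_apply]
    rw [this]
    exact ContDiff.mul hp (cl i).contDiff

theorem hasFDerivAt (P : MvPolynomial (Fin 4) ℝ) (z : C2) :
    HasFDerivAt (pev P) (∑ i, pev (MvPolynomial.pderiv i P) z • cl i) z := by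
  induction P using MvPolynomial.induction_on with
  | C a =>
    have : pev (MvPolynomial.C a) = fun _ => a := by funext w; simp [pev]
    rw [this]
    simpa [pev] using hasFDerivAt_const a z
  | add p q hp hq =>
    have : pev (p + q) = pev p + pev q := by funext w; simp [pev]
    rw [this]
    refine (hp.add hq).congr_fderiv ?_
    simp [pev, add_smul, Finset.sum_add_distrib]
  | mul_X p i hp =>
    have : pev (p * MvPolynomial.X i) = fun w => pev p w * cl i w := by
      funext w; simp [pev, coord_apply]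
    rw [this]
    refine (hp.mul (cl i).hasFDerivAt).congr_fderiv ?_
    have e : ∀ j, pev (MvPolynomial.pderiv j (p * MvPolynomial.X i)) z =
        cl i z * pev (MvPolynomial.pderiv j p) z + if j = i then pev p z else 0 := fun j => by
      rw [MvPolynomial.pderiv_mul, MvPolynomial.pderiv_X]
      by_cases h : j = i <;> simp [pev, coord_apply, h, mul_comm]
    simp only [e, add_smul, Finset.sum_add_distrib, Finset.smul_sum, smul_smul, ite_smul,
      zero_smul, Finset.sum_ite_eq', Finset.mem_univ, if_true]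
    exact add_comm _ _

theorem fderiv_dir (P : MvPolynomial (Fin 4) ℝ) (z : C2) (i : Fin 4) :
    fderiv ℝ (pev P) z (dir i) = pev (MvPolynomial.pderiv i P) z := by
  simp [(hasFDerivAt P z).fderiv, cl_dir]

theorem pderiv_comm (i j : Fin 4) (P : MvPolynomial (Fin 4) ℝ) :
    MvPolynomial.pderiv i (MvPolynomial.pderiv j P) =
      MvPolynomial.pderiv j (MvPolynomial.pderiv i P) := by
  induction P using MvPolynomial.induction_on with
  | C a => simp
  | add p q hp hq => simp [hp, hq]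
  | mul_X p k hp =>
    simp only [MvPolynomial.pderiv_mul, map_add, MvPolynomial.pderiv_X, Pi.single_apply, hp]
    split_ifs <;> simp <;> abel

theorem totalDegree_pderiv_lt {P : MvPolynomial (Fin 4) ℝ} {i : Fin 4}
    (h : MvPolynomial.pderiv i P ≠ 0) :
    (MvPolynomial.pderiv i P).totalDegree < P.totalDegree := by
  obtain ⟨m, hm, hmdeg⟩ := Finset.exists_mem_eq_sup _ (MvPolynomial.support_nonempty.2 h)
    (fun s : Fin 4 →₀ ℕ => s.sum fun _ e => e)
  rw [MvPolynomial.mem_support_iff, MvPolynomial.coeff_pderiv] at hm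
  have hms : m + Finsupp.single i 1 ∈ P.support :=
    MvPolynomial.mem_support_iff.2 (left_ne_zero_of_mul hm)
  have h3 := MvPolynomial.le_totalDegree hms
  rw [Finsupp.sum_add_index' (fun _ => rfl) (fun _ _ _ => rfl), Finsupp.sum_single_index rfl] at h3
  have h4 : (MvPolynomial.pderiv i P).totalDegree = m.sum fun _ e => e := hmdeg
  omega

theorem eq_C_of_pderiv_eq_zero {P : MvPolynomial (Fin 4) ℝ}
    (h : ∀ i, MvPolynomial.pderiv i P = 0) : P = MvPolynomial.C (P.coeff 0) := by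
  classical
  refine MvPolynomial.ext _ _ fun s => ?_
  rw [MvPolynomial.coeff_C]
  split
  · next hs => rw [← hs]
  · next hs =>
    obtain ⟨i, hi⟩ : ∃ i, s i ≠ 0 := by
      by_contra h'; push Not at h'; exact hs (Finsupp.ext h').symm
    obtain ⟨m, rfl⟩ : ∃ m, s = m + Finsupp.single i 1 := by
      refine ⟨s - Finsupp.single i 1, ?_⟩
      ext a
      by_cases ha : a = i
      · subst ha; simp; omega
      · simp [Finsupp.single_eq_of_ne ha]
    have := congrArg (MvPolynomial.coeff m) (h i)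
    rw [MvPolynomial.coeff_pderiv, MvPolynomial.coeff_zero] at this
    simp only [mul_eq_zero] at this
    rcases this with h0 | h0
    · exact h0
    · exfalso
      have : (0 : ℝ) < (m i : ℝ) + 1 := by positivity
      linarith

variable {Z O : Set C2} {y : C2}

/-- Finitely many closed sets covering a set contain, each on some piece, the whole set. -/
theorem exists_piece {ι : Type} (t : Finset ι) {A : ι → Set C2} (hA : ∀ i ∈ t, IsClosed (A i)) :
    ∀ {y : C2} {O : Set C2}, y ∈ Z → O ∈ 𝓝 y → (∀ u ∈ O, u ∈ Z → ∃ i ∈ t, u ∈ A i) →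
      ∃ u ∈ Z, O ∈ 𝓝 u ∧ ∃ i ∈ t, ∀ᶠ v in 𝓝 u, v ∈ Z → v ∈ A i := by
  classical
  induction t using Finset.induction_on with
  | empty =>
    intro y O hy hO hc
    obtain ⟨i, hi, -⟩ := hc y (mem_of_mem_nhds hO) hy
    simp at hi
  | insert a s _ ih =>
    intro y O hy hO hc
    obtain ⟨O', hO'O, hO'o, hyO'⟩ := _root_.mem_nhds_iff.1 hO
    by_cases h : ∀ u ∈ O', u ∈ Z → u ∈ A a
    · exact ⟨y, hy, hO, a, Finset.mem_insert_self _ _, eventually_of_mem (hO'o.mem_nhds hyO') h⟩
    push Not at h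
    obtain ⟨u, huO, huZ, hua⟩ := h
    have hW : O' \ A a ∈ 𝓝 u :=
      (hO'o.sdiff (hA a (Finset.mem_insert_self _ _))).mem_nhds ⟨huO, hua⟩
    obtain ⟨w, hwZ, hwW, i, hi, hev⟩ := ih (fun i hi => hA i (Finset.mem_insert_of_mem hi)) huZ hW
      fun v hv hvZ => by
        obtain ⟨i, hi, hvi⟩ := hc v (hO'O hv.1) hvZ
        rcases Finset.mem_insert.1 hi with rfl | hi
        exacts [absurd hvi hv.2, ⟨i, hi, hvi⟩]
    exact ⟨w, hwZ, mem_of_superset hwW (sdiff_subset.trans hO'O), i,
      Finset.mem_insert_of_mem hi, hev⟩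

/-- On a smaller piece some derivative vanishes with a nonvanishing differential. -/
theorem exists_regular (p : MvPolynomial (Fin 4) ℝ → Prop)
    (hp : ∀ P i, p P → p (MvPolynomial.pderiv i P)) :
    ∀ n, ∀ P : MvPolynomial (Fin 4) ℝ, P.totalDegree ≤ n → P ≠ 0 → p P →
      ∀ {y : C2} {O : Set C2}, y ∈ Z → IsOpen O → y ∈ O →
        (∀ᶠ v in 𝓝 y, v ∈ Z → pev P v = 0) →
        ∃ u ∈ Z, u ∈ O ∧ ∃ D, p D ∧ (∀ᶠ v in 𝓝 u, v ∈ Z → pev D v = 0) ∧
          ∃ j, pev (MvPolynomial.pderiv j D) u ≠ 0 := by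
  intro n
  induction n using Nat.strong_induction_on with
  | _ n ih =>
  intro P hdeg hP hpP y O hy hO hyO hev
  obtain ⟨V, hV, hVo, hyV⟩ := _root_.eventually_nhds_iff.1 hev
  by_cases h : ∃ v ∈ V ∩ O, v ∈ Z ∧ ∃ j, pev (MvPolynomial.pderiv j P) v ≠ 0
  · obtain ⟨v, ⟨hvV, hvO⟩, hvZ, j, hj⟩ := h
    exact ⟨v, hvZ, hvO, P, hpP, eventually_of_mem (hVo.mem_nhds hvV) hV, j, hj⟩
  push Not at h
  obtain ⟨j, hj⟩ : ∃ j, MvPolynomial.pderiv j P ≠ 0 := by
    by_contra h0
    push Not at h0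
    refine hP ?_
    have h1 := eq_C_of_pderiv_eq_zero h0
    have h2 := hV y hyV hy
    rw [h1] at h2
    simp only [pev, MvPolynomial.eval_C] at h2
    rw [h1, h2, map_zero]
  exact ih _ (lt_of_lt_of_le (totalDegree_pderiv_lt hj) hdeg) _ le_rfl hj (hp _ j hpP) hy hO hyO
    (eventually_of_mem (inter_mem (hVo.mem_nhds hyV) (hO.mem_nhds hyO))
      fun v hv hvZ => h v hv hvZ j)

theorem continuous_pev (P : MvPolynomial (Fin 4) ℝ) : Continuous (pev P) :=
  (contDiff P).continuous

/-- A simple zero of a product is a simple zero of exactly one factor. -/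
theorem exists_factor (M : Multiset (MvPolynomial (Fin 4) ℝ)) {j : Fin 4}
    (h0 : pev M.prod y = 0) (hd : pev (MvPolynomial.pderiv j M.prod) y ≠ 0) :
    ∃ r ∈ M, ∃ g, M.prod = r * g ∧ pev g y ≠ 0 ∧ pev r y = 0 ∧
      pev (MvPolynomial.pderiv j r) y ≠ 0 := by
  induction M using Multiset.induction_on with
  | empty => simp [pev] at h0
  | cons a M ih =>
    simp only [Multiset.prod_cons, MvPolynomial.pderiv_mul, pev, map_mul, map_add] at h0 hd
    by_cases ha : pev a y = 0
    · simp only [pev] at ha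
      rw [ha, zero_mul, add_zero] at hd
      exact ⟨a, Multiset.mem_cons_self _ _, M.prod, Multiset.prod_cons _ _,
        right_ne_zero_of_mul hd, ha, left_ne_zero_of_mul hd⟩
    · simp only [pev] at ha
      have hM : MvPolynomial.eval (coord y) M.prod = 0 := (mul_eq_zero.1 h0).resolve_left ha
      rw [hM, mul_zero, zero_add] at hd
      obtain ⟨r, hr, g, hg, hgy, hry, hrd⟩ := ih hM (right_ne_zero_of_mul hd)
      refine ⟨r, Multiset.mem_cons_of_mem hr, a * g, ?_, ?_, hry, hrd⟩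
      · rw [Multiset.prod_cons, hg, mul_left_comm]
      · simp only [pev, map_mul]
        exact mul_ne_zero ha hgy

/-- A regular piece lies in the zero set of an irreducible polynomial regular there. -/
theorem exists_irreducible {D : MvPolynomial (Fin 4) ℝ} {j : Fin 4}
    (hev : ∀ᶠ v in 𝓝 y, v ∈ Z → pev D v = 0) (hy : y ∈ Z)
    (hd : pev (MvPolynomial.pderiv j D) y ≠ 0) :
    ∃ R, Irreducible R ∧ (∀ᶠ v in 𝓝 y, v ∈ Z → pev R v = 0) ∧
      pev (MvPolynomial.pderiv j R) y ≠ 0 := by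
  have h0 : pev D y = 0 := hev.self_of_nhds hy
  have hD : D ≠ 0 := by rintro rfl; simp [pev] at hd
  obtain ⟨v, hv⟩ := UniqueFactorizationMonoid.factors_prod hD
  obtain ⟨c, hc, hcC⟩ := MvPolynomial.isUnit_iff_eq_C_of_isReduced.1 v.isUnit
  set M := UniqueFactorizationMonoid.factors D
  rw [hcC] at hv
  have hM0 : pev M.prod y = 0 := by
    rw [← hv] at h0
    simp only [pev, map_mul, MvPolynomial.eval_C, mul_eq_zero] at h0
    exact h0.resolve_right hc.ne_zero
  have hMd : pev (MvPolynomial.pderiv j M.prod) y ≠ 0 := by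
    rw [← hv] at hd
    intro h
    simp only [pev] at h
    simp [pev, h] at hd
  obtain ⟨r, hr, g, hg, hgy, -, hrd⟩ := exists_factor M hM0 hMd
  refine ⟨r, UniqueFactorizationMonoid.irreducible_of_factor r hr, ?_, hrd⟩
  filter_upwards [hev, (continuous_pev g).continuousAt.eventually_ne hgy] with u hu hgu huZ
  have h := hu huZ
  rw [← hv, hg] at h
  simp only [pev, map_mul, MvPolynomial.eval_C, mul_eq_zero] at h ⊢
  exact (h.resolve_right hc.ne_zero).resolve_right hgu

/-- The frontier is nowhere contained in two different hypersurfaces, one of them regular. -/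
theorem not_two (Ω : Sys) {R P : MvPolynomial (Fin 4) ℝ} (hR : Irreducible R) (hRP : ¬ R ∣ P)
    {k : Fin 4} (hy : y ∈ frontier Ω.U) (hk : pev (MvPolynomial.pderiv k R) y ≠ 0)
    (hev : ∀ᶠ v in 𝓝 y, v ∈ frontier Ω.U → pev R v = 0 ∧ pev P v = 0) : False := by
  obtain ⟨c, hc, hck, hvan⟩ := exists_elim hR hRP (i := k) fun h => hk (by simp [h, pev])
  obtain ⟨W, hW, hWo, hyW⟩ := _root_.eventually_nhds_iff.1
    (hev.and ((continuous_pev _).continuousAt.eventually_ne hk))
  obtain ⟨u, huZ, huW, D, hDk, hDev, j, hDj⟩ := exists_regular (Z := frontier Ω.U)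
    (fun D => MvPolynomial.pderiv k D = 0)
    (fun D i hD => by simp only [pderiv_comm k i, hD, map_zero]) _ c le_rfl hc hck hy hWo hyW
    (eventually_of_mem (hWo.mem_nhds hyW) fun v hv hvZ =>
      hvan _ ((hW v hv).1 hvZ).1 ((hW v hv).1 hvZ).2)
  refine Ω.not_thin huZ (a := pev R) (b := pev D) (a' := fderiv ℝ (pev R) u)
    (b' := fderiv ℝ (pev D) u) ((contDiff R).contDiffAt.hasStrictFDerivAt (by norm_num))
    ((contDiff D).contDiffAt.hasStrictFDerivAt (by norm_num)) ?_ ?_
  · rintro ⟨s, t⟩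
    refine ⟨((s - t / pev (MvPolynomial.pderiv j D) u * pev (MvPolynomial.pderiv j R) u) /
      pev (MvPolynomial.pderiv k R) u) • dir k +
        (t / pev (MvPolynomial.pderiv j D) u) • dir j, ?_⟩
    have hku := (hW u huW).2
    have hD0 : pev (MvPolynomial.pderiv k D) u = 0 := by simp [hDk, pev]
    simp only [map_add, map_smul, fderiv_dir, smul_eq_mul, hD0, mul_zero, zero_add,
      Prod.mk.injEq]
    rw [div_mul_cancel₀ _ hDj, div_mul_cancel₀ _ hku]
    exact ⟨by ring, rfl⟩
  · filter_upwards [hDev, hWo.mem_nhds huW] with v hv hvW hvZ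
    exact ⟨((hW v hvW).1 hvZ).1, hv hvZ⟩

/-- Both sides are present at a regular zero. -/
theorem exists_pos {R : MvPolynomial (Fin 4) ℝ} {u : C2} {A : Set C2} (hA : A ∈ 𝓝 u)
    (h0 : pev R u = 0) (hd : fderiv ℝ (pev R) u ≠ 0) :
    (∃ w ∈ A, 0 < pev R w) ∧ ∃ w ∈ A, pev R w < 0 := by
  constructor <;> by_contra h <;> push Not at h <;> apply hd
  · exact IsLocalMax.fderiv_eq_zero (eventually_of_mem hA fun w hw => (h w hw).trans h0.ge)
  · exact IsLocalMin.fderiv_eq_zero (eventually_of_mem hA fun w hw => h0.le.trans (h w hw))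

/-- The sign of a polynomial is locally constant where none of its factors vanishes. -/
theorem sign_eventually {g : C2 → ℝ} {b : C2} (hg : ContinuousAt g b) (h : g b ≠ 0) :
    ∀ᶠ u in 𝓝 b, SignType.sign (g u) = SignType.sign (g b) := by
  rcases lt_or_gt_of_ne h with h | h
  · filter_upwards [hg.eventually_mem (Iio_mem_nhds h)] with u hu
    rw [sign_neg h, sign_neg hu]
  · filter_upwards [hg.eventually_mem (Ioi_mem_nhds h)] with u hu
    rw [sign_pos h, sign_pos hu]

/-- Where the other factors keep their signs, the signs of the polynomials are functions of one. -/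
theorem sign_prod {O : Set C2} {ρ : C2 → ℝ} (M : Multiset (MvPolynomial (Fin 4) ℝ))
    (h : ∀ r ∈ M, ∃ g : SignType → SignType,
      ∀ u ∈ O, SignType.sign (pev r u) = g (SignType.sign (ρ u))) :
    ∃ g : SignType → SignType, ∀ u ∈ O, SignType.sign (pev M.prod u) = g (SignType.sign (ρ u)) := by
  induction M using Multiset.induction_on with
  | empty => exact ⟨fun _ => 1, fun u _ => by simp [pev]⟩
  | cons r M ih =>
    obtain ⟨g₁, hg₁⟩ := h r (Multiset.mem_cons_self _ _)
    obtain ⟨g₂, hg₂⟩ := ih fun q hq => h q (Multiset.mem_cons_of_mem hq)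
    refine ⟨fun s => g₁ s * g₂ s, fun u hu => ?_⟩
    simp only
    rw [← hg₁ u hu, ← hg₂ u hu]
    simp [pev, sign_mul]

/-- Where membership is a function of the sign, so is the frontier on the zero set. -/
theorem frontier_iff (U : Set C2) {R : MvPolynomial (Fin 4) ℝ} (hU : IsOpen U)
    {O : Set C2} (hO : IsOpen O) (hd : ∀ u ∈ O, fderiv ℝ (pev R) u ≠ 0)
    {τ : SignType → Prop} (hmem : ∀ u ∈ O, (u ∈ U ↔ τ (SignType.sign (pev R u))))
    {u : C2} (hu : u ∈ O) (hu0 : pev R u = 0) :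
    u ∈ frontier U ↔ ¬ τ 0 ∧ (τ 1 ∨ τ (-1)) := by
  have hu' : u ∈ U ↔ τ 0 := by rw [hmem u hu, hu0, sign_zero]
  rw [hU.frontier_eq]
  constructor
  · rintro ⟨hcl, hnU⟩
    refine ⟨fun h => hnU (hu'.2 h), ?_⟩
    obtain ⟨w, hwO, hwU⟩ := mem_closure_iff_nhds.1 hcl O (hO.mem_nhds hu)
    have hwt := (hmem w hwO).1 hwU
    rcases lt_trichotomy (pev R w) 0 with h | h | h
    · rw [sign_neg h] at hwt; exact Or.inr hwt
    · exact absurd (hu'.2 (by simpa [h] using hwt)) hnU
    · rw [sign_pos h] at hwt; exact Or.inl hwt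
  · rintro ⟨h0, hs⟩
    refine ⟨mem_closure_iff_nhds.2 fun A hA => ?_, fun h => h0 (hu'.1 h)⟩
    obtain ⟨⟨w₁, hw₁, hp⟩, w₂, hw₂, hn⟩ :=
      exists_pos (inter_mem hA (hO.mem_nhds hu)) hu0 (hd u hu)
    rcases hs with hs | hs
    · exact ⟨w₁, hw₁.1, (hmem w₁ hw₁.2).2 (by rw [sign_pos hp]; exact hs)⟩
    · exact ⟨w₂, hw₂.1, (hmem w₂ hw₂.2).2 (by rw [sign_neg hn]; exact hs)⟩

theorem regPt_neg_or (U : Set C2) {R : MvPolynomial (Fin 4) ℝ} {b : C2} (hU : IsOpen U)
    {O : Set C2} (hO : IsOpen O) (hbO : b ∈ O) (hb : b ∈ frontier U)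
    (hd : ∀ u ∈ O, fderiv ℝ (pev R) u ≠ 0) (hfr : ∀ u ∈ O, u ∈ frontier U → pev R u = 0)
    {τ : SignType → Prop} (hmem : ∀ u ∈ O, (u ∈ U ↔ τ (SignType.sign (pev R u)))) :
    RegPt U R b ∨ RegPt U (-R) b := by
  obtain ⟨hτ0, hs⟩ := (frontier_iff U hU hO hd hmem hbO (hfr b hbO hb)).1 hb
  have hfr' : ∀ u ∈ O, (u ∈ frontier U ↔ pev R u = 0) := fun u hu =>
    ⟨hfr u hu, fun h0 => (frontier_iff U hU hO hd hmem hu h0).2 ⟨hτ0, hs⟩⟩
  rcases hs with hs | hs
  · exact Or.inl ⟨hb, hd b hbO, eventually_of_mem (hO.mem_nhds hbO) fun u hu =>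
      ⟨hfr' u hu, fun hp => (hmem u hu).2 (by rw [sign_pos hp]; exact hs)⟩⟩
  · have hn : ∀ v, pev (-R) v = -pev R v := fun v => by simp [pev]
    refine Or.inr ⟨hb, ?_, eventually_of_mem (hO.mem_nhds hbO) fun u hu =>
      ⟨by rw [hn, neg_eq_zero]; exact hfr' u hu, fun hp => ?_⟩⟩
    · rw [show pev (-R) = fun v => -pev R v from funext hn, fderiv_fun_neg, ne_eq, neg_eq_zero]
      exact hd b hbO
    · rw [hn, neg_pos] at hp
      exact (hmem u hu).2 (by rw [sign_neg hp]; exact hs)

/-- Associated polynomials have signs that differ by a constant. -/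
theorem sign_assoc {r s : MvPolynomial (Fin 4) ℝ} (h : Associated r s) (O : Set C2) :
    ∃ g : SignType → SignType,
      ∀ u ∈ O, SignType.sign (pev s u) = g (SignType.sign (pev r u)) := by
  obtain ⟨w, hw⟩ := h
  obtain ⟨c, -, hc⟩ := MvPolynomial.isUnit_iff_eq_C_of_isReduced.1 w.isUnit
  exact ⟨fun t => t * SignType.sign c, fun u _ => by rw [← hw, hc]; simp [pev, sign_mul]⟩

end DenseReg

open DenseReg in
theorem Sys.dense_regular (Ω : Sys) (hU : IsSA Ω.U) :
    ∃ F : Finset (MvPolynomial (Fin 4) ℝ), (∀ R ∈ F, Irreducible R) ∧ SignConst Ω.U F ∧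
      ∀ q ∈ frontier Ω.U, ∀ O ∈ 𝓝 q, ∃ y ∈ O, ∃ R ∈ F, RegPt Ω.U R y := by
  classical
  obtain ⟨k, P, T, hT⟩ := hU
  set fs : Finset (MvPolynomial (Fin 4) ℝ) :=
    Finset.univ.biUnion fun i => (UniqueFactorizationMonoid.factors (P i)).toFinset with hfs
  have hmemfs : ∀ i r, r ∈ UniqueFactorizationMonoid.factors (P i) → r ∈ fs := fun i r hr => by
    simp only [hfs, Finset.mem_biUnion, Multiset.mem_toFinset]
    exact ⟨i, Finset.mem_univ _, hr⟩
  have hirr : ∀ r ∈ fs, Irreducible r := by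
    intro r hr
    simp only [hfs, Finset.mem_biUnion, Multiset.mem_toFinset] at hr
    obtain ⟨i, -, hi⟩ := hr
    exact UniqueFactorizationMonoid.irreducible_of_factor r hi
  refine ⟨fs ∪ fs.image Neg.neg, fun R hR => ?_, ?_⟩
  · rcases Finset.mem_union.1 hR with h | h
    · exact hirr R h
    · obtain ⟨r, hr, rfl⟩ := Finset.mem_image.1 h
      exact (Associated.neg_right (Associated.refl r)).irreducible (hirr r hr)
  -- membership only changes with the sign of some factor
  have hsign : ∀ (A : Set C2) (ρ : C2 → ℝ),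
      (∀ r ∈ fs, ∃ g : SignType → SignType,
        ∀ u ∈ A, SignType.sign (pev r u) = g (SignType.sign (ρ u))) →
      ∃ τ : SignType → Prop, ∀ u ∈ A, (u ∈ Ω.U ↔ τ (SignType.sign (ρ u))) := by
    intro A ρ hA
    have hpoly : ∀ i, ∃ g : SignType → SignType,
        ∀ u ∈ A, SignType.sign (pev (P i) u) = g (SignType.sign (ρ u)) := by
      intro i
      by_cases hP0 : P i = 0
      · exact ⟨fun _ => 0, fun u _ => by simp [hP0, pev]⟩
      obtain ⟨v, hv⟩ := UniqueFactorizationMonoid.factors_prod hP0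
      obtain ⟨c, -, hcC⟩ := MvPolynomial.isUnit_iff_eq_C_of_isReduced.1 v.isUnit
      obtain ⟨g, hg⟩ := sign_prod (ρ := ρ) (O := A) _ fun r hr => hA r (hmemfs i r hr)
      refine ⟨fun s => g s * SignType.sign c, fun u hu => ?_⟩
      simp only
      rw [← hg u hu, ← sign_mul]
      congr 1
      have := congrArg (fun p => pev p u) hv
      simp only [hcC] at this
      rw [← this]
      simp [pev]
    choose g hg using hpoly
    refine ⟨fun s => (fun i => g i s) ∈ T, fun u hu => ?_⟩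
    rw [hT]
    simp only [hg _ u hu]
  -- some factor vanishes at each frontier point
  have hcov : ∀ b ∈ frontier Ω.U, ∃ r ∈ fs, pev r b = 0 := by
    intro b hb
    by_contra hno
    push Not at hno
    obtain ⟨A, hA, hAo, hbA⟩ := _root_.eventually_nhds_iff.1 ((eventually_all_finset fs).2
      fun r hr => sign_eventually (continuous_pev r).continuousAt (hno r hr))
    obtain ⟨τ, hτ⟩ := hsign A (fun _ => (0 : ℝ)) fun r hr => ⟨fun _ => SignType.sign (pev r b),
      fun u hu => hA u hu r hr⟩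
    obtain ⟨w, hw, hwU⟩ := mem_closure_iff_nhds.1 hb.1 A (hAo.mem_nhds hbA)
    rw [Ω.isOpen_U.frontier_eq] at hb
    exact hb.2 ((hτ b hbA).2 ((hτ w hw).1 hwU))
  refine ⟨fun R hR y hy0 hyd hother => ?_, fun q hq O hO => ?_⟩
  · have hev : ∀ᶠ u in 𝓝 y, fderiv ℝ (pev R) u ≠ 0 ∧
        ∀ r ∈ fs, ¬ Associated R r → SignType.sign (pev r u) = SignType.sign (pev r y) :=
      (((contDiff R).continuous_fderiv (by norm_num)).continuousAt.eventually_ne hyd).and
        ((eventually_all_finset fs).2 fun r hr =>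
          if hn : Associated R r then Eventually.of_forall fun u h => absurd hn h
          else (sign_eventually (continuous_pev r).continuousAt
            (hother r (Finset.mem_union_left _ hr) hn)).mono fun u hu _ => hu)
    obtain ⟨A, hA, hAo, hyA⟩ := _root_.eventually_nhds_iff.1 hev
    obtain ⟨τ, hτ⟩ := hsign A (pev R) fun r hr => by
      by_cases hn : Associated R r
      · exact sign_assoc hn A
      · exact ⟨fun _ => SignType.sign (pev r y), fun u hu => (hA u hu).2 r hr hn⟩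
    filter_upwards [hAo.mem_nhds hyA] with y' hy' hy'0
    rw [frontier_iff Ω.U Ω.isOpen_U hAo (fun u hu => (hA u hu).1) hτ hy' hy'0,
      frontier_iff Ω.U Ω.isOpen_U hAo (fun u hu => (hA u hu).1) hτ hyA hy0]
  obtain ⟨O₁, hO₁, hO₁o, hqO₁⟩ := _root_.mem_nhds_iff.1 hO
  -- a piece in the zero set of an irreducible polynomial regular there
  obtain ⟨y₀, hy₀, hO₀, r, hr, hev₀⟩ := exists_piece (Z := frontier Ω.U) fs
    (A := fun r => {v | pev r v = 0})
    (fun r _ => isClosed_eq (continuous_pev r) continuous_const) hq (hO₁o.mem_nhds hqO₁)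
    fun u _ hu => hcov u hu
  obtain ⟨y₁, hy₁, hy₁O, D, -, hev₁, j, hj⟩ := exists_regular (fun _ => True)
    (fun _ _ _ => trivial) _ r le_rfl (hirr r hr).ne_zero trivial hy₀ hO₁o (mem_of_mem_nhds hO₀)
    hev₀
  obtain ⟨R, hR, hev, hRj⟩ := exists_irreducible hev₁ hy₁ hj
  obtain ⟨W, hW, hWo, hy₁W⟩ := _root_.eventually_nhds_iff.1
    ((hev.and ((continuous_pev _).continuousAt.eventually_ne hRj)).and (hO₁o.mem_nhds hy₁O))
  -- a point of it off all other factors
  obtain ⟨b, hb, hbW, hbo⟩ : ∃ b ∈ frontier Ω.U, b ∈ W ∧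
      ∀ s ∈ fs, ¬ R ∣ s → pev s b ≠ 0 := by
    by_contra hno
    push Not at hno
    obtain ⟨u, hu, huW, s, hs, hs'⟩ := exists_piece (Z := frontier Ω.U) {s ∈ fs | ¬ R ∣ s}
      (A := fun s => {v | pev s v = 0})
      (fun s _ => isClosed_eq (continuous_pev s) continuous_const) hy₁ (hWo.mem_nhds hy₁W)
      fun u huW hu => by
        obtain ⟨s, hs, hn, h0⟩ := hno u hu huW
        exact ⟨s, Finset.mem_filter.2 ⟨hs, hn⟩, h0⟩
    refine not_two Ω hR (Finset.mem_filter.1 hs).2 hu (hW u (mem_of_mem_nhds huW)).1.2 ?_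
    filter_upwards [hs', huW] with v hv hvW hvZ
    exact ⟨(hW v hvW).1.1 hvZ, hv hvZ⟩
  obtain ⟨r₀, hr₀, hr₀b⟩ := hcov b hb
  have hass : Associated R r₀ :=
    hR.associated_of_dvd (hirr r₀ hr₀) (by_contra fun h => hbo r₀ hr₀ h hr₀b)
  obtain ⟨v, hv⟩ := hass
  obtain ⟨c, hc, hcC⟩ := MvPolynomial.isUnit_iff_eq_C_of_isReduced.1 v.isUnit
  have hval : ∀ u, pev r₀ u = pev R u * c := fun u => by rw [← hv, hcC]; simp [pev]
  have hd : ∀ u ∈ W, fderiv ℝ (pev r₀) u ≠ 0 := fun u hu h0 => by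
    refine (hW u hu).1.2 ?_
    have : pev (MvPolynomial.pderiv j r₀) u = 0 := by rw [← fderiv_dir, h0]; simp
    rw [← hv, hcC] at this
    simpa [pev, hc.ne_zero] using this
  obtain ⟨A, hA, hAo, hbA⟩ := _root_.eventually_nhds_iff.1 ((eventually_all_finset fs).2
    fun s hs => show ∀ᶠ u in 𝓝 b, ¬ R ∣ s → SignType.sign (pev s u) = SignType.sign (pev s b) from
      if hn : R ∣ s then Eventually.of_forall fun u h => absurd hn h
      else (sign_eventually (continuous_pev s).continuousAt (hbo s hs hn)).mono fun u hu _ => hu)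
  obtain ⟨τ, hτ⟩ := hsign (A ∩ W) (pev r₀) fun s hs => by
    by_cases hn : R ∣ s
    · exact sign_assoc ((Associated.symm ⟨v, hv⟩).trans (hR.associated_of_dvd (hirr s hs) hn)) _
    · exact ⟨fun _ => SignType.sign (pev s b), fun u hu => hA u hu.1 s hs hn⟩
  rcases regPt_neg_or Ω.U Ω.isOpen_U (hAo.inter hWo) ⟨hbA, hbW⟩ hb (fun u hu => hd u hu.2)
    (fun u hu huf => by rw [hval, (hW u hu.2).1.1 huf, zero_mul]) hτ with h | h
  · exact ⟨b, hO₁ (hW b hbW).2, r₀, Finset.mem_union_left _ hr₀, h⟩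
  · exact ⟨b, hO₁ (hW b hbW).2, -r₀,
      Finset.mem_union_right _ (Finset.mem_image.2 ⟨r₀, hr₀, rfl⟩), h⟩

end

end Vale.Agent.P274.Surface
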