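import Vale.Agent.P274.Surface.Defs
import Mathlib.Algebra.Polynomial.Roots
import Mathlib.Algebra.Polynomial.FieldDivision
import Mathlib.Analysis.Calculus.Deriv.Basic
import Mathlib.Analysis.Calculus.ParametricIntervalIntegral
import Mathlib.Analysis.Calculus.FDeriv.OfCompLeft
import Mathlib.Analysis.Complex.HasPrimitives
import Mathlib.Analysis.Complex.Polynomial.Basic
import Mathlib.Analysis.SpecificLimits.Basic

/-!
Root branches and flow boxes.
-/

open Filter Metric Set Function Topology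
open scoped Interval

namespace Vale.Agent.P274.Surface

noncomputable section

/-- The inverse function theorem for holomorphic maps. -/
theorem exists_chart {E : Type*} [NormedAddCommGroup E] [NormedSpace ℂ E] [FiniteDimensional ℂ E]
    {f : E → E} {U : Set E} (hU : IsOpen U) (hf : DifferentiableOn ℂ f U) {x : E} (hx : x ∈ U)
    (hinj : Injective (fderiv ℂ f x)) :
    ∃ e : OpenPartialHomeomorph E E, x ∈ e.source ∧ e.source ⊆ U ∧ ⇑e = f ∧
      DifferentiableOn ℂ e.symm e.target := by
  have : CompleteSpace E := FiniteDimensional.complete ℂ E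
  set R : Set (E →L[ℂ] E) := range ((↑) : (E ≃L[ℂ] E) → E →L[ℂ] E)
  set L : E ≃L[ℂ] E :=
    (LinearEquiv.ofInjectiveEndo (fderiv ℂ f x : E →ₗ[ℂ] E) hinj).toContinuousLinearEquiv
  have hL : (L : E →L[ℂ] E) = fderiv ℂ f x := by ext v; rfl
  have hs : HasStrictFDerivAt f (L : E →L[ℂ] E) x := hL ▸ hasStrictFDerivAt hU hf hx
  set V := U ∩ fderiv ℂ f ⁻¹' R
  have hV : IsOpen V :=
    (continuousOn_fderiv hU hf).isOpen_inter_preimage hU ContinuousLinearEquiv.isOpen
  refine ⟨(hs.toOpenPartialHomeomorph f).restrOpen V hV,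
    ⟨hs.mem_toOpenPartialHomeomorph_source, hx, L, hL⟩, fun y hy => hy.2.1, rfl, fun w hw => ?_⟩
  set e := (hs.toOpenPartialHomeomorph f).restrOpen V hV
  obtain ⟨hwU, A, hA⟩ := (e.map_target hw).2
  have hd : HasFDerivAt e (A : E →L[ℂ] E) (e.symm w) := by
    rw [hA]
    exact ((hf _ hwU).differentiableAt (hU.mem_nhds hwU)).hasFDerivAt
  exact (e.hasFDerivAt_symm hw hd).differentiableAt.differentiableWithinAt

/-- A polynomial in `s` with coefficients depending on `(z₁, z₂)`, specialised at a point. -/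
def spec (S : Polynomial (MvPolynomial (Fin 2) ℂ)) (y : C2) : Polynomial ℂ :=
  S.map (MvPolynomial.eval ![y.1, y.2])

theorem differentiable_eval (P : MvPolynomial (Fin 2) ℂ) :
    Differentiable ℂ fun z : C2 => MvPolynomial.eval ![z.1, z.2] P := by
  induction P using MvPolynomial.induction_on with
  | C a => simp
  | add P Q hP hQ =>
    simp only [map_add]
    exact hP.add hQ
  | mul_X P i hP =>
    fin_cases i <;> simp [hP]

theorem differentiable_spec_eval (S : Polynomial (MvPolynomial (Fin 2) ℂ)) :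
    Differentiable ℂ fun x : C2 × ℂ => (spec S x.1).eval x.2 := by
  simp only [spec, Polynomial.eval_map, Polynomial.eval₂_eq_sum_range]
  exact Differentiable.fun_sum fun k _ =>
    ((differentiable_eval _).comp differentiable_fst).mul (differentiable_snd.pow k)

theorem exists_branches (S : Polynomial (MvPolynomial (Fin 2) ℂ)) (p : C2)
    (hlead : MvPolynomial.eval ![p.1, p.2] S.leadingCoeff ≠ 0)
    (hsep : ∀ s, (spec S p).IsRoot s → (spec S p).derivative.eval s ≠ 0) :
    ∃ r > 0, ∃ σ : Fin S.natDegree → C2 → ℂ, (∀ i, DifferentiableOn ℂ (σ i) (ball p r)) ∧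
      (∀ y ∈ ball p r, ∀ s, (spec S y).IsRoot s ↔ ∃ i, s = σ i y) ∧
      ∀ y ∈ ball p r, Injective fun i => σ i y := by
  classical
  have hdeg : ∀ y : C2, MvPolynomial.eval ![y.1, y.2] S.leadingCoeff ≠ 0 →
      spec S y ≠ 0 ∧ (spec S y).natDegree = S.natDegree := fun y hy =>
    ⟨fun h => hy (by
        have := congrArg (fun P : Polynomial ℂ => P.coeff S.natDegree) h
        simpa [spec] using this),
      Polynomial.natDegree_map_of_leadingCoeff_ne_zero _ hy⟩
  obtain ⟨hp0, hpn⟩ := hdeg p hlead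
  have hnd : (spec S p).roots.Nodup := Multiset.nodup_iff_count_le_one.2 fun s => by
    rw [Polynomial.count_roots]
    by_contra h
    obtain ⟨h1, h2⟩ := (Polynomial.one_lt_rootMultiplicity_iff_isRoot hp0).1 (not_le.1 h)
    exact hsep s h1 h2
  have hcard : (spec S p).roots.toFinset.card = S.natDegree := by
    rw [Multiset.toFinset_card_of_nodup hnd, IsAlgClosed.card_roots_eq_natDegree, hpn]
  set E := (spec S p).roots.toFinset.equivFinOfCardEq hcard
  set s₀ : Fin S.natDegree → ℂ := fun i => ((E.symm i : _) : ℂ)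
  have hs₀ : ∀ i, (spec S p).IsRoot (s₀ i) := fun i =>
    Polynomial.isRoot_of_mem_roots (Multiset.mem_toFinset.1 (E.symm i).2)
  have hinj₀ : Injective s₀ := Subtype.val_injective.comp E.symm.injective
  set Φ : C2 × ℂ → C2 × ℂ := fun x => (x.1, (spec S x.1).eval x.2)
  have hΦ : Differentiable ℂ Φ := differentiable_fst.prodMk (differentiable_spec_eval S)
  have hder : ∀ i, Injective (fderiv ℂ Φ (p, s₀ i)) := by
    intro i
    rw [injective_iff_map_eq_zero]
    intro v hv
    have hg : HasFDerivAt Φ _ (p, s₀ i) :=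
      hasFDerivAt_fst.prodMk (differentiable_spec_eval S (p, s₀ i)).hasFDerivAt
    rw [hg.fderiv, ContinuousLinearMap.prod_apply, Prod.mk_eq_zero] at hv
    obtain ⟨hv1, hv2⟩ := hv
    have hline : HasDerivAt (fun t : ℂ => (spec S p).eval t)
        (fderiv ℂ (fun x : C2 × ℂ => (spec S x.1).eval x.2) (p, s₀ i) (0, 1)) (s₀ i) :=
      (differentiable_spec_eval S (p, s₀ i)).hasFDerivAt.comp_hasDerivAt (s₀ i)
        ((hasDerivAt_const (s₀ i) p).prodMk (hasDerivAt_id (s₀ i)))
    have he := hline.unique ((spec S p).hasDerivAt (s₀ i))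
    have hv' : v = v.2 • ((0 : C2), (1 : ℂ)) := by
      ext <;> simp_all
    rw [hv', map_smul, he, smul_eq_mul, mul_eq_zero] at hv2
    rw [hv', hv2.resolve_right (hsep _ (hs₀ i)), zero_smul]
  choose e hep _ heΦ hed using fun i =>
    exists_chart isOpen_univ hΦ.differentiableOn (mem_univ (p, s₀ i)) (hder i)
  set σ : Fin S.natDegree → C2 → ℂ := fun i y => ((e i).symm (y, 0)).2
  have hp' : ∀ i, (p, (0 : ℂ)) = e i (p, s₀ i) := fun i => by
    rw [heΦ]; simp [Φ, (hs₀ i).eq_zero]
  have htgt : ∀ i, (p, (0 : ℂ)) ∈ (e i).target := fun i => hp' i ▸ (e i).map_source (hep i)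
  have hσp : ∀ i, σ i p = s₀ i := fun i => by simp [σ, hp' i, (e i).left_inv (hep i)]
  have hσd : ∀ i, ∀ y : C2, (y, (0 : ℂ)) ∈ (e i).target → DifferentiableAt ℂ (σ i) y := by
    intro i y hy
    exact differentiableAt_snd.comp y (((hed i _ hy).differentiableAt
      ((e i).open_target.mem_nhds hy)).comp y (differentiableAt_id.prodMk (differentiableAt_const _)))
  have hev : ∀ᶠ y in 𝓝 p, MvPolynomial.eval ![y.1, y.2] S.leadingCoeff ≠ 0 ∧
      (∀ i, (y, (0 : ℂ)) ∈ (e i).target) ∧ ∀ i j, i ≠ j → σ i y ≠ σ j y := by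
    refine ((differentiable_eval _).continuous.continuousAt.eventually_ne hlead).and
      (Eventually.and (eventually_all.2 fun i => ?_)
        (eventually_all.2 fun i => eventually_all.2 fun j => ?_))
    · exact (continuous_id.prodMk continuous_const).continuousAt.preimage_mem_nhds
        ((e i).open_target.mem_nhds (htgt i))
    · by_cases hij : i = j
      · simp [hij]
      · filter_upwards [(hσd i p (htgt i)).continuousAt.sub (hσd j p (htgt j)).continuousAt
          |>.eventually_ne (y := 0) (by rw [Pi.sub_apply, hσp, hσp, sub_ne_zero]; exact hinj₀.ne hij)]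
          with y hy _ using sub_ne_zero.1 hy
  obtain ⟨r, hr, hball⟩ := Metric.eventually_nhds_iff_ball.1 hev
  have hinjy : ∀ y ∈ ball p r, Injective fun i => σ i y := fun y hy i j h => by
    by_contra hij
    exact (hball y hy).2.2 i j hij h
  refine ⟨r, hr, σ, fun i y hy => (hσd i y ((hball y hy).2.1 i)).differentiableWithinAt,
    fun y hy s => ?_, hinjy⟩
  obtain ⟨hne, htg, -⟩ := hball y hy
  have hroot : ∀ i, (spec S y).IsRoot (σ i y) := fun i => by
    have h := (e i).right_inv (htg i)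
    rw [heΦ] at h
    obtain ⟨h1, h2⟩ := Prod.mk.inj h
    rw [h1] at h2
    exact h2
  refine ⟨fun hs => ?_, fun ⟨i, hi⟩ => hi ▸ hroot i⟩
  by_contra hcon
  have hsub : insert s (Finset.univ.image fun i => σ i y) ⊆ (spec S y).roots.toFinset := by
    intro t ht
    rw [Multiset.mem_toFinset, Polynomial.mem_roots (hdeg y hne).1]
    simp only [Finset.mem_insert, Finset.mem_image, Finset.mem_univ, true_and] at ht
    rcases ht with rfl | ⟨i, rfl⟩
    exacts [hs, hroot i]
  have hins : s ∉ Finset.univ.image fun i => σ i y := by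
    simpa [eq_comm] using hcon
  have h1 := (Finset.card_le_card hsub).trans
    ((Multiset.toFinset_card_le _).trans (Polynomial.card_roots' _))
  rw [Finset.card_insert_of_notMem hins, Finset.card_image_of_injective _ (hinjy y hy),
    Finset.card_univ, Fintype.card_fin, (hdeg y hne).2] at h1
  omega

/-- The segment from `p.1` to `y.1` at height `y.2`. -/
private def seg (p : C2) (s : ℝ) (y : C2) : C2 := (p.1 + (s : ℂ) * (y.1 - p.1), y.2)

private theorem seg_dist {p y : C2} {s : ℝ} (hs : s ∈ Icc (0 : ℝ) 1) :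
    dist (seg p s y) p ≤ dist y p := by
  rw [Prod.dist_eq, Prod.dist_eq]
  simp only [seg, dist_eq_norm, add_sub_cancel_left, norm_mul, Complex.norm_real,
    Real.norm_eq_abs, abs_of_nonneg hs.1]
  exact max_le_max_right _ (mul_le_of_le_one_left (norm_nonneg _) hs.2)

private theorem continuous_seg (p : C2) :
    Continuous fun x : C2 × ℝ => seg p x.2 x.1 := by
  unfold seg
  fun_prop

/-- The mean over a segment of a holomorphic function is holomorphic. -/
private theorem differentiableOn_mean {u : C2 → ℂ} {p : C2} {r : ℝ}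
    (hu : DifferentiableOn ℂ u (ball p r)) :
    DifferentiableOn ℂ (fun y => ∫ s in (0 : ℝ)..1, u (seg p s y)) (ball p r) := by
  intro y₀ hy₀
  have : ProperSpace C2 := FiniteDimensional.proper ℂ C2
  obtain ⟨ρ, hρ, hρr⟩ := exists_between (mem_ball.1 hy₀)
  set A : ℝ → C2 →L[ℂ] C2 := fun s =>
    ((s : ℂ) • ContinuousLinearMap.fst ℂ ℂ ℂ).prod (ContinuousLinearMap.snd ℂ ℂ ℂ)
  set F' : C2 → ℝ → C2 →L[ℂ] ℂ := fun y s => (fderiv ℂ u (seg p s y)).comp (A s)
  have hseg : ∀ y ∈ closedBall p ρ, ∀ s ∈ Icc (0 : ℝ) 1, seg p s y ∈ ball p r :=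
    fun y hy s hs => mem_ball.2 ((seg_dist hs).trans (mem_closedBall.1 hy) |>.trans_lt hρr)
  have hA : Continuous A := by
    have h : Continuous fun s : ℝ => (s : ℂ) • ContinuousLinearMap.fst ℂ ℂ ℂ :=
      Complex.continuous_ofReal.smul continuous_const
    exact (ContinuousLinearMap.prodL (𝕜 := ℂ) (S := ℂ)).continuous.comp (h.prodMk continuous_const)
  have hF' : ContinuousOn (uncurry F') (closedBall p ρ ×ˢ Icc (0 : ℝ) 1) :=
    ((continuousOn_fderiv isOpen_ball hu).comp (continuous_seg p).continuousOn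
      fun x hx => hseg x.1 hx.1 x.2 hx.2).clm_comp (hA.comp continuous_snd).continuousOn
  obtain ⟨K, hK⟩ :=
    ((isCompact_closedBall p ρ).prod isCompact_Icc).exists_bound_of_continuousOn hF'
  have hcF : ∀ y ∈ closedBall p ρ, ContinuousOn (fun s => u (seg p s y)) (Icc (0 : ℝ) 1) :=
    fun y hy => hu.continuousOn.comp ((continuous_seg p).comp
      (continuous_const.prodMk continuous_id)).continuousOn (hseg y hy)
  have hIoc : Ι (0 : ℝ) 1 ⊆ Icc 0 1 := by rw [uIoc_of_le zero_le_one]; exact Ioc_subset_Icc_self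
  have hm : ∀ {G : Type} [NormedAddCommGroup G] [SecondCountableTopology G] {h : ℝ → G},
      ContinuousOn h (Icc (0 : ℝ) 1) →
      MeasureTheory.AEStronglyMeasurable h (MeasureTheory.volume.restrict (Ι (0 : ℝ) 1)) :=
    fun h => (h.mono hIoc).aestronglyMeasurable measurableSet_uIoc
  have hy₀ρ : y₀ ∈ closedBall p ρ := mem_closedBall.2 hρ.le
  refine (intervalIntegral.hasFDerivAt_integral_of_dominated_of_fderiv_le
    (F := fun y s => u (seg p s y)) (F' := F') (bound := fun _ => K)
    (isOpen_ball.mem_nhds (mem_ball.2 hρ)) ?_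
    ((hcF y₀ hy₀ρ).intervalIntegrable_of_Icc zero_le_one) ?_ ?_ intervalIntegrable_const
    ?_).differentiableAt.differentiableWithinAt
  · filter_upwards [isOpen_ball.mem_nhds (mem_ball.2 hρ)] with y hy
    exact hm (hcF y (ball_subset_closedBall hy))
  · exact (hF'.comp (continuous_const.prodMk continuous_id).continuousOn
      fun s hs => ⟨hy₀ρ, hs⟩).mono hIoc |>.aestronglyMeasurable measurableSet_uIoc
  · exact Eventually.of_forall fun s hs y hy => hK (y, s) ⟨ball_subset_closedBall hy, hIoc hs⟩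
  · refine Eventually.of_forall fun s hs y hy => ?_
    have hsy := hseg y (ball_subset_closedBall hy) s (hIoc hs)
    refine ((hu _ hsy).differentiableAt (isOpen_ball.mem_nhds hsy)).hasFDerivAt.comp y ?_
    exact (((hasFDerivAt_fst.sub_const p.1).const_mul (s : ℂ)).const_add p.1).prodMk hasFDerivAt_snd

/-- The flow of the direction field `(1, σ)`. -/
theorem exists_flow {σ : C2 → ℂ} {p : C2} {r : ℝ} (hr : 0 < r)
    (hσ : DifferentiableOn ℂ σ (ball p r)) :
    ∃ r' > 0, ∃ g : C2 → ℂ, DifferentiableOn ℂ g (ball p r') ∧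
      (∀ b ∈ ball p.2 r', g (p.1, b) = b) ∧
      ∀ y ∈ ball p r', (y.1, g y) ∈ ball p r ∧
        HasDerivAt (fun t => g (t, y.2)) (σ (y.1, g y)) y.1 := by
  have : ProperSpace C2 := FiniteDimensional.proper ℂ C2
  set D := closedBall p (r / 2) with hD
  have hDU : D ⊆ ball p r := closedBall_subset_ball (by linarith)
  obtain ⟨M, hM⟩ := (isCompact_closedBall p (r / 2)).exists_bound_of_continuousOn
    (hσ.continuousOn.mono hDU)
  obtain ⟨L, hL⟩ := (isCompact_closedBall p (r / 2)).exists_bound_of_continuousOn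
    ((continuousOn_fderiv isOpen_ball hσ).mono hDU)
  have hpD : p ∈ D := mem_closedBall_self (by positivity)
  have hM0 : 0 ≤ M := (norm_nonneg _).trans (hM p hpD)
  have hL0 : 0 ≤ L := (norm_nonneg _).trans (hL p hpD)
  have hlip : ∀ x ∈ D, ∀ y ∈ D, ‖σ y - σ x‖ ≤ L * ‖y - x‖ := fun x hx y hy =>
    (convex_closedBall p (r / 2)).norm_image_sub_le_of_norm_fderiv_le (𝕜 := ℂ)
      (fun z hz => (hσ z (hDU hz)).differentiableAt (isOpen_ball.mem_nhds (hDU hz))) hL hx hy
  obtain ⟨r', hr', hr'1, hr'2⟩ : ∃ r' > 0, r' * (1 + M) ≤ r / 2 ∧ r' * L ≤ 1 / 2 := by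
    refine ⟨min (r / (2 * (1 + M))) (1 / (2 * (1 + L))), by positivity, ?_, ?_⟩
    · calc _ ≤ r / (2 * (1 + M)) * (1 + M) := by gcongr; exact min_le_left _ _
        _ = r / 2 := by field_simp
    · calc _ ≤ 1 / (2 * (1 + L)) * (1 + L) := by gcongr
                                                 · exact min_le_right _ _
                                                 · linarith
        _ = 1 / 2 := by field_simp
  set B := ball p r'
  set T : (C2 → ℂ) → C2 → ℂ := fun g y =>
    y.2 + (y.1 - p.1) * ∫ s in (0 : ℝ)..1, σ ((seg p s y).1, g (seg p s y))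
  have hB1 : ∀ {y : C2}, y ∈ B → ‖y.1 - p.1‖ < r' ∧ ‖y.2 - p.2‖ < r' := fun {y} hy => by
    rw [mem_ball, Prod.dist_eq, max_lt_iff, dist_eq_norm, dist_eq_norm] at hy
    exact hy
  have hsegB : ∀ {y}, y ∈ B → ∀ s ∈ Icc (0 : ℝ) 1, seg p s y ∈ B := fun hy s hs =>
    mem_ball.2 ((seg_dist hs).trans_lt (mem_ball.1 hy))
  have hIcc : Ι (0 : ℝ) 1 ⊆ Icc 0 1 := by rw [uIoc_of_le zero_le_one]; exact Ioc_subset_Icc_self
  have hT : ∀ g, DifferentiableOn ℂ g B → (∀ y ∈ B, (y.1, g y) ∈ D) →
      DifferentiableOn ℂ (T g) B ∧ ∀ y ∈ B, (y.1, T g y) ∈ D ∧ ‖T g y - y.2‖ ≤ r' * M := by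
    intro g hg hgD
    refine ⟨differentiableOn_snd.add ((differentiableOn_fst.sub_const _).mul
      (differentiableOn_mean (hσ.comp (differentiableOn_fst.prodMk hg)
        fun y hy => hDU (hgD y hy)))), fun y hy => ?_⟩
    obtain ⟨h1, h2⟩ := hB1 hy
    have hI : ‖∫ s in (0 : ℝ)..1, σ ((seg p s y).1, g (seg p s y))‖ ≤ M := by
      have := intervalIntegral.norm_integral_le_of_norm_le_const (a := (0 : ℝ)) (b := 1) (C := M)
        (f := fun s => σ ((seg p s y).1, g (seg p s y)))
        fun s hs => hM _ (hgD _ (hsegB hy s (hIcc hs)))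
      simpa using this
    have hb : ‖T g y - y.2‖ ≤ r' * M := by
      simp only [T, add_sub_cancel_left, norm_mul]
      exact mul_le_mul h1.le hI (norm_nonneg _) hr'.le
    refine ⟨?_, hb⟩
    rw [hD, mem_closedBall, Prod.dist_eq, dist_eq_norm, dist_eq_norm]
    have : r' ≤ r' * (1 + M) := by nlinarith
    exact max_le (by linarith) (by linarith [norm_sub_le_norm_sub_add_norm_sub (T g y) y.2 p.2])
  have hcont : ∀ g, ContinuousOn g B → (∀ y ∈ B, (y.1, g y) ∈ D) → ∀ y ∈ B,
      ContinuousOn (fun s => σ ((seg p s y).1, g (seg p s y))) (Icc (0 : ℝ) 1) :=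
    fun g hg hgD y hy => (hσ.continuousOn.comp (continuousOn_fst.prodMk hg)
      fun z hz => hDU (hgD z hz)).comp ((continuous_seg p).comp
      (continuous_const.prodMk continuous_id)).continuousOn fun s hs => hsegB hy s hs
  have hcon : ∀ g g', ContinuousOn g B → ContinuousOn g' B → (∀ y ∈ B, (y.1, g y) ∈ D) →
      (∀ y ∈ B, (y.1, g' y) ∈ D) → ∀ C, (∀ y ∈ B, ‖g y - g' y‖ ≤ C) →
      ∀ y ∈ B, ‖T g y - T g' y‖ ≤ C / 2 := by
    intro g g' hg hg' hgD hg'D C hC y hy
    have hC0 : 0 ≤ C := (norm_nonneg _).trans (hC y hy)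
    simp only [T, add_sub_add_left_eq_sub, ← mul_sub, norm_mul,
      ← intervalIntegral.integral_sub ((hcont g hg hgD y hy).intervalIntegrable_of_Icc zero_le_one)
        ((hcont g' hg' hg'D y hy).intervalIntegrable_of_Icc zero_le_one)]
    refine (mul_le_mul (hB1 hy).1.le (intervalIntegral.norm_integral_le_of_norm_le_const
      (C := L * C) fun s hs => ?_) (norm_nonneg _) hr'.le).trans ?_
    · have hz := hsegB hy s (hIcc hs)
      refine (hlip _ (hg'D _ hz) _ (hgD _ hz)).trans ?_
      gcongr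
      simpa [Prod.norm_def] using hC _ hz
    · norm_num
      nlinarith [mul_le_mul_of_nonneg_right hr'2 hC0]
  set g : ℕ → C2 → ℂ := fun n => T^[n] Prod.snd
  have hgs : ∀ n, g (n + 1) = T (g n) := fun n => iterate_succ_apply' T n Prod.snd
  have hgn : ∀ n, DifferentiableOn ℂ (g n) B ∧ ∀ y ∈ B, (y.1, g n y) ∈ D := by
    intro n
    induction n with
    | zero =>
      refine ⟨differentiableOn_snd, fun y hy => closedBall_subset_closedBall ?_
        (ball_subset_closedBall hy)⟩
      nlinarith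
    | succ n ih =>
      rw [hgs]
      exact ⟨(hT _ ih.1 ih.2).1, fun y hy => ((hT _ ih.1 ih.2).2 y hy).1⟩
  have hstep : ∀ n, ∀ y ∈ B, ‖g n y - g (n + 1) y‖ ≤ r' * M * (1 / 2) ^ n := by
    intro n
    induction n with
    | zero =>
      intro y hy
      rw [pow_zero, mul_one, norm_sub_rev, hgs]
      exact ((hT _ (hgn 0).1 (hgn 0).2).2 y hy).2
    | succ n ih =>
      intro y hy
      rw [hgs, hgs (n + 1), pow_succ, ← mul_assoc, mul_one_div]
      exact hcon _ _ (hgn n).1.continuousOn (hgn (n + 1)).1.continuousOn (hgn n).2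
        (hgn (n + 1)).2 _ ih y hy
  have hdist : ∀ y ∈ B, ∀ n, dist (g n y) (g (n + 1) y) ≤ r' * M * (1 / 2) ^ n :=
    fun y hy n => (dist_eq_norm _ _).trans_le (hstep n y hy)
  choose! G hG using fun y (hy : y ∈ B) => cauchySeq_tendsto_of_complete
    (cauchySeq_of_le_geometric (1 / 2) (r' * M) (by norm_num) (hdist y hy))
  have hrate : ∀ n, ∀ y ∈ B, dist (g n y) (G y) ≤ r' * M * (1 / 2) ^ n / (1 - 1 / 2) :=
    fun n y hy => dist_le_of_le_geometric_of_tendsto (1 / 2) (r' * M) (by norm_num)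
      (hdist y hy) (hG y hy) n
  have hlim : Tendsto (fun n : ℕ => r' * M * (1 / 2 : ℝ) ^ n / (1 - 1 / 2)) atTop (𝓝 0) := by
    simpa using ((tendsto_pow_atTop_nhds_zero_of_lt_one (by norm_num : (0 : ℝ) ≤ 1 / 2)
      (by norm_num)).const_mul (r' * M)).div_const (1 - 1 / 2)
  have hunif : TendstoUniformlyOn g G atTop B := Metric.tendstoUniformlyOn_iff.2 fun ε hε => by
    filter_upwards [hlim.eventually (eventually_lt_nhds hε)] with n hn y hy
    rw [dist_comm]
    exact (hrate n y hy).trans_lt hn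
  have hGd : DifferentiableOn ℂ G B :=
    differentiableOn_of_tendsto isOpen_ball hunif.tendstoLocallyUniformlyOn fun z hz => by
      obtain ⟨ρ, hρ, hρB⟩ := Metric.isOpen_iff.1 isOpen_ball z hz
      exact ⟨ρ, hρ, Eventually.of_forall fun n => (hgn n).1.mono hρB⟩
  have hGD : ∀ y ∈ B, (y.1, G y) ∈ D := fun y hy => isClosed_closedBall.mem_of_tendsto
    (tendsto_const_nhds.prodMk_nhds (hG y hy)) (Eventually.of_forall fun n => (hgn n).2 y hy)
  have hfix : ∀ y ∈ B, T G y = G y := by
    intro y hy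
    refine tendsto_nhds_unique ?_ ((hG y hy).comp (tendsto_add_atTop_nat 1))
    rw [tendsto_iff_dist_tendsto_zero]
    refine squeeze_zero (g := fun n => r' * M * (1 / 2 : ℝ) ^ n / (1 - 1 / 2) / 2)
      (fun _ => dist_nonneg) (fun n => ?_) (by simpa using hlim.div_const 2)
    rw [comp_apply, hgs, dist_eq_norm]
    exact hcon _ _ (hgn n).1.continuousOn hGd.continuousOn (hgn n).2 hGD _
      (fun z hz => (dist_eq_norm _ _).symm.trans_le (hrate n z hz)) y hy
  refine ⟨r', hr', G, hGd, fun b hb => ?_, fun y hy => ⟨hDU (hGD y hy), ?_⟩⟩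
  · rw [← hfix (p.1, b) (by simpa [B, Prod.dist_eq, hr'] using hb)]
    simp [T]
  · set b := y.2
    have hmem : ∀ t ∈ ball p.1 r', (t, b) ∈ B := fun t ht => by
      rw [mem_ball, Prod.dist_eq]
      exact max_lt (mem_ball.1 ht) (le_max_right _ _ |>.trans_lt (mem_ball.1 hy))
    obtain ⟨F, hF⟩ := DifferentiableOn.isExactOn_ball (f := fun t => σ (t, G (t, b)))
      (hσ.comp (differentiableOn_id.prodMk (hGd.comp
        (differentiableOn_id.prodMk (differentiableOn_const b)) hmem))
        fun t ht => hDU (hGD (t, b) (hmem t ht)))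
    have hFG : ∀ t ∈ ball p.1 r', G (t, b) = b + (F t - F p.1) := by
      intro t ht
      rw [← hfix _ (hmem t ht)]
      simp only [T]
      rw [← intervalIntegral.integral_const_mul,
        intervalIntegral.integral_eq_sub_of_hasDerivAt
          (f := fun s : ℝ => F (p.1 + s * (t - p.1))) (fun s hs => ?_)
          (((hcont G hGd.continuousOn hGD _ (hmem t ht)).intervalIntegrable_of_Icc
            zero_le_one).const_mul _)]
      · simp
      · rw [uIcc_of_le zero_le_one] at hs
        have hin : p.1 + (s : ℂ) * (t - p.1) ∈ ball p.1 r' := by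
          have h := hsegB (hmem t ht) s hs
          exact mem_ball.2 ((le_max_left _ _).trans_lt (mem_ball.1 h))
        exact ((hF _ hin).comp s
          (((hasDerivAt_id s).ofReal_comp.mul_const (t - p.1)).const_add p.1)).congr_deriv
            (by simp [seg, mul_comm])
    have hy1 : y.1 ∈ ball p.1 r' := mem_ball.2 ((le_max_left _ _).trans_lt (mem_ball.1 hy))
    refine (((hF _ hy1).sub_const (F p.1)).const_add b).congr_of_eventuallyEq ?_
    filter_upwards [isOpen_ball.mem_nhds hy1] with t ht using hFG t ht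

end

end Vale.Agent.P274.Surface
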