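import Vale.Agent.P274.Surface.Defs
import Mathlib.Analysis.Calculus.ParametricIntervalIntegral
import Mathlib.Analysis.Complex.CauchyIntegral
import Mathlib.Analysis.Complex.RemovableSingularity

/-!
Cauchy integrals on Hartogs figures.
-/

open Filter Metric Set Function Topology Complex MeasureTheory
open scoped Real

namespace Vale.Agent.P274.Surface

noncomputable section

/-- A circle integral of a holomorphic function of a parameter is holomorphic. -/
theorem differentiableOn_circleIntegral {G : C2 × ℂ → C2} {O : Set (C2 × ℂ)} (hO : IsOpen O)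
    (hG : DifferentiableOn ℂ G O) {D : Set C2} (hD : IsOpen D)
    (hsub : D ×ˢ sphere (0 : ℂ) 1 ⊆ O) :
    DifferentiableOn ℂ (fun x => ∮ τ in C(0, 1), G (x, τ)) D := by
  intro x₀ hx₀
  obtain ⟨e, he, heD⟩ := Metric.nhds_basis_closedBall.mem_iff.1 (hD.mem_nhds hx₀)
  set K := closedBall x₀ e ×ˢ sphere (0 : ℂ) 1 with hK
  have hKO : K ⊆ O := (prod_mono heD Subset.rfl).trans hsub
  have hKc : IsCompact K := (isCompact_closedBall _ _).prod (isCompact_sphere _ _)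
  obtain ⟨C, hC⟩ := hKc.exists_bound_of_continuousOn ((continuousOn_fderiv hO hG).mono hKO)
  have hmem : ∀ x ∈ closedBall x₀ e, ∀ θ : ℝ, ((x, circleMap 0 1 θ) : C2 × ℂ) ∈ K :=
    fun x hx θ => ⟨hx, circleMap_mem_sphere _ zero_le_one _⟩
  have hcm : ∀ θ : ℝ, circleMap 0 1 θ * I = deriv (circleMap 0 1) θ := fun θ =>
    (deriv_circleMap 0 1 θ).symm
  set F : C2 → ℝ → C2 := fun x θ => deriv (circleMap 0 1) θ • G (x, circleMap 0 1 θ) with hF
  set F' : C2 → ℝ → C2 →L[ℂ] C2 := fun x θ => deriv (circleMap 0 1) θ •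
    ((fderiv ℂ G (x, circleMap 0 1 θ)).comp (ContinuousLinearMap.inl ℂ C2 ℂ)) with hF'
  have hcont : ∀ x ∈ closedBall x₀ e, Continuous (F x) := by
    intro x hx
    simp only [hF, ← hcm]
    exact ((continuous_circleMap 0 1).mul continuous_const).smul
      (hG.continuousOn.comp_continuous (continuous_const.prodMk (continuous_circleMap 0 1))
        fun θ => hKO (hmem x hx θ))
  have hcont' : Continuous (F' x₀) := by
    simp only [hF', ← hcm]
    refine ((continuous_circleMap 0 1).mul continuous_const).smul ?_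
    exact ((continuousOn_fderiv hO hG).comp_continuous
      (continuous_const.prodMk (continuous_circleMap 0 1))
        fun θ => hKO (hmem x₀ (mem_closedBall_self he.le) θ)).clm_comp continuous_const
  have h := intervalIntegral.hasFDerivAt_integral_of_dominated_of_fderiv_le (𝕜 := ℂ)
    (F := F) (F' := F') (x₀ := x₀) (s := closedBall x₀ e) (a := (0 : ℝ)) (b := 2 * π)
    (μ := volume) (bound := fun _ => C * ‖ContinuousLinearMap.inl ℂ C2 ℂ‖)
    (closedBall_mem_nhds x₀ he)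
    (eventually_of_mem (closedBall_mem_nhds x₀ he) fun x hx =>
      (hcont x hx).aestronglyMeasurable)
    ((hcont x₀ (mem_closedBall_self he.le)).intervalIntegrable _ _)
    hcont'.aestronglyMeasurable ?_ _root_.intervalIntegrable_const ?_
  · exact (h.differentiableAt).differentiableWithinAt
  · refine Eventually.of_forall fun θ _ x hx => ?_
    simp only [hF']
    rw [norm_smul, deriv_circleMap, norm_mul, norm_circleMap_zero, norm_I, abs_one, one_mul,
      one_mul]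
    exact (ContinuousLinearMap.opNorm_comp_le _ _).trans
      (mul_le_mul_of_nonneg_right (hC _ (hmem x hx θ)) (norm_nonneg _))
  · refine Eventually.of_forall fun θ _ x hx => ?_
    have hd := (hG.differentiableAt (hO.mem_nhds (hKO (hmem x hx θ)))).hasFDerivAt
    exact (hd.comp x ((hasFDerivAt_id x).prodMk (hasFDerivAt_const _ x))).const_smul
      (deriv (circleMap 0 1) θ)

/-- The Cauchy transform of `φ` in the second variable over the unit circle. -/
def cauchy (φ : C2 → C2) (x : C2) : C2 :=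
  (2 * π * I : ℂ)⁻¹ • ∮ τ in C(0, 1), (τ - x.2)⁻¹ • φ (x.1, τ)

theorem differentiableOn_cauchy {φ : C2 → C2} {V : Set C2} (hV : IsOpen V)
    (hφ : DifferentiableOn ℂ φ V) {S : Set ℂ} (hS : IsOpen S)
    (hsub : S ×ˢ sphere (0 : ℂ) 1 ⊆ V) :
    DifferentiableOn ℂ (cauchy φ) (S ×ˢ ball 0 1) := by
  set O : Set (C2 × ℂ) := {y | (y.1.1, y.2) ∈ V ∧ y.2 ≠ y.1.2} with hO
  have hOo : IsOpen O :=
    (hV.preimage (by fun_prop : Continuous fun y : C2 × ℂ => (y.1.1, y.2))).inter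
      (isOpen_ne_fun continuous_snd (by fun_prop))
  have hG : DifferentiableOn ℂ (fun y : C2 × ℂ => (y.2 - y.1.2)⁻¹ • φ (y.1.1, y.2)) O := by
    have h1 : DifferentiableOn ℂ (fun y : C2 × ℂ => y.2 - y.1.2) O := by fun_prop
    have h2 : DifferentiableOn ℂ (fun y : C2 × ℂ => φ (y.1.1, y.2)) O :=
      hφ.comp (f := fun y : C2 × ℂ => (y.1.1, y.2)) (by fun_prop) fun y hy => hy.1
    exact (h1.fun_inv fun y hy => sub_ne_zero.2 hy.2).smul h2
  refine (differentiableOn_circleIntegral hOo hG (hS.prod isOpen_ball) ?_).const_smul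
    (2 * π * I : ℂ)⁻¹
  rintro ⟨x, τ⟩ ⟨hx, hτ⟩
  refine ⟨hsub ⟨hx.1, hτ⟩, fun h => ?_⟩
  simp only at h
  have h1 := mem_sphere_zero_iff_norm.1 hτ
  have h2 := mem_ball_zero_iff.1 hx.2
  rw [h] at h1
  linarith

theorem norm_cauchy_le {φ : C2 → C2} {x : C2} {M a : ℝ} (ha : a < 1) (hx : ‖x.2‖ ≤ a)
    (hM : ∀ τ ∈ sphere (0 : ℂ) 1, ‖φ (x.1, τ)‖ ≤ M) : ‖cauchy φ x‖ ≤ M / (1 - a) := by
  refine (circleIntegral.norm_two_pi_i_inv_smul_integral_le_of_norm_le_const zero_le_one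
    (C := M / (1 - a)) fun τ hτ => ?_).trans (one_mul _).le
  have h1 : 1 - a ≤ ‖τ - x.2‖ := by
    have := norm_sub_norm_le τ x.2
    rw [mem_sphere_zero_iff_norm.1 hτ] at this
    linarith
  rw [norm_smul, norm_inv, inv_mul_eq_div]
  have hM0 : 0 ≤ M := (norm_nonneg _).trans (hM τ hτ)
  exact div_le_div₀ hM0 (hM τ hτ) (by linarith) h1

theorem cauchy_eq {φ : C2 → C2} {x : C2} (hx : ‖x.2‖ < 1) {u : ℂ → C2}
    (hu : DifferentiableOn ℂ u (closedBall 0 1))
    (hs : ∀ τ ∈ sphere (0 : ℂ) 1, u τ = φ (x.1, τ)) : cauchy φ x = u x.2 := by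
  rw [cauchy, circleIntegral.integral_congr zero_le_one
    (fun τ hτ => by simp only [← hs τ hτ] : EqOn _ (fun τ => (τ - x.2)⁻¹ • u τ) _)]
  exact two_pi_I_inv_smul_circleIntegral_sub_inv_smul_of_differentiable_on_off_countable
    countable_empty (mem_ball_zero_iff.2 hx) hu.continuousOn fun t ht =>
      (hu t (ball_subset_closedBall ht.1)).differentiableAt
        (mem_nhds_iff.2 ⟨ball 0 1, ball_subset_closedBall, isOpen_ball, ht.1⟩)

/-- All automorphisms continuing across a boundary point by Cauchy integrals is impossible. -/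
theorem Sys.no_hartogs (Ω : Sys) {q : C2} (hq : q ∈ frontier Ω.U) {Ψ Ψi : C2 → C2} {W : Set C2}
    (hW : IsOpen W) (hΨ : DifferentiableOn ℂ Ψ W) {S : Set ℂ} (hS : IsOpen S)
    (hcirc : ∀ s ∈ S, ∀ τ ∈ sphere (0 : ℂ) 1, (s, τ) ∈ W ∧ Ψ (s, τ) ∈ Ω.U) {a : ℝ} (ha : a < 1)
    {N : Set C2} (hN : IsOpen N) (hqN : q ∈ N) (hΨi : DifferentiableOn ℂ Ψi N)
    (hmaps : MapsTo Ψi N (S ×ˢ ball 0 a)) {U' : Set C2} (hU' : IsOpen U')
    (hU'sub : U' ⊆ Ω.U ∩ N) (hqU' : q ∈ closure U') (hclosed : closure U' ∩ (Ω.U ∩ N) ⊆ U')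
    (hagree : ∀ g, EqOn (fun y => cauchy (fun x => Ω.act g (Ψ x)) (Ψi y)) (Ω.act g) U') :
    False := by
  obtain ⟨M, hM0, hM⟩ := Ω.exists_bound
  refine Ω.no_extension hq hN hqN hU' hU'sub hqU' hclosed (M := M / (1 - a)) fun g =>
    ⟨fun y => cauchy (fun x => Ω.act g (Ψ x)) (Ψi y), ?_, hagree g, fun y hy => ?_⟩
  · have hV : IsOpen (W ∩ Ψ ⁻¹' Ω.U) := hΨ.continuousOn.isOpen_inter_preimage hW Ω.isOpen_U
    refine (differentiableOn_cauchy hV ((Ω.diff g).comp (hΨ.mono inter_subset_left)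
      fun x hx => hx.2) hS ?_).comp hΨi (hmaps.mono_right (prod_mono Subset.rfl
        (ball_subset_ball ha.le)))
    rintro ⟨s, τ⟩ ⟨hs, hτ⟩
    exact hcirc s hs τ hτ
  · obtain ⟨h1, h2⟩ := hmaps hy
    exact norm_cauchy_le ha (mem_ball_zero_iff.1 h2).le fun τ hτ =>
      hM _ (Ω.maps g (hcirc _ h1 τ hτ).2)

/-- The Hartogs extension from one full disc. -/
theorem Sys.no_hartogs_disc (Ω : Sys) {q : C2} (hq : q ∈ frontier Ω.U) {Ψ Ψi : C2 → C2}
    {W : Set C2} (hW : IsOpen W) (hΨ : DifferentiableOn ℂ Ψ W) {S : Set ℂ} (hS : IsOpen S)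
    (hcirc : ∀ s ∈ S, ∀ τ ∈ sphere (0 : ℂ) 1, (s, τ) ∈ W ∧ Ψ (s, τ) ∈ Ω.U) {a : ℝ} (ha : a < 1)
    {N : Set C2} (hN : IsOpen N) (hqN : q ∈ N) (hΨi : DifferentiableOn ℂ Ψi N)
    (hmaps : MapsTo Ψi N (S ×ˢ ball 0 a)) (hright : ∀ y ∈ N, Ψ (Ψi y) = y) {y₀ : C2}
    (hdisc : ∀ τ ∈ closedBall (0 : ℂ) 1, ((Ψi y₀).1, τ) ∈ W ∧ Ψ ((Ψi y₀).1, τ) ∈ Ω.U)
    {Γ : Set C2} (hΓ : IsPreconnected Γ) (hy₀ : y₀ ∈ Γ) (hΓsub : Γ ⊆ Ω.U ∩ N)
    (hqΓ : q ∈ closure Γ) : False := by
  have hUN : IsOpen (Ω.U ∩ N) := Ω.isOpen_U.inter hN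
  set U' := connectedComponentIn (Ω.U ∩ N) y₀ with hU'
  have hy₀' : y₀ ∈ Ω.U ∩ N := hΓsub hy₀
  refine Ω.no_hartogs hq hW hΨ hS hcirc ha hN hqN hΨi hmaps hUN.connectedComponentIn
    (connectedComponentIn_subset _ _)
    (closure_mono (hΓ.subset_connectedComponentIn hy₀ hΓsub) hqΓ) ?_ fun g => ?_
  · rintro y ⟨hy, hyUN⟩
    obtain ⟨w, hw1, hw2⟩ := mem_closure_iff_nhds.1 hy _
      (hUN.connectedComponentIn.mem_nhds (mem_connectedComponentIn hyUN))
    rw [connectedComponentIn_eq hw2, ← connectedComponentIn_eq hw1]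
    exact mem_connectedComponentIn hyUN
  · have hV : IsOpen (W ∩ Ψ ⁻¹' Ω.U) := hΨ.continuousOn.isOpen_inter_preimage hW Ω.isOpen_U
    have hd : DifferentiableOn ℂ (fun x => Ω.act g (Ψ x)) (W ∩ Ψ ⁻¹' Ω.U) :=
      (Ω.diff g).comp (hΨ.mono inter_subset_left) fun x hx => hx.2
    refine eqOn_of_eventuallyEq hUN.connectedComponentIn isPreconnected_connectedComponentIn
      ((differentiableOn_cauchy hV hd hS ?_).comp
        (hΨi.mono fun y hy => (connectedComponentIn_subset _ _ hy).2)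
        fun y hy => prod_mono Subset.rfl (ball_subset_ball ha.le)
          (hmaps (connectedComponentIn_subset _ _ hy).2))
      ((Ω.diff g).mono fun y hy => (connectedComponentIn_subset _ _ hy).1)
      (mem_connectedComponentIn hy₀') ?_
    · rintro ⟨s, τ⟩ ⟨hs, hτ⟩
      exact hcirc s hs τ hτ
    · have hopen : ∀ᶠ s in 𝓝 (Ψi y₀).1, ∀ τ ∈ closedBall (0 : ℂ) 1, (s, τ) ∈ W ∩ Ψ ⁻¹' Ω.U :=
        (isCompact_closedBall _ _).eventually_forall_of_forall_eventually fun τ hτ =>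
          hV.mem_nhds (hdisc τ hτ)
      have hcont : ContinuousAt (fun y => (Ψi y).1) y₀ :=
        (hΨi.continuousOn.continuousAt (hN.mem_nhds hy₀'.2)).fst
      filter_upwards [hUN.mem_nhds hy₀', hcont.eventually hopen] with y hy hy'
      obtain ⟨-, ht⟩ := hmaps hy.2
      have hsec : DifferentiableOn ℂ (fun τ => Ω.act g (Ψ ((Ψi y).1, τ))) (closedBall 0 1) :=
        hd.comp (by fun_prop) fun τ hτ => hy' τ hτ
      change cauchy _ (Ψi y) = _
      rw [cauchy_eq ((mem_ball_zero_iff.1 ht).trans ha) hsec fun _ _ => rfl]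
      simp only [Prod.mk.eta, hright y hy.2]

end

end Vale.Agent.P274.Surface
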