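import Vale.Agent.P274.Surface.Defs
import Vale.Agent.P274.Scaling
import Mathlib.Analysis.InnerProductSpace.PiL2
import Mathlib.Analysis.Complex.OpenMapping

/-!
Scaling: a boundary point with model data makes the domain biholomorphic to a ball of a norm.
-/

open Filter Metric Set Function Topology

namespace Vale.Agent.P274.Surface

noncomputable section

variable {Y : Type} [NormedAddCommGroup Y] [NormedSpace ℂ Y] [FiniteDimensional ℂ Y]

/-- Two points of the domain are interior to a compact connected subset of it. -/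
theorem Sys.exists_connected_compact (Ω : Sys) {p z : C2} (hp : p ∈ Ω.U) (hz : z ∈ Ω.U) :
    ∃ C, IsCompact C ∧ IsPreconnected C ∧ C ⊆ Ω.U ∧ C ∈ 𝓝 p ∧ C ∈ 𝓝 z := by
  obtain ⟨rp, hrp, hrpU⟩ := Metric.nhds_basis_closedBall.mem_iff.1 (Ω.isOpen_U.mem_nhds hp)
  obtain ⟨rz, hrz, hrzU⟩ := Metric.nhds_basis_closedBall.mem_iff.1 (Ω.isOpen_U.mem_nhds hz)
  have hconn : IsPathConnected Ω.U :=
    Ω.isOpen_U.isConnected_iff_isPathConnected.1 ⟨⟨p, hp⟩, Ω.preconnected_U⟩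
  obtain ⟨γ, hγ⟩ := hconn.joinedIn p hp z hz
  refine ⟨range γ ∪ closedBall p rp ∪ closedBall z rz, ?_, ?_, ?_, ?_, ?_⟩
  · exact ((isCompact_range γ.continuous).union (isCompact_closedBall _ _)).union
      (isCompact_closedBall _ _)
  · refine IsPreconnected.union z (Or.inl ⟨1, γ.target⟩) (mem_closedBall_self hrz.le) ?_
      (convex_closedBall _ _).isPreconnected
    exact IsPreconnected.union p ⟨0, γ.source⟩ (mem_closedBall_self hrp.le)
      (isPreconnected_range γ.continuous) (convex_closedBall _ _).isPreconnected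
  · rintro w ((⟨t, rfl⟩ | hw) | hw)
    exacts [hγ t, hrpU hw, hrzU hw]
  · exact mem_of_superset (closedBall_mem_nhds _ hrp) fun w hw => Or.inl (Or.inr hw)
  · exact mem_of_superset (closedBall_mem_nhds _ hrz) fun w hw => Or.inr hw

theorem Sys.biholomorphic_of_scaling (Ω : Sys) {q : C2} (hq : q ∈ frontier Ω.U) {N U' : Set C2}
    (hN : IsOpen N) (hqN : q ∈ N) (hU' : IsOpen U') (hU'sub : U' ⊆ Ω.U ∩ N)
    (hclosed : closure U' ∩ (Ω.U ∩ N) ⊆ U') (z : ℕ → C2) (hzU : ∀ k, z k ∈ U')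
    (hz : Tendsto z atTop (𝓝 q))
    (hconst : ∀ (h : C2 → C2) (c : C2) (r : ℝ), 0 < r → DifferentiableOn ℂ h (ball c r) →
      h c = q → (∀ y ∈ ball c r, h y ∈ closure U' ∩ frontier Ω.U) → ∀ᶠ y in 𝓝 c, h y = q)
    (A : ℕ → Y → C2) (B : ℕ → C2 → Y) (hA0 : ∀ k, A k 0 = z k)
    (hA : ∀ r < 1, ∀ᶠ k in atTop, DifferentiableOn ℂ (A k) (ball 0 r) ∧
      MapsTo (A k) (ball 0 r) U')
    (hAB : ∀ r < 1, ∀ᶠ k in atTop, ∀ ω ∈ ball (0 : Y) r, B k (A k ω) = ω)
    (hB : ∀ ε : ℝ, 0 < ε → ∃ N', IsOpen N' ∧ q ∈ N' ∧ ∀ᶠ k in atTop,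
      DifferentiableOn ℂ (B k) (U' ∩ N') ∧ ∀ y ∈ U' ∩ N', ‖B k y‖ ≤ 1 + ε ∧ A k (B k y) = y) :
    Biholo Ω.U (ball (0 : Y) 1) := by
  have : ProperSpace Y := FiniteDimensional.proper ℂ Y
  obtain ⟨R, hR0, hR⟩ := Ω.exists_bound
  obtain ⟨L⟩ := Ω.exists_limit hq (fun k => (hU'sub (hzU k)).1) hz
  set c := L.c
  have hc : c ∈ Ω.U := L.c_mem
  have hzk : ∀ k, Ω.back (L.g k) (Ω.act (L.g k) (z (L.φ k))) = z (L.φ k) := fun k =>
    Ω.back_act _ _ (hU'sub (hzU _)).1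
  -- images of connected compact sets near `c` are in `U'` as soon as they are in `N`
  have hinto : ∀ {T : Set C2} (k : ℕ), IsPreconnected T → T ⊆ Ω.U →
      Ω.act (L.g k) (z (L.φ k)) ∈ T → MapsTo (Ω.back (L.g k)) T N →
      MapsTo (Ω.back (L.g k)) T U' := by
    intro T k hT hTU hck hTN y hy
    have hT' : IsPreconnected (Ω.back (L.g k) '' T) :=
      hT.image _ ((Ω.diff_back _).continuousOn.mono hTU)
    refine hT'.subset_of_closure_inter_subset hU' ⟨z (L.φ k), ⟨_, hck, hzk k⟩, hzU _⟩ ?_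
      (mem_image_of_mem _ hy)
    rintro w ⟨hw, v, hv, rfl⟩
    exact hclosed ⟨hw, Ω.maps_back _ (hTU hv), hTN hv⟩
  -- the limit is constant
  have hlimq : EqOn L.lim (fun _ => q) Ω.U := by
    have hcont : ContinuousAt L.lim c :=
      L.diff_lim.continuousOn.continuousAt (Ω.isOpen_U.mem_nhds hc)
    obtain ⟨r, hr, hrsub⟩ := Metric.nhds_basis_closedBall.mem_iff.1
      (inter_mem (Ω.isOpen_U.mem_nhds hc)
        (hcont.preimage_mem_nhds (hN.mem_nhds (by rw [L.lim_c]; exact hqN))))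
    have hrU : closedBall c r ⊆ Ω.U := fun y hy => (hrsub hy).1
    obtain ⟨η, hη, hηN⟩ := ((isCompact_closedBall c r).image_of_continuousOn
      (L.diff_lim.continuousOn.mono hrU)).exists_thickening_subset_open hN (by
        rintro _ ⟨y, hy, rfl⟩; exact (hrsub hy).2)
    have hev : ∀ᶠ k in atTop, MapsTo (Ω.back (L.g k)) (ball c r) U' := by
      filter_upwards [Metric.tendstoUniformlyOn_iff.1
        ((tendstoLocallyUniformlyOn_iff_tendstoUniformlyOn_of_compact (isCompact_closedBall c r)).1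
          (L.tendsto_lim.mono hrU)) η hη, L.tendsto_c.eventually_mem (ball_mem_nhds _ hr)]
        with k hk hck
      refine hinto k (convex_ball _ _).isPreconnected (ball_subset_closedBall.trans hrU) hck
        fun y hy => hηN ?_
      rw [mem_thickening_iff]
      exact ⟨_, mem_image_of_mem _ (ball_subset_closedBall hy), by
        rw [dist_comm]; exact hk y (ball_subset_closedBall hy)⟩
    refine eqOn_of_eventuallyEq Ω.isOpen_U Ω.preconnected_U L.diff_lim (differentiableOn_const q)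
      hc (hconst L.lim c r hr (L.diff_lim.mono (ball_subset_closedBall.trans hrU)) L.lim_c
        fun y hy => ⟨mem_closure_of_tendsto
          (L.tendsto_lim.tendsto_at (hrU (ball_subset_closedBall hy)))
          (hev.mono fun k hk => hk hy), L.maps_lim y (hrU (ball_subset_closedBall hy))⟩)
  -- hence compact sets go to `q` inside `U'`
  have hpush : ∀ y ∈ Ω.U, ∀ O : Set C2, IsOpen O → q ∈ O → ∃ r > 0, ball y r ⊆ Ω.U ∧
      ∀ᶠ k in atTop, MapsTo (Ω.back (L.g k)) (ball y r) (U' ∩ O) := by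
    intro y hy O hO hqO
    obtain ⟨C, hC, hCconn, hCU, hCc, hCy⟩ := Ω.exists_connected_compact hc hy
    obtain ⟨r, hr, hrC⟩ := Metric.mem_nhds_iff.1 hCy
    obtain ⟨e, he, heO⟩ := Metric.isOpen_iff.1 (hN.inter hO) q ⟨hqN, hqO⟩
    refine ⟨r, hr, hrC.trans hCU, ?_⟩
    filter_upwards [Metric.tendstoUniformlyOn_iff.1
      ((tendstoLocallyUniformlyOn_iff_tendstoUniformlyOn_of_compact hC).1
        (L.tendsto_lim.mono hCU)) e he, L.tendsto_c.eventually_mem hCc] with k hk hck w hw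
    have hmem : ∀ v ∈ C, Ω.back (L.g k) v ∈ N ∩ O := fun v hv => heO (by
      have := hk v hv
      rw [hlimq (hCU hv)] at this
      rwa [mem_ball, dist_comm])
    exact ⟨hinto k hCconn hCU hck (fun v hv => (hmem v hv).1) (hrC hw), (hmem w (hrC hw)).2⟩
  set Fm : ℕ → C2 → Y := fun k y => B (L.φ k) (Ω.back (L.g k) y) with hFm
  have hφ : Tendsto L.φ atTop atTop := L.strictMono.tendsto_atTop
  have hFbound : ∀ y ∈ Ω.U, ∀ ε : ℝ, 0 < ε → ∃ r > 0, ball y r ⊆ Ω.U ∧ ∀ᶠ k in atTop,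
      DifferentiableOn ℂ (Fm k) (ball y r) ∧ ∀ v ∈ ball y r,
        ‖Fm k v‖ ≤ 1 + ε ∧ A (L.φ k) (Fm k v) = Ω.back (L.g k) v := by
    intro y hy ε hε
    obtain ⟨N', hN', hqN', hev⟩ := hB ε hε
    obtain ⟨r, hr, hrU, hmaps⟩ := hpush y hy N' hN' hqN'
    refine ⟨r, hr, hrU, ?_⟩
    filter_upwards [hmaps, hφ.eventually hev] with k hk hk'
    exact ⟨hk'.1.comp ((Ω.diff_back _).mono hrU) hk, fun v hv => hk'.2 _ (hk hv)⟩
  obtain ⟨φ₃, hφ₃, F, hFd, hFlim⟩ := montel Ω.isOpen_U Fm fun y hy => by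
    obtain ⟨r, hr, -, hev⟩ := hFbound y hy 1 one_pos
    exact ⟨r, hr, 1 + 1, hev.mono fun k hk => ⟨hk.1, fun v hv => (hk.2 v hv).1⟩⟩
  have hFm0 : ∀ᶠ k in atTop, Fm k (Ω.act (L.g k) (z (L.φ k))) = 0 := by
    filter_upwards [hφ.eventually (hAB (1 / 2) (by norm_num))] with k hk
    have := hk 0 (mem_ball_self (by norm_num))
    rw [hA0] at this
    simpa only [hFm, hzk k] using this
  have hF0 : F c = 0 := by
    refine tendsto_nhds_unique (hFlim.tendsto_comp (hFd.continuousOn c hc) hc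
      (tendsto_nhdsWithin_iff.2 ⟨L.tendsto_c.comp hφ₃.tendsto_atTop,
        (L.tendsto_c.comp hφ₃.tendsto_atTop).eventually_mem (Ω.isOpen_U.mem_nhds hc)⟩)) ?_
    exact (tendsto_const_nhds (x := (0 : Y))).congr'
      ((hφ₃.tendsto_atTop.eventually hFm0).mono fun k hk => hk.symm)
  have hFle : ∀ y ∈ Ω.U, ‖F y‖ ≤ 1 := fun y hy => le_of_forall_pos_le_add fun ε hε => by
    obtain ⟨r, hr, -, hev⟩ := hFbound y hy ε hε
    exact le_of_tendsto (hFlim.tendsto_at hy).norm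
      ((hφ₃.tendsto_atTop.eventually hev).mono fun k hk => (hk.2 y (mem_ball_self hr)).1)
  have hFmaps : MapsTo F Ω.U (ball 0 1) := by
    intro y hy
    refine mem_ball_zero_iff.2 ((hFle y hy).lt_of_ne fun h => ?_)
    have hmax : IsMaxOn (norm ∘ F) Ω.U y := fun v hv => by
      simp only [comp_apply, mem_ofPred_eq]
      rw [h]
      exact hFle v hv
    have := Complex.norm_eqOn_of_isPreconnected_of_isMaxOn Ω.preconnected_U Ω.isOpen_U
      hFd hy hmax hc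
    simp [hF0, h] at this
  -- the inverse maps
  set Gm : ℕ → Y → C2 := fun k ω => Ω.act (L.g k) (A (L.φ k) ω) with hGm
  have hGev : ∀ r < 1, ∀ᶠ k in atTop, DifferentiableOn ℂ (Gm k) (ball 0 r) ∧
      MapsTo (Gm k) (ball 0 r) Ω.U ∧ MapsTo (A (L.φ k)) (ball 0 r) Ω.U := by
    intro r hr
    filter_upwards [hφ.eventually (hA r hr)] with k hk
    have hAU : MapsTo (A (L.φ k)) (ball 0 r) Ω.U := fun ω hω => (hU'sub (hk.2 hω)).1
    exact ⟨(Ω.diff _).comp hk.1 hAU, (Ω.maps _).comp hAU, hAU⟩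
  have hsub : ∀ ω : Y, ∀ v ∈ ball ω ((1 - ‖ω‖) / 2), v ∈ ball (0 : Y) ((1 + ‖ω‖) / 2) := by
    intro ω v hv
    rw [mem_ball, dist_eq_norm] at hv
    rw [mem_ball_zero_iff]
    linarith [norm_le_norm_add_norm_sub' v ω]
  have hG1 : ∀ ω ∈ ball (0 : Y) 1, 0 < (1 - ‖ω‖) / 2 ∧ (1 + ‖ω‖) / 2 < 1 := fun ω hω => by
    have := mem_ball_zero_iff.1 hω
    exact ⟨by linarith, by linarith⟩
  obtain ⟨φ₄, hφ₄, G, hGd, hGlim⟩ := montel (U := ball (0 : Y) 1) isOpen_ball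
    (fun k => Gm (φ₃ k)) fun ω hω => by
      refine ⟨_, (hG1 ω hω).1, R, ?_⟩
      filter_upwards [hφ₃.tendsto_atTop.eventually (hGev _ (hG1 ω hω).2)] with k hk
      exact ⟨hk.1.mono (hsub ω), fun v hv => hR _ (hk.2.1 (hsub ω v hv))⟩
  set p := φ₃ ∘ φ₄ with hp
  have hpt : Tendsto p atTop atTop := (hφ₃.comp hφ₄).tendsto_atTop
  have hFq : TendstoLocallyUniformlyOn (fun k => Fm (p k)) F atTop Ω.U := fun V hV y hy =>
    let ⟨t, ht, h⟩ := hFlim V hV y hy
    ⟨t, ht, hφ₄.tendsto_atTop.eventually h⟩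
  have hGU : ∀ ω ∈ ball (0 : Y) 1, ∀ᶠ k in atTop, Gm (p k) ω ∈ Ω.U := fun ω hω =>
    (hpt.eventually (hGev _ (hG1 ω hω).2)).mono fun k hk =>
      hk.2.1 (hsub ω ω (mem_ball_self (hG1 ω hω).1))
  have hG0 : G 0 = c := by
    refine tendsto_nhds_unique (hGlim.tendsto_at (mem_ball_self one_pos))
      ((L.tendsto_c.comp hpt).congr fun k => ?_)
    simp only [hGm, hp, comp_apply, hA0]
  obtain ⟨η₀, hη₀, hη₀U⟩ := Ω.compact_K.exists_cthickening_subset_open Ω.isOpen_U Ω.K_subset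
  have hGmaps : MapsTo G (ball 0 1) Ω.U := by
    set Z := ball (0 : Y) 1 ∩ G ⁻¹' Ω.U
    have hZo : IsOpen Z := hGd.continuousOn.isOpen_inter_preimage isOpen_ball Ω.isOpen_U
    have : NormedSpace ℝ Y := NormedSpace.restrictScalars ℝ ℂ Y
    have hball : ball (0 : Y) 1 ⊆ Z := by
      refine (convex_ball _ _).isPreconnected.subset_of_closure_inter_subset hZo
        ⟨0, mem_ball_self one_pos, mem_ball_self one_pos, by simpa [hG0] using hc⟩ ?_
      rintro ω ⟨hωZ, hω⟩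
      refine ⟨hω, ?_⟩
      obtain ⟨hr0, hr1⟩ := hG1 ω hω
      set r := (1 - ‖ω‖) / 2
      set η := min r (η₀ * r / (2 * R))
      have hη : 0 < η := lt_min hr0 (by positivity)
      obtain ⟨ω', ⟨hω'1, hω'U⟩, hdist⟩ := Metric.mem_closure_iff.1 hωZ η hη
      refine Ω.mem_U_of_tendsto (y := fun k => Gm (p k) ω) (e := fun k => Gm (p k) ω')
        (hGU ω hω) (hGlim.tendsto_at hω'1) hω'U (hGlim.tendsto_at hω) Ω.compact_K.cthickening
        hη₀U ?_
      filter_upwards [hpt.eventually (hGev _ hr1)] with k hk g hg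
      have hd : DifferentiableOn ℂ (fun v => Ω.act g (Gm (p k) v)) (ball ω r) :=
        (Ω.diff g).comp (hk.1.mono (hsub ω)) fun v hv => hk.2.1 (hsub ω v hv)
      have hbd : ∀ v ∈ ball ω r, ‖Ω.act g (Gm (p k) v)‖ ≤ R := fun v hv =>
        hR _ (Ω.maps g (hk.2.1 (hsub ω v hv)))
      have hsch := Complex.dist_le_div_mul_dist_of_mapsTo_ball (R₂ := 2 * R) hd (fun v hv => by
        rw [mem_closedBall, dist_eq_norm]
        refine (norm_sub_le _ _).trans ?_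
        linarith [hbd v hv, hbd ω (mem_ball_self hr0)])
        (show ω' ∈ ball ω r from (dist_comm ω' ω).trans_lt (hdist.trans_le (min_le_left _ _)))
      refine mem_cthickening_of_dist_le _ _ _ _ hg (hsch.trans ?_)
      calc 2 * R / r * dist ω' ω ≤ 2 * R / r * (η₀ * r / (2 * R)) :=
            mul_le_mul_of_nonneg_left
              ((dist_comm ω' ω).le.trans (hdist.le.trans (min_le_right _ _))) (by positivity)
        _ = η₀ := by field_simp
    exact fun ω hω => (hball hω).2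
  refine ⟨F, G, hFd, hFmaps, hGd, hGmaps, fun y hy => ?_, fun ω hω => ?_⟩
  · have hFy := hFmaps hy
    have h1 : Tendsto (fun k => Fm (p k) y) atTop (𝓝 (F y)) := hFq.tendsto_at hy
    have h2 := hGlim.tendsto_comp (hGd.continuousOn _ hFy) hFy
      (tendsto_nhdsWithin_iff.2 ⟨h1, h1.eventually_mem (isOpen_ball.mem_nhds hFy)⟩)
    refine tendsto_nhds_unique h2 ((tendsto_const_nhds (x := y)).congr' ?_)
    obtain ⟨r, hr, -, hev⟩ := hFbound y hy 1 one_pos
    filter_upwards [hpt.eventually hev] with k hk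
    show y = Ω.act (L.g (p k)) (A (L.φ (p k)) (Fm (p k) y))
    rw [(hk.2 y (mem_ball_self hr)).2, Ω.act_back _ _ hy]
  · have hGω := hGmaps hω
    have h1 : Tendsto (fun k => Gm (p k) ω) atTop (𝓝 (G ω)) := hGlim.tendsto_at hω
    have h2 := hFq.tendsto_comp (hFd.continuousOn _ hGω) hGω
      (tendsto_nhdsWithin_iff.2 ⟨h1, h1.eventually_mem (Ω.isOpen_U.mem_nhds hGω)⟩)
    refine tendsto_nhds_unique h2 ((tendsto_const_nhds (x := ω)).congr' ?_)
    have hr := (hG1 ω hω).2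
    filter_upwards [hpt.eventually (hGev _ hr), hpt.eventually (hφ.eventually (hAB _ hr))]
      with k hk hk'
    have hm := hsub ω ω (mem_ball_self (hG1 ω hω).1)
    show ω = B (L.φ (p k)) (Ω.back (L.g (p k)) (Ω.act (L.g (p k)) (A (L.φ (p k)) ω)))
    rw [Ω.back_act _ _ (hk.2.2 hm), hk' ω hm]

/-- Points where `ρ ≥ 0` near a regular zero lie almost in the half plane. -/
theorem eventually_re_ge_of_nonneg {ρ : ℂ → ℝ} {u : ℂ} (hρ : DifferentiableAt ℝ ρ u) (hu : ρ u = 0)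
    (hd : fderiv ℝ ρ u ≠ 0) {ε : ℝ} (hε : 0 < ε) :
    ∀ᶠ v in 𝓝 u, 0 ≤ ρ v → -ε * ‖(v - u) / nrm ρ u‖ ≤ ((v - u) / nrm ρ u).re := by
  have hg : 0 < ‖grad ρ u‖ := norm_pos_iff.2 (grad_ne_zero hd)
  filter_upwards [hρ.hasFDerivAt.isLittleO.bound (mul_pos hε hg)] with v hv hpos
  set ζ := (v - u) / nrm ρ u with hζ
  have hvu : v - u = nrm ρ u * ζ := by rw [hζ, mul_div_cancel₀ _ (nrm_ne_zero hd)]
  have hn : ‖v - u‖ = ‖ζ‖ := by rw [hvu, norm_mul, norm_nrm hd, one_mul]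
  have hD : fderiv ℝ ρ u (v - u) = ‖grad ρ u‖ * ζ.re := by rw [hvu, fderiv_nrm_mul]
  rw [hu, sub_zero, hD, Real.norm_eq_abs, hn] at hv
  have := (abs_le.1 hv).2
  nlinarith

/-- A holomorphic function with values in a wide half plane that vanishes at the centre
vanishes. -/
theorem eq_zero_of_re_ge {c : C2} {s : ℝ} {w : C2 → ℂ}
    (hw : DifferentiableOn ℂ w (ball c s)) (h0 : w c = 0)
    (hre : ∀ y ∈ ball c s, -(1 / 2) * ‖w y‖ ≤ (w y).re) : ∀ y ∈ ball c (s / 2), w y = 0 := by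
  intro y hy
  set σ : ℂ → C2 := fun t => c + t • (y - c) with hσ
  have hσd : Differentiable ℂ σ := (differentiable_id.smul_const (y - c)).const_add c
  have hmaps : MapsTo σ (ball 0 2) (ball c s) := by
    intro t ht
    simp only [hσ, mem_ball, dist_eq_norm, add_sub_cancel_left, norm_smul]
    have h1 : ‖t‖ < 2 := by simpa using ht
    have h2 : ‖y - c‖ < s / 2 := by simpa [dist_eq_norm] using hy
    nlinarith [norm_nonneg t, norm_nonneg (y - c)]
  have han : AnalyticOnNhd ℂ (w ∘ σ) (ball 0 2) :=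
    (hw.comp hσd.differentiableOn hmaps).analyticOnNhd isOpen_ball
  have h1 : (1 : ℂ) ∈ ball (0 : ℂ) 2 := by simp
  have hy1 : (w ∘ σ) 1 = w y := by simp [hσ]
  rcases han.is_constant_or_isOpen (convex_ball _ _).isPreconnected with ⟨v, hv⟩ | hopen
  · rw [← hy1, hv 1 h1, ← hv 0 (mem_ball_self (by norm_num))]
    simp [hσ, h0]
  · exfalso
    have hO := (hopen (ball 0 2) subset_rfl isOpen_ball).mem_nhds
      ⟨0, mem_ball_self (by norm_num), show (w ∘ σ) 0 = 0 by simp [hσ, h0]⟩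
    obtain ⟨e, he, hsub⟩ := Metric.mem_nhds_iff.1 hO
    obtain ⟨t, ht, hte⟩ := hsub (show (((-(e / 2) : ℝ)) : ℂ) ∈ ball (0 : ℂ) e by
      rw [mem_ball_zero_iff, Complex.norm_real, Real.norm_eq_abs, abs_neg, abs_of_pos (half_pos he)]
      linarith)
    have := hre _ (hmaps ht)
    rw [show w (σ t) = _ from hte, Complex.norm_real, Complex.ofReal_re, Real.norm_eq_abs, abs_neg,
      abs_of_pos (half_pos he)] at this
    linarith

/-- A corner gives the bidisc. -/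
theorem Sys.biholomorphic_of_corner (Ω : Sys) (K : CornerPt Ω.U) :
    Biholo Ω.U (ball (0 : C2) 1) := by
  classical
  obtain ⟨q, hqf, ⟨e, hed, hes⟩, hqe, ρ₁, ρ₂, hρ₁, hρ₂, hz₁, hz₂, hd₁, hd₂, hwedge, hfaces⟩ := K
  set b := e q with hb
  set ν₁ := nrm ρ₁ b.1 with hν₁
  set ν₂ := nrm ρ₂ b.2 with hν₂
  have hn₁ : ν₁ ≠ 0 := nrm_ne_zero hd₁
  have hn₂ : ν₂ ≠ 0 := nrm_ne_zero hd₂
  have hbt : b ∈ e.target := e.map_source hqe
  have hρ₁d := hρ₁.differentiable (by norm_num)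
  have hρ₂d := hρ₂.differentiable (by norm_num)
  set W : Set C2 := e.source ∩ e ⁻¹' {w | 0 < ρ₁ w.1 ∧ 0 < ρ₂ w.2} with hW
  have hWo : IsOpen W := e.isOpen_inter_preimage
    ((isOpen_lt continuous_const (hρ₁.continuous.comp continuous_fst)).inter
      (isOpen_lt continuous_const (hρ₂.continuous.comp continuous_snd)))
  have hWU : W ⊆ Ω.U ∩ e.source := fun y hy => ⟨hwedge y hy.1 hy.2.1 hy.2.2, hy.1⟩
  have hnn : ∀ y ∈ e.source, y ∈ closure W → 0 ≤ ρ₁ (e y).1 ∧ 0 ≤ ρ₂ (e y).2 := by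
    intro y hy hcl
    have hc := e.continuousAt hy
    have h1 := hc.continuousWithinAt.mem_closure_image hcl
    have h2 : closure (e '' W) ⊆ {w : C2 | 0 ≤ ρ₁ w.1 ∧ 0 ≤ ρ₂ w.2} := closure_minimal
      (by rintro _ ⟨v, hv, rfl⟩; exact ⟨le_of_lt hv.2.1, le_of_lt hv.2.2⟩)
      ((isClosed_le continuous_const (hρ₁.continuous.comp continuous_fst)).inter
        (isClosed_le continuous_const (hρ₂.continuous.comp continuous_snd)))
    exact h2 h1
  -- scales
  set disp : ℝ → C2 → C2 := fun t ω =>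
    (b.1 + ν₁ * (t : ℂ) * cay ω.1, b.2 + ν₂ * (t : ℂ) * cay ω.2) with hdisp
  have hexist : ∀ k : ℕ, ∃ t : ℝ, (0 < t ∧ t < 1 / ((k : ℝ) + 1)) ∧
      ∀ ω : C2, ‖ω‖ ≤ 1 - 1 / ((k : ℝ) + 2) →
        disp t ω ∈ e.target ∧ e.symm (disp t ω) ∈ W := by
    intro k
    set r : ℝ := 1 - 1 / ((k : ℝ) + 2) with hr
    have hr1 : r < 1 := by
      have : (0 : ℝ) < 1 / ((k : ℝ) + 2) := by positivity
      linarith
    have hlt : ∀ ω ∈ closedBall (0 : ℂ) r, ‖ω‖ < 1 := fun ω hω =>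
      (mem_closedBall_zero_iff.1 hω).trans_lt hr1
    set T := cay '' closedBall (0 : ℂ) r with hT
    have hTc : IsCompact T := (isCompact_closedBall _ _).image_of_continuousOn fun ω hω =>
      ((continuousAt_const.add continuousAt_id).div (continuousAt_const.sub continuousAt_id)
        (one_sub_ne_zero (hlt ω hω))).continuousWithinAt
    have hTpos : ∀ ζ ∈ T, 0 < ζ.re := by
      rintro _ ⟨ω, hω, rfl⟩; exact re_cay_pos (hlt ω hω)
    obtain ⟨O₁, hO₁, O₂, hO₂, hO⟩ := mem_nhds_prod_iff.1 (e.open_target.mem_nhds hbt)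
    obtain ⟨t, ⟨⟨ht0, ht1⟩, htT₁⟩, htT₂⟩ :=
      (((eventually_mem_nhdsWithin (s := Ioi (0 : ℝ)) (a := 0)).and
        (nhdsWithin_le_nhds (Iio_mem_nhds (show (0 : ℝ) < 1 / ((k : ℝ) + 1) by positivity)))).and
          (eventually_pos_of_compact (hρ₁d _) hz₁ hd₁ hTc hTpos hO₁)).and
          (eventually_pos_of_compact (hρ₂d _) hz₂ hd₂ hTc hTpos hO₂) |>.exists
    refine ⟨t, ⟨ht0, ht1⟩, fun ω hω => ?_⟩
    have m₁ : cay ω.1 ∈ T :=
      mem_image_of_mem _ (mem_closedBall_zero_iff.2 ((norm_fst_le ω).trans hω))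
    have m₂ : cay ω.2 ∈ T :=
      mem_image_of_mem _ (mem_closedBall_zero_iff.2 ((norm_snd_le ω).trans hω))
    obtain ⟨p₁, q₁⟩ := htT₁ _ m₁
    obtain ⟨p₂, q₂⟩ := htT₂ _ m₂
    have hmem : disp t ω ∈ e.target := hO ⟨p₁, p₂⟩
    refine ⟨hmem, e.map_target hmem, ?_⟩
    rw [mem_preimage, e.right_inv hmem]
    exact ⟨q₁, q₂⟩
  choose δ hδ hδW using hexist
  have hr0 : ∀ k : ℕ, (0 : ℝ) ≤ 1 - 1 / ((k : ℝ) + 2) := fun k => by
    rw [sub_nonneg, div_le_one (by positivity)]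
    linarith [show (0 : ℝ) ≤ k from k.cast_nonneg]
  set A : ℕ → C2 → C2 := fun k ω => e.symm (disp (δ k) ω) with hA
  set B : ℕ → C2 → C2 := fun k y =>
    (cayi (((e y).1 - b.1) / (ν₁ * (δ k : ℂ))), cayi (((e y).2 - b.2) / (ν₂ * (δ k : ℂ)))) with hB
  have hd1 : ∀ k, ν₁ * (δ k : ℂ) ≠ 0 := fun k =>
    mul_ne_zero hn₁ (Complex.ofReal_ne_zero.2 (hδ k).1.ne')
  have hd2 : ∀ k, ν₂ * (δ k : ℂ) ≠ 0 := fun k =>
    mul_ne_zero hn₂ (Complex.ofReal_ne_zero.2 (hδ k).1.ne')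
  have hrad : ∀ r < 1, ∀ᶠ k : ℕ in atTop, r ≤ 1 - 1 / ((k : ℝ) + 2) := by
    intro r hr
    have h : Tendsto (fun k : ℕ => (k : ℝ) + 2) atTop atTop :=
      tendsto_atTop_add_const_right _ _ tendsto_natCast_atTop_atTop
    have h' : Tendsto (fun k : ℕ => 1 - 1 / ((k : ℝ) + 2)) atTop (𝓝 1) := by
      simpa using (h.inv_tendsto_atTop).const_sub (1 : ℝ)
    exact h'.eventually (Ici_mem_nhds hr)
  refine Ω.biholomorphic_of_scaling hqf e.open_source hqe hWo hWU ?_ (fun k => A k 0)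
    (fun k => (hδW k 0 (by simpa using hr0 k)).2) ?_ ?_ A B (fun _ => rfl) ?_ ?_ ?_
  · rintro y ⟨hy, hyU, hye⟩
    obtain ⟨h1, h2⟩ := hnn y hye hy
    exact ⟨hye, hfaces y hye hyU h1 h2⟩
  · -- the base points tend to `q`
    have hδ0 : Tendsto δ atTop (𝓝 0) := tendsto_of_tendsto_of_tendsto_of_le_of_le
      tendsto_const_nhds tendsto_one_div_add_atTop_nhds_zero_nat (fun k => (hδ k).1.le)
      fun k => (hδ k).2.le
    have hc : Continuous fun t : ℝ => disp t 0 := by simp only [hdisp]; fun_prop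
    have h0 : disp 0 0 = b := by simp [hdisp]
    have h := (e.symm.continuousAt hbt).tendsto.comp
      ((h0 ▸ hc.tendsto 0).comp hδ0)
    rwa [hb, e.left_inv hqe] at h
  · -- a limit into the two faces is constant
    intro h c r hr hh hhc hmem
    have hhct : ContinuousAt h c := hh.continuousOn.continuousAt (ball_mem_nhds c hr)
    have hgood : ∀ᶠ v in 𝓝 q, v ∈ e.source ∧
        (0 ≤ ρ₁ (e v).1 → -(1 / 2) * ‖((e v).1 - b.1) / ν₁‖ ≤ (((e v).1 - b.1) / ν₁).re) ∧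
        (0 ≤ ρ₂ (e v).2 → -(1 / 2) * ‖((e v).2 - b.2) / ν₂‖ ≤ (((e v).2 - b.2) / ν₂).re) := by
      refine (e.open_source.eventually_mem hqe).and (Eventually.and ?_ ?_)
      · exact ((continuous_fst.continuousAt).comp (e.continuousAt hqe)).eventually
          (p := fun u => 0 ≤ ρ₁ u → -(1 / 2) * ‖(u - b.1) / ν₁‖ ≤ ((u - b.1) / ν₁).re)
          (eventually_re_ge_of_nonneg (hρ₁d _) hz₁ hd₁ one_half_pos)
      · exact ((continuous_snd.continuousAt).comp (e.continuousAt hqe)).eventually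
          (p := fun u => 0 ≤ ρ₂ u → -(1 / 2) * ‖(u - b.2) / ν₂‖ ≤ ((u - b.2) / ν₂).re)
          (eventually_re_ge_of_nonneg (hρ₂d _) hz₂ hd₂ one_half_pos)
    obtain ⟨s, hs, hsub⟩ := Metric.mem_nhds_iff.1
      (inter_mem (ball_mem_nhds c hr) (hhct.preimage_mem_nhds (by rw [hhc]; exact hgood)))
    have hcomp : DifferentiableOn ℂ (fun y => e (h y)) (ball c s) :=
      hed.comp (hh.mono fun y hy => (hsub hy).1) fun y hy => (hsub hy).2.1
    have hpos : ∀ y ∈ ball c s, 0 ≤ ρ₁ (e (h y)).1 ∧ 0 ≤ ρ₂ (e (h y)).2 := fun y hy =>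
      hnn _ (hsub hy).2.1 (hmem y (hsub hy).1).1
    have hc₁ : DifferentiableOn ℂ (fun y => ((e (h y)).1 - b.1) / ν₁) (ball c s) :=
      by simpa only [div_eq_mul_inv] using
        (hcomp.fst.sub_const b.1).mul_const ν₁⁻¹
    have hc₂ : DifferentiableOn ℂ (fun y => ((e (h y)).2 - b.2) / ν₂) (ball c s) :=
      by simpa only [div_eq_mul_inv] using
        (hcomp.snd.sub_const b.2).mul_const ν₂⁻¹
    have z₁ := eq_zero_of_re_ge (w := fun y => ((e (h y)).1 - b.1) / ν₁)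
      hc₁ (by simp [hhc, hb])
      fun y hy => (hsub hy).2.2.1 (hpos y hy).1
    have z₂ := eq_zero_of_re_ge (w := fun y => ((e (h y)).2 - b.2) / ν₂)
      hc₂ (by simp [hhc, hb])
      fun y hy => (hsub hy).2.2.2 (hpos y hy).2
    filter_upwards [ball_mem_nhds c (half_pos hs)] with y hy
    have hys : y ∈ ball c s := ball_subset_ball (by linarith) hy
    have e1 : (e (h y)).1 = b.1 := by
      simpa [div_eq_zero_iff, hn₁, sub_eq_zero] using z₁ y hy
    have e2 : (e (h y)).2 = b.2 := by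
      simpa [div_eq_zero_iff, hn₂, sub_eq_zero] using z₂ y hy
    exact e.injOn (hsub hys).2.1 hqe (Prod.ext e1 e2)
  · -- `A`
    intro r hr
    filter_upwards [hrad r hr] with k hk
    have hle : ∀ ω ∈ ball (0 : C2) r, ‖ω‖ ≤ 1 - 1 / ((k : ℝ) + 2) := fun ω hω =>
      (mem_ball_zero_iff.1 hω).le.trans hk
    refine ⟨hes.comp ?_ fun ω hω => (hδW k ω (hle ω hω)).1, fun ω hω => (hδW k ω (hle ω hω)).2⟩
    intro ω hω
    refine DifferentiableAt.differentiableWithinAt ?_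
    have h1 : ∀ x : ℂ, ‖x‖ ≤ ‖ω‖ → 1 - x ≠ 0 := fun x hx =>
      one_sub_ne_zero (hx.trans_lt ((mem_ball_zero_iff.1 hω).trans hr))
    have ha := h1 _ (norm_fst_le ω)
    have hb' := h1 _ (norm_snd_le ω)
    simp only [hdisp, cay]
    fun_prop (disch := assumption)
  · -- `B ∘ A`
    intro r hr
    filter_upwards [hrad r hr] with k hk ω hω
    have hωr := (mem_ball_zero_iff.1 hω).le.trans hk
    have h1 : ‖ω‖ < 1 := (mem_ball_zero_iff.1 hω).trans hr
    simp only [hA, hB]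
    rw [e.right_inv (hδW k ω hωr).1]
    simp only [hdisp, add_sub_cancel_left]
    rw [mul_div_cancel_left₀ _ (hd1 k), mul_div_cancel_left₀ _ (hd2 k),
      cayi_cay ((norm_fst_le ω).trans_lt h1), cayi_cay ((norm_snd_le ω).trans_lt h1)]
  · -- bounds for `B`
    intro ε hε
    obtain ⟨ε', ⟨hε', hε1⟩, hle⟩ : ∃ ε' : ℝ, (0 < ε' ∧ ε' < 1) ∧
        (1 + ε') / (1 - ε') ≤ (1 + ε) ^ 2 := by
      have h1 : (1 : ℝ) < (1 + ε) ^ 2 := by nlinarith
      have hc : ContinuousAt (fun t : ℝ => (1 + t) / (1 - t)) 0 :=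
        (continuousAt_const.add continuousAt_id).div (continuousAt_const.sub continuousAt_id)
          (by norm_num)
      have hev : ∀ᶠ t : ℝ in 𝓝[>] 0, (1 + t) / (1 - t) < (1 + ε) ^ 2 :=
        nhdsWithin_le_nhds (hc.eventually_mem (Iio_mem_nhds (by simpa using h1)))
      obtain ⟨t, ⟨ht, ht1⟩, ht2⟩ := ((eventually_mem_nhdsWithin (s := Ioi (0 : ℝ)) (a := 0)).and
        (nhdsWithin_le_nhds (Iio_mem_nhds one_pos))).and hev |>.exists
      exact ⟨t, ⟨ht, ht1⟩, ht2.le⟩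
    obtain ⟨N', hN'sub, hN'o, hqN'⟩ := _root_.eventually_nhds_iff.1
      ((e.open_source.eventually_mem hqe).and
        ((((continuous_fst.continuousAt).comp (e.continuousAt hqe)).eventually
          (p := fun u => 0 ≤ ρ₁ u → -ε' * ‖(u - b.1) / ν₁‖ ≤ ((u - b.1) / ν₁).re)
          (eventually_re_ge_of_nonneg (hρ₁d _) hz₁ hd₁ hε')).and
        (((continuous_snd.continuousAt).comp (e.continuousAt hqe)).eventually
          (p := fun u => 0 ≤ ρ₂ u → -ε' * ‖(u - b.2) / ν₂‖ ≤ ((u - b.2) / ν₂).re)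
          (eventually_re_ge_of_nonneg (hρ₂d _) hz₂ hd₂ hε'))))
    refine ⟨N', hN'o, hqN', Eventually.of_forall fun k => ?_⟩
    have hscale : ∀ (u ν : ℂ), -ε' * ‖u / ν‖ ≤ (u / ν).re →
        -ε' * ‖u / (ν * (δ k : ℂ))‖ ≤ (u / (ν * (δ k : ℂ))).re := by
      intro u ν hu
      rw [← div_div, norm_div, Complex.div_ofReal_re, Complex.norm_real, Real.norm_eq_abs,
        abs_of_pos (hδ k).1, ← mul_div_assoc]
      exact div_le_div_of_nonneg_right hu (hδ k).1.le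
    have hB1 : ∀ y ∈ W ∩ N',
        (((e y).1 - b.1) / (ν₁ * (δ k : ℂ)) + 1 ≠ 0 ∧ ‖(B k y).1‖ ≤ 1 + ε) ∧
        (((e y).2 - b.2) / (ν₂ * (δ k : ℂ)) + 1 ≠ 0 ∧ ‖(B k y).2‖ ≤ 1 + ε) := by
      intro y hy
      obtain ⟨-, g₁, g₂⟩ := hN'sub y hy.2
      obtain ⟨a₁, c₁⟩ := cayi_bound hε' hε1 (hscale _ _ (g₁ hy.1.2.1.le))
      obtain ⟨a₂, c₂⟩ := cayi_bound hε' hε1 (hscale _ _ (g₂ hy.1.2.2.le))
      exact ⟨⟨a₁, pow_le_pow_iff_left₀ (norm_nonneg _) (by linarith) two_ne_zero |>.1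
          (c₁.trans hle)⟩,
        ⟨a₂, pow_le_pow_iff_left₀ (norm_nonneg _) (by linarith) two_ne_zero |>.1
          (c₂.trans hle)⟩⟩
    refine ⟨?_, fun y hy => ⟨?_, ?_⟩⟩
    · have he' : DifferentiableOn ℂ e (W ∩ N') := hed.mono fun y hy => hy.1.1
      simp only [hB, cayi, div_eq_mul_inv]
      refine DifferentiableOn.prodMk ?_ ?_
      · have hc := (he'.fst.sub_const b.1).mul_const (ν₁ * (δ k : ℂ))⁻¹
        refine (hc.sub_const 1).mul ((hc.add_const 1).fun_inv fun y hy => ?_)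
        simpa only [div_eq_mul_inv] using (hB1 y hy).1.1
      · have hc := (he'.snd.sub_const b.2).mul_const (ν₂ * (δ k : ℂ))⁻¹
        refine (hc.sub_const 1).mul ((hc.add_const 1).fun_inv fun y hy => ?_)
        simpa only [div_eq_mul_inv] using (hB1 y hy).2.1
    · rw [Prod.norm_def]
      exact max_le (hB1 y hy).1.2 (hB1 y hy).2.2
    · simp only [hA, hB, hdisp]
      rw [cay_cayi (hB1 y hy).1.1, cay_cayi (hB1 y hy).2.1, mul_div_cancel₀ _ (hd1 k),
        mul_div_cancel₀ _ (hd2 k), add_sub_cancel, add_sub_cancel]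
      exact e.left_inv hy.1.1

end

end Vale.Agent.P274.Surface
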