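import Vale.Agent.P274.Surface.Hartogs
import Vale.Agent.P274.Surface.Scale
import Mathlib.Topology.Algebra.MvPolynomial

/-!
Levi nondegenerate boundary points: at a regular point a polynomial change of coordinates brings
the frontier to `re s + l |t| ^ 2 + o(|s| + |t| ^ 2) = 0`. A positive `l` gives a Hartogs figure,
a negative one gives the ball by scaling.
-/

open Filter Metric Set Function Topology Complex Asymptotics

namespace Vale.Agent.P274.Surface

noncomputable section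

theorem pderiv_pderiv_comm (i j : Fin 4) (P : MvPolynomial (Fin 4) ℝ) :
    MvPolynomial.pderiv i (MvPolynomial.pderiv j P) =
      MvPolynomial.pderiv j (MvPolynomial.pderiv i P) := by
  induction P using MvPolynomial.induction_on with
  | C a => simp
  | add p q hp hq => simp [hp, hq]
  | mul_X p k hp =>
    have hX : ∀ i j, MvPolynomial.pderiv i (MvPolynomial.pderiv j
        (MvPolynomial.X k : MvPolynomial (Fin 4) ℝ)) = 0 := fun i j => by
      rw [MvPolynomial.pderiv_X]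
      rcases eq_or_ne k j with rfl | h
      · simp
      · simp [h]
    simp only [MvPolynomial.pderiv_mul, map_add, hX, hp, mul_zero]
    ring

/-- The second order terms of a polynomial at a point. -/
def hess (P : MvPolynomial (Fin 4) ℝ) (x a b : Fin 4 → ℝ) : ℝ :=
  ∑ i, ∑ j, a i * b j * MvPolynomial.eval x (MvPolynomial.pderiv i (MvPolynomial.pderiv j P))

/-- The first order terms of a polynomial at a point. -/
def grad1 (P : MvPolynomial (Fin 4) ℝ) (x a : Fin 4 → ℝ) : ℝ :=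
  ∑ i, a i * MvPolynomial.eval x (MvPolynomial.pderiv i P)

theorem hess_mul_X (p : MvPolynomial (Fin 4) ℝ) (k : Fin 4) (x v : Fin 4 → ℝ) :
    hess (p * MvPolynomial.X k) x v v = hess p x v v * x k + 2 * v k * grad1 p x v := by
  simp only [hess, grad1, MvPolynomial.pderiv_mul, MvPolynomial.pderiv_X, map_add, map_mul,
    MvPolynomial.eval_X]
  fin_cases k <;> simp [Fin.sum_univ_four] <;> ring

theorem grad1_mul_X (p : MvPolynomial (Fin 4) ℝ) (k : Fin 4) (x v : Fin 4 → ℝ) :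
    grad1 (p * MvPolynomial.X k) x v = grad1 p x v * x k + v k * MvPolynomial.eval x p := by
  simp only [grad1, MvPolynomial.pderiv_mul, MvPolynomial.pderiv_X, map_add, map_mul,
    MvPolynomial.eval_X]
  fin_cases k <;> simp [Fin.sum_univ_four] <;> ring

/-- The Taylor formula of order two. -/
theorem taylor_two (P : MvPolynomial (Fin 4) ℝ) (x : Fin 4 → ℝ) :
    (fun v => MvPolynomial.eval (x + v) P - MvPolynomial.eval x P - grad1 P x v -
      hess P x v v / 2) =o[𝓝 0] fun v : Fin 4 → ℝ => ‖v‖ ^ 2 := by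
  induction P using MvPolynomial.induction_on with
  | C a => simp [grad1, hess]
  | add p q hp hq =>
    refine (hp.add hq).congr_left fun v => ?_
    simp only [grad1, hess, map_add, mul_add, Finset.sum_add_distrib]
    ring
  | mul_X p k hp =>
    have h1 : (fun v : Fin 4 → ℝ => x k + v k) =O[𝓝 0] fun _ => (1 : ℝ) := by
      have hc : Continuous fun v : Fin 4 → ℝ => x k + v k := by fun_prop
      exact (hc.tendsto 0).isBigO_one ℝ
    have h2 : (fun v : Fin 4 → ℝ => v k) =o[𝓝 0] fun _ => (1 : ℝ) :=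
      (isLittleO_one_iff ℝ).2 ((continuous_apply k).tendsto 0)
    have h3 : (fun v : Fin 4 → ℝ => hess p x v v) =O[𝓝 0] fun v => ‖v‖ ^ 2 := by
      simp only [hess]
      refine IsBigO.fun_sum fun i _ => IsBigO.fun_sum fun j _ => ?_
      refine IsBigO.of_bound
        ‖MvPolynomial.eval x (MvPolynomial.pderiv i (MvPolynomial.pderiv j p))‖
        (Eventually.of_forall fun v => ?_)
      rw [norm_mul, norm_mul, norm_pow, norm_norm, sq, mul_comm]
      exact mul_le_mul_of_nonneg_left (mul_le_mul (norm_le_pi_norm v i) (norm_le_pi_norm v j)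
        (norm_nonneg _) (norm_nonneg _)) (norm_nonneg _)
    have ha := hp.mul_isBigO h1
    have hb := (h3.mul_isLittleO h2).const_mul_left (1 / 2)
    simp only [mul_one] at ha hb
    refine (ha.add hb).congr_left fun v => ?_
    rw [hess_mul_X, grad1_mul_X]
    simp only [map_mul, MvPolynomial.eval_X, Pi.add_apply]
    ring

theorem coord_add (z w : C2) : coord (z + w) = coord z + coord w := by
  ext i; fin_cases i <;> simp [coord]

theorem abs_coord_le (z : C2) (i : Fin 4) : |coord z i| ≤ ‖z‖ := by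
  have h1 := norm_fst_le z
  have h2 := norm_snd_le z
  have a := abs_re_le_norm z.1
  have b := abs_im_le_norm z.1
  have c := abs_re_le_norm z.2
  have e := abs_im_le_norm z.2
  fin_cases i <;> simp [coord] <;> linarith

theorem continuous_coord : Continuous coord := continuous_pi fun i => by
  fin_cases i <;> simp [coord] <;> fun_prop

theorem continuous_pev (R : MvPolynomial (Fin 4) ℝ) : Continuous (pev R) :=
  (MvPolynomial.continuous_eval R).comp continuous_coord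

theorem exists_pderiv_ne {R : MvPolynomial (Fin 4) ℝ} {q : C2}
    (hd : fderiv ℝ (pev R) q ≠ 0) : ∃ i, MvPolynomial.eval (coord q) (MvPolynomial.pderiv i R) ≠ 0 := by
  by_contra h
  push Not at h
  refine hd (HasFDerivAt.fderiv ?_)
  refine HasFDerivAt.of_isLittleO ?_
  have hc : Tendsto (fun y => coord (y - q)) (𝓝 q) (𝓝 0) := by
    have h0 : coord (q - q) = 0 := by ext i; fin_cases i <;> simp [coord]
    rw [← h0]
    exact (continuous_coord.comp (continuous_id.sub continuous_const)).tendsto q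
  have hO : (fun y => coord (y - q)) =O[𝓝 q] fun y => y - q :=
    IsBigO.of_bound 1 (Eventually.of_forall fun y => by
      rw [one_mul, pi_norm_le_iff_of_nonneg (norm_nonneg _)]
      exact fun i => abs_coord_le _ i)
  have hs : (fun v : Fin 4 → ℝ => MvPolynomial.eval (coord q + v) R -
      MvPolynomial.eval (coord q) R) =o[𝓝 0] fun v => v := by
    have hsq : (fun v : Fin 4 → ℝ => ‖v‖ ^ 2) =o[𝓝 0] fun v => v := by
      have := (isLittleO_one_iff ℝ).2 (tendsto_norm_zero (E := Fin 4 → ℝ))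
      refine isLittleO_norm_right.1 ?_
      simpa [sq] using this.mul_isBigO (isBigO_refl (fun v : Fin 4 → ℝ => ‖v‖) _)
    have hh : (fun v : Fin 4 → ℝ => hess R (coord q) v v / 2) =o[𝓝 0] fun v => v := by
      refine IsBigO.trans_isLittleO ?_ hsq
      simp only [hess, Finset.sum_div]
      refine IsBigO.fun_sum fun i _ => IsBigO.fun_sum fun j _ => ?_
      refine IsBigO.of_bound
        ‖MvPolynomial.eval (coord q) (MvPolynomial.pderiv i (MvPolynomial.pderiv j R)) / 2‖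
        (Eventually.of_forall fun v => ?_)
      rw [mul_div_assoc, norm_mul, norm_mul, norm_pow, norm_norm, sq, mul_comm]
      exact mul_le_mul_of_nonneg_left (mul_le_mul (norm_le_pi_norm v i) (norm_le_pi_norm v j)
        (norm_nonneg _) (norm_nonneg _)) (norm_nonneg _)
    refine (((taylor_two R (coord q)).trans hsq).add hh).congr_left fun v => ?_
    simp [grad1, h]
  refine ((hs.comp_tendsto hc).trans_isBigO hO).congr_left fun y => ?_
  simp only [comp_apply, ← coord_add, add_sub_cancel, zero_apply, sub_zero]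
  rfl

/-- Coordinates at a regular zero in which the polynomial is `re s + l |t| ^ 2` up to
`o(|s| + |t| ^ 2)`. -/
theorem exists_normal_form {R : MvPolynomial (Fin 4) ℝ} {q : C2} (hq : pev R q = 0)
    (hd : fderiv ℝ (pev R) q ≠ 0) :
    ∃ Φ Φi : C2 → C2, Differentiable ℂ Φ ∧ Differentiable ℂ Φi ∧ Φ 0 = q ∧
      (∀ x, Φi (Φ x) = x) ∧ (∀ y, Φ (Φi y) = y) ∧
      ∀ ε > 0, ∀ᶠ x in 𝓝 (0 : C2),
        |pev R (Φ x) - x.1.re - pev (leviPoly R) q / 4 * ‖x.2‖ ^ 2| ≤
          ε * (‖x.1‖ + ‖x.2‖ ^ 2) := by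
  set x₀ := coord q with hx₀
  set D : Fin 4 → ℝ := fun i => MvPolynomial.eval x₀ (MvPolynomial.pderiv i R) with hD
  set G : ℝ := D 0 ^ 2 + D 1 ^ 2 + D 2 ^ 2 + D 3 ^ 2 with hG
  have hG0 : G ≠ 0 := by
    obtain ⟨i, hi⟩ := exists_pderiv_ne hd
    intro h0
    apply hi
    have h2 : D i ^ 2 ≤ ∑ j, D j ^ 2 :=
      Finset.single_le_sum (f := fun j => D j ^ 2) (fun j _ => sq_nonneg _) (Finset.mem_univ i)
    rw [Fin.sum_univ_four, ← hG, h0] at h2
    exact pow_eq_zero_iff two_ne_zero |>.1 (le_antisymm h2 (sq_nonneg (D i)))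
  set g₁ : ℂ := ⟨D 0, -D 1⟩ with hg₁
  set g₂ : ℂ := ⟨D 2, -D 3⟩ with hg₂
  set c₁ : ℂ := ⟨D 0, D 1⟩ with hc₁
  set c₂ : ℂ := ⟨D 2, D 3⟩ with hc₂
  have hgc : c₁ * g₁ + c₂ * g₂ = (G : ℂ) := by
    apply Complex.ext <;> simp [hg₁, hg₂, hc₁, hc₂, hG, sq] <;> ring
  have hGC : (G : ℂ) ≠ 0 := ofReal_ne_zero.2 hG0
  set A : C2 → C2 := fun x => (x.1 * (c₁ / G) - x.2 * g₂, x.1 * (c₂ / G) + x.2 * g₁) with hA
  set Ai : C2 → C2 := fun v => (g₁ * v.1 + g₂ * v.2, (c₁ * v.2 - c₂ * v.1) / G) with hAi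
  have hAiA : ∀ x, Ai (A x) = x := fun x => by
    simp only [hA, hAi]
    ext1
    · dsimp only
      field_simp
      linear_combination x.1 * hgc
    · dsimp only
      field_simp
      linear_combination x.2 * (G : ℂ) * hgc
  have hAAi : ∀ v, A (Ai v) = v := fun v => by
    simp only [hA, hAi]
    ext1
    · dsimp only
      field_simp
      linear_combination v.1 * hgc
    · dsimp only
      field_simp
      linear_combination v.2 * hgc
  -- the quadratic form on the complex tangent line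
  set v : Fin 4 → ℝ := ![-D 2, D 3, D 0, -D 1] with hv
  set w : Fin 4 → ℝ := ![-D 3, -D 2, D 1, D 0] with hw
  set H := hess R x₀ with hH
  set a : ℂ := ⟨(H v v - H w w) / 4, -(H v w + H w v) / 4⟩ with ha
  have hlevi : pev (leviPoly R) q = H v v + H w w := by
    simp only [pev, leviPoly, hH, hess, hv, hw, Fin.sum_univ_four, map_add, map_sub, map_mul,
      map_ofNat, ← hx₀]
    simp only [pderiv_pderiv_comm 1 0, pderiv_pderiv_comm 2 0, pderiv_pderiv_comm 3 0,
      pderiv_pderiv_comm 2 1, pderiv_pderiv_comm 3 1, pderiv_pderiv_comm 3 2]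
    simp [hD]
    ring
  set sh : C2 → C2 := fun x => (x.1 - a * x.2 ^ 2, x.2) with hsh
  set shi : C2 → C2 := fun x => (x.1 + a * x.2 ^ 2, x.2) with hshi
  refine ⟨fun x => q + A (sh x), fun y => shi (Ai (y - q)), ?_, ?_, ?_, fun x => ?_, fun y => ?_, ?_⟩
  · simp only [hA, hsh]; fun_prop
  · simp only [hAi, hshi]; fun_prop
  · simp [hA, hsh]
  · simp only [add_sub_cancel_left, hAiA]
    simp [hsh, hshi]
  · have : sh (shi (Ai (y - q))) = Ai (y - q) := by simp [hsh, hshi]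
    simp only [this, hAAi, add_sub_cancel]
  set g : C2 → ℝ := fun x => ‖x.1‖ + ‖x.2‖ ^ 2 with hg
  have hg0 : ∀ x, 0 ≤ g x := fun x => by positivity
  set p : C2 → Fin 4 → ℝ := fun x => coord (A ((sh x).1, 0)) with hp
  set r : C2 → Fin 4 → ℝ := fun x => coord (A (0, x.2)) with hr
  set u : C2 → Fin 4 → ℝ := fun x => coord (A (sh x)) with hu
  have hupr : ∀ x, u x = p x + r x := fun x => by
    simp only [hu, hp, hr, ← coord_add]
    congr 1
    simp [hA, hsh]
    ring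
  have hrv : ∀ x : C2, r x = x.2.re • v + x.2.im • w := fun x => by
    ext i
    fin_cases i <;> simp [hr, hA, coord, hv, hw, hg₁, hg₂] <;> ring
  -- the orders of the two parts
  have hpO : ∀ i, (fun x => p x i) =O[𝓝 0] g := by
    intro i
    refine IsBigO.of_bound ((1 + ‖a‖) * (‖c₁ / G‖ + ‖c₂ / G‖)) (Eventually.of_forall fun x => ?_)
    rw [Real.norm_eq_abs, Real.norm_of_nonneg (hg0 x)]
    refine (abs_coord_le _ i).trans ?_
    simp only [hA, zero_mul, sub_zero, add_zero, Prod.norm_def, norm_mul]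
    have h1 : ‖(sh x).1‖ ≤ (1 + ‖a‖) * g x := by
      simp only [hsh, hg]
      refine (norm_sub_le _ _).trans ?_
      rw [norm_mul, norm_pow]
      nlinarith [norm_nonneg a, norm_nonneg x.1, sq_nonneg ‖x.2‖]
    refine (max_le_add_of_nonneg (by positivity) (by positivity)).trans ?_
    rw [← mul_add, mul_right_comm]
    exact mul_le_mul_of_nonneg_right h1 (by positivity)
  have hu0 : ∀ i, (fun x => u x i) =o[𝓝 0] fun _ => (1 : ℝ) := by
    intro i
    have hc : Continuous fun x => u x i := by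
      simp only [hu]
      refine (continuous_apply i).comp (continuous_coord.comp ?_)
      simp only [hA, hsh]
      fun_prop
    refine (isLittleO_one_iff ℝ).2 ?_
    simpa [hu, hA, hsh, coord, Fin.forall_fin_succ] using
      hc.tendsto' 0 0 (by fin_cases i <;> simp [hu, hA, hsh, coord])
  have hr0 : ∀ i, (fun x => r x i) =o[𝓝 0] fun _ => (1 : ℝ) := by
    intro i
    refine (isLittleO_one_iff ℝ).2 ?_
    simp only [hrv, Pi.add_apply, Pi.smul_apply, smul_eq_mul]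
    have hc : Continuous fun x : C2 => x.2.re * v i + x.2.im * w i := by fun_prop
    simpa using hc.tendsto 0
  -- the quadratic part
  have hquad : (fun x => H (u x) (u x) - H (r x) (r x)) =o[𝓝 0] g := by
    have e : ∀ x, H (u x) (u x) - H (r x) (r x) = H (p x) (u x) + H (r x) (p x) := fun x => by
      simp only [hH, hess, hupr x, Pi.add_apply, ← Finset.sum_sub_distrib,
        ← Finset.sum_add_distrib]
      exact Finset.sum_congr rfl fun i _ => Finset.sum_congr rfl fun j _ => by ring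
    refine IsLittleO.congr_left ?_ fun x => (e x).symm
    simp only [hH, hess, ← Finset.sum_add_distrib]
    refine IsLittleO.fun_sum fun i _ => IsLittleO.fun_sum fun j _ => ?_
    set k := MvPolynomial.eval x₀ (MvPolynomial.pderiv i (MvPolynomial.pderiv j R))
    have h1 := ((hpO i).mul_isLittleO (hu0 j)).const_mul_left k
    have h2 := ((hr0 i).mul_isBigO (hpO j)).const_mul_left k
    simp only [mul_one] at h1
    simp only [one_mul] at h2
    exact (h1.add h2).congr_left fun x => by ring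
  have huO : (fun x => ‖u x‖ ^ 2) =O[𝓝 0] g := by
    have hbi : ∀ i, (fun x => u x i * u x i) =O[𝓝 0] g := by
      intro i
      have h1 : (fun x => p x i * (u x i + r x i)) =O[𝓝 0] g := by
        have := (hpO i).mul_isLittleO ((hu0 i).add (hr0 i))
        simp only [mul_one] at this
        exact this.isBigO
      have h2 : (fun x => r x i * r x i) =O[𝓝 0] g := by
        refine IsBigO.of_bound ((|v i| + |w i|) ^ 2) (Eventually.of_forall fun x => ?_)
        rw [Real.norm_eq_abs, Real.norm_of_nonneg (hg0 x), abs_mul, hrv]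
        simp only [Pi.add_apply, Pi.smul_apply, smul_eq_mul]
        have hb : |x.2.re * v i + x.2.im * w i| ≤ (|v i| + |w i|) * ‖x.2‖ := by
          refine (abs_add_le _ _).trans ?_
          rw [abs_mul, abs_mul]
          nlinarith [abs_re_le_norm x.2, abs_im_le_norm x.2, abs_nonneg (v i), abs_nonneg (w i)]
        calc _ ≤ ((|v i| + |w i|) * ‖x.2‖) * ((|v i| + |w i|) * ‖x.2‖) :=
              mul_le_mul hb hb (abs_nonneg _) (by positivity)
          _ ≤ (|v i| + |w i|) ^ 2 * g x := by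
            simp only [hg]
            nlinarith [norm_nonneg x.1, sq_nonneg (|v i| + |w i|)]
      exact (h1.add h2).congr_left fun x => by rw [hupr x, Pi.add_apply]; ring
    refine IsBigO.trans ?_ (IsBigO.fun_sum (s := Finset.univ) fun i _ => hbi i)
    refine IsBigO.of_bound 1 (Eventually.of_forall fun x => ?_)
    rw [one_mul, norm_pow, norm_norm, Real.norm_of_nonneg
      (Finset.sum_nonneg fun i _ => mul_self_nonneg _)]
    have hsum : ∀ i, ‖u x i‖ ≤ Real.sqrt (∑ i, u x i * u x i) := fun i => by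
      rw [Real.norm_eq_abs]
      refine Real.abs_le_sqrt ?_
      rw [sq]
      exact Finset.single_le_sum (f := fun j => u x j * u x j) (fun j _ => mul_self_nonneg _)
        (Finset.mem_univ i)
    refine (pow_le_pow_left₀ (norm_nonneg _)
      ((pi_norm_le_iff_of_nonneg (Real.sqrt_nonneg _)).2 hsum) 2).trans ?_
    rw [Real.sq_sqrt (Finset.sum_nonneg fun i _ => mul_self_nonneg _)]
  have hut : Tendsto u (𝓝 0) (𝓝 0) :=
    tendsto_pi_nhds.2 fun i => (isLittleO_one_iff ℝ).1 (hu0 i)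
  have hrem := ((taylor_two R x₀).comp_tendsto hut).trans_isBigO huO
  have htot := hrem.add (hquad.const_mul_left (1 / 2))
  intro ε hε
  filter_upwards [htot.bound hε] with x hx
  rw [Real.norm_eq_abs, Real.norm_of_nonneg (hg0 x)] at hx
  refine le_trans (le_of_eq (congrArg abs ?_)) hx
  have hR : pev R (q + A (sh x)) = MvPolynomial.eval (x₀ + u x) R := by
    rw [pev, coord_add]
  have hlin : grad1 R x₀ (u x) = (sh x).1.re := by
    have h := congrArg (fun z : C2 => z.1.re) (hAiA (sh x))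
    rw [← h]
    simp [grad1, hu, Fin.sum_univ_four, hAi, coord, hg₁, hg₂, hD]
    ring
  have hrr : H (r x) (r x) / 2 =
      (H v v + H w w) / 4 * ‖x.2‖ ^ 2 + (a * x.2 ^ 2).re := by
    rw [← Complex.normSq_eq_norm_sq, Complex.normSq_apply, hrv]
    simp only [hH, hess, Pi.add_apply, Pi.smul_apply, smul_eq_mul, ha, Fin.sum_univ_four]
    simp [sq]
    ring
  have h0 : MvPolynomial.eval x₀ R = 0 := hq
  simp only [comp_apply, hR, h0, hlevi, hlin, sub_zero]
  have : (sh x).1.re = x.1.re - (a * x.2 ^ 2).re := by simp [hsh]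
  rw [this]
  linear_combination hrr

theorem RegPt.pev_eq_zero {U : Set C2} {R : MvPolynomial (Fin 4) ℝ} {q : C2} (h : RegPt U R q) :
    pev R q = 0 :=
  h.local_eq.self_of_nhds.1.1 h.mem_frontier

theorem Sys.levi_nonpos (Ω : Sys) {R : MvPolynomial (Fin 4) ℝ} {q : C2} (h : RegPt Ω.U R q) :
    pev (leviPoly R) q ≤ 0 := by
  by_contra! hpos
  obtain ⟨Φ, Φi, hΦ, hΦi, hΦ0, hleft, hright, hest⟩ := exists_normal_form h.pev_eq_zero h.fderiv_ne
  set l := pev (leviPoly R) q / 4 with hl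
  have hl0 : 0 < l := by positivity
  set ε := min (1 / 2) (l / 2) with hεdef
  have hε : 0 < ε := lt_min (by norm_num) (by positivity)
  have hε1 : ε ≤ 1 / 2 := min_le_left _ _
  have hε2 : ε ≤ l / 2 := min_le_right _ _
  have hin : ∀ᶠ x in 𝓝 (0 : C2), 0 < pev R (Φ x) → Φ x ∈ Ω.U :=
    (hΦ.continuous.tendsto' 0 q hΦ0).eventually (h.local_eq.mono fun y hy => hy.2)
  obtain ⟨ρ, hρ, hball⟩ := Metric.eventually_nhds_iff.1 ((hest ε hε).and hin)
  have key : ∀ x : C2, ‖x.1‖ < ρ → ‖x.2‖ < ρ →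
      ε * ‖x.1‖ - x.1.re < (l - ε) * ‖x.2‖ ^ 2 → Φ x ∈ Ω.U := by
    intro x h1 h2 h3
    obtain ⟨he, hu⟩ := hball (show dist x 0 < ρ by
      rw [dist_zero_right, Prod.norm_def]; exact max_lt h1 h2)
    refine hu ?_
    have := (abs_le.1 he).1
    nlinarith
  set δ := ρ / 2 with hδ
  have hδ0 : 0 < δ := half_pos hρ
  set κ := min (ρ / 2) (l * δ ^ 2 / 4) with hκdef
  have hκ : 0 < κ := lt_min hδ0 (by positivity)
  have hκρ : κ < ρ := (min_le_left _ _).trans_lt (half_lt_self hρ)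
  have hκl : κ ≤ l * δ ^ 2 / 4 := min_le_right _ _
  have hδC : (δ : ℂ) ≠ 0 := ofReal_ne_zero.2 hδ0.ne'
  have hnδ : ∀ τ : ℂ, ‖(δ : ℂ) * τ‖ = δ * ‖τ‖ := fun τ => by
    rw [norm_mul, Complex.norm_real, Real.norm_of_nonneg hδ0.le]
  set Ψ : C2 → C2 := fun x => Φ (x.1, (δ : ℂ) * x.2) with hΨ
  set Ψi : C2 → C2 := fun y => ((Φi y).1, (Φi y).2 / (δ : ℂ)) with hΨi
  set s₀ : ℝ := κ / 2 with hs₀
  have hs₀0 : 0 < s₀ := half_pos hκ
  have hreal : ∀ s : ℝ, 0 < s → s ≤ s₀ → ∀ t : ℂ, ‖t‖ < ρ → Φ ((s : ℂ), t) ∈ Ω.U := by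
    intro s hs hs' t ht
    refine key _ ?_ ht ?_
    · simp only [Complex.norm_real, Real.norm_of_nonneg hs.le]
      linarith
    · simp only [Complex.norm_real, Real.norm_of_nonneg hs.le, ofReal_re]
      nlinarith [mul_nonneg (show (0 : ℝ) ≤ l - ε by linarith) (sq_nonneg ‖t‖)]
  refine Ω.no_hartogs_disc h.mem_frontier (Ψ := Ψ) (Ψi := Ψi) isOpen_univ ?_
    (S := ball 0 κ) isOpen_ball ?_ (a := 1 / 2) (by norm_num)
    (N := Ψi ⁻¹' (ball 0 κ ×ˢ ball 0 (1 / 2))) ?_ ?_ ?_ (mapsTo_preimage _ _) ?_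
    (y₀ := Φ ((s₀ : ℂ), 0)) ?_
    (Γ := (fun s : ℝ => Φ ((s : ℂ), 0)) '' Ioc 0 s₀) ?_ ⟨s₀, ⟨hs₀0, le_rfl⟩, rfl⟩ ?_ ?_
  · exact (hΦ.comp (by fun_prop)).differentiableOn
  · intro s hs τ hτ
    have hs' := mem_ball_zero_iff.1 hs
    have hτ' := mem_sphere_zero_iff_norm.1 hτ
    refine ⟨mem_univ _, key _ (hs'.trans hκρ) ?_ ?_⟩
    · simp only [hnδ, hτ']; linarith
    · simp only [hnδ, hτ', mul_one]
      have hre : -‖s‖ ≤ s.re := (abs_le.1 (abs_re_le_norm s)).1
      have h5 : l / 2 * δ ^ 2 ≤ (l - ε) * δ ^ 2 :=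
        mul_le_mul_of_nonneg_right (by linarith) (sq_nonneg δ)
      nlinarith [norm_nonneg s]
  · refine (isOpen_ball.prod isOpen_ball).preimage ?_
    have := hΦi.continuous
    simp only [hΨi]
    fun_prop
  · have : Φi q = 0 := by rw [← hΦ0, hleft]
    simp [hΨi, this, hκ]
  · simp only [hΨi, div_eq_mul_inv]
    exact ((hΦi.fst).prodMk ((hΦi.snd).mul_const _)).differentiableOn
  · intro y _
    simp only [hΨ, hΨi, mul_div_cancel₀ _ hδC]
    exact hright y
  · intro τ hτ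
    have hτ' := mem_closedBall_zero_iff.1 hτ
    refine ⟨mem_univ _, ?_⟩
    simp only [hΨ, hΨi, hleft]
    refine hreal s₀ hs₀0 le_rfl _ ?_
    rw [hnδ]
    nlinarith
  · exact isPreconnected_Ioc.image _
      (hΦ.continuous.comp (by fun_prop)).continuousOn
  · rintro _ ⟨s, ⟨hs, hs'⟩, rfl⟩
    refine ⟨hreal s hs hs' 0 (by simpa using hρ), ?_⟩
    simp only [mem_preimage, hΨi, hleft, mem_prod, mem_ball_zero_iff, zero_div, norm_zero,
      Complex.norm_real, Real.norm_of_nonneg hs.le]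
    exact ⟨by linarith, by norm_num⟩
  · have hc : Continuous fun s : ℝ => Φ ((s : ℂ), 0) := hΦ.continuous.comp (by fun_prop)
    have h1 : q = (fun s : ℝ => Φ ((s : ℂ), 0)) 0 := by simp [← hΦ0, Prod.mk_zero_zero]
    rw [h1]
    refine image_closure_subset_closure_image hc (mem_image_of_mem _ ?_)
    rw [closure_Ioc hs₀0.ne]
    exact ⟨le_rfl, hs₀0.le⟩

/-- The norm of a point of the unitary plane. -/
theorem norm_sq_two (ω : EuclideanSpace ℂ (Fin 2)) : ‖ω‖ ^ 2 = ‖ω 0‖ ^ 2 + ‖ω 1‖ ^ 2 := by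
  rw [EuclideanSpace.norm_sq_eq, Fin.sum_univ_two]

/-- The model domain as the image of the ball. -/
theorem model_eq (ω : EuclideanSpace ℂ (Fin 2)) (hne : 1 - ω 0 ≠ 0) :
    (cay (ω 0)).re - ‖ω 1 / (1 - ω 0)‖ ^ 2 = (1 - ‖ω‖ ^ 2) / Complex.normSq (1 - ω 0) := by
  have hN : Complex.normSq (1 - ω 0) ≠ 0 := (Complex.normSq_pos.2 hne).ne'
  rw [norm_sq_two, cay, norm_div, div_pow, Complex.div_re,
    ← Complex.normSq_eq_norm_sq (1 - ω 0), ← Complex.normSq_eq_norm_sq (ω 0),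
    Complex.normSq_apply (ω 0)]
  simp only [add_re, sub_re, one_re, add_im, sub_im, one_im]
  field_simp
  ring

/-- Positivity at a scaled point. -/
theorem scaled_pos {P a b c D e μ g : ℝ} (hD : 0 < D) (hg : 0 < g) (hgap : g ≤ a - c)
    (he : e * (b + c / μ) ≤ g / 2)
    (hlow : -(e * (D * b + D * (c / μ))) ≤ P - D * a + D * c) : 0 < P := by
  have h1 := mul_le_mul_of_nonneg_left hgap hD.le
  have h2 := mul_le_mul_of_nonneg_left he hD.le
  nlinarith [mul_pos hD hg]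

/-- Points almost inside the model go almost into the ball. -/
theorem model_bound {ζ η : ℂ} {e μ ε : ℝ} (hμ : 0 < μ) (he : 0 < e) (he1 : e ≤ 1 / 2)
    (he2 : e ≤ μ / 2) (he3 : 4 * e * (1 + 4 / μ) ≤ ε) (hε : 0 < ε)
    (h : 0 ≤ ζ.re - ‖η‖ ^ 2 + e * (‖ζ‖ + ‖η‖ ^ 2 / μ)) :
    ζ + 1 ≠ 0 ∧ ‖cayi ζ‖ ^ 2 + ‖2 * η / (ζ + 1)‖ ^ 2 ≤ 1 + ε := by
  have hq2 : e * (‖η‖ ^ 2 / μ) ≤ ‖η‖ ^ 2 / 2 := by
    refine (mul_le_mul_of_nonneg_right he2 (by positivity)).trans (le_of_eq ?_)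
    field_simp
  have hez : e * ‖ζ‖ ≤ 1 / 2 * ‖ζ‖ := mul_le_mul_of_nonneg_right he1 (norm_nonneg ζ)
  have hη4 : ‖η‖ ^ 2 ≤ 4 * ‖ζ‖ := by linarith [re_le_norm ζ, norm_nonneg ζ]
  have hre : -e * ‖ζ‖ ≤ ζ.re := by linarith [sq_nonneg ‖η‖]
  obtain ⟨hne, -⟩ := cayi_bound he (by linarith) hre
  refine ⟨hne, ?_⟩
  have hN : 0 < Complex.normSq (ζ + 1) := Complex.normSq_pos.2 hne
  have hlow : ‖ζ‖ ≤ Complex.normSq (ζ + 1) := by
    have : Complex.normSq (ζ + 1) = ‖ζ‖ ^ 2 + 2 * ζ.re + 1 := by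
      rw [← Complex.normSq_eq_norm_sq, Complex.normSq_apply, Complex.normSq_apply]
      simp
      ring
    rw [this]
    nlinarith [sq_nonneg (‖ζ‖ - 1)]
  have hsq : ‖cayi ζ‖ ^ 2 + ‖2 * η / (ζ + 1)‖ ^ 2 =
      1 + 4 * (‖η‖ ^ 2 - ζ.re) / Complex.normSq (ζ + 1) := by
    rw [cayi, norm_div, norm_div, norm_mul, Complex.norm_two, div_pow, div_pow, mul_pow,
      ← Complex.normSq_eq_norm_sq (ζ + 1), ← Complex.normSq_eq_norm_sq (ζ - 1)]
    field_simp
    simp [Complex.normSq_apply]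
    ring
  have h1 : e * (‖η‖ ^ 2 / μ) ≤ e * (4 * ‖ζ‖ / μ) :=
    mul_le_mul_of_nonneg_left (div_le_div_of_nonneg_right hη4 hμ.le) he.le
  have h2 : e * (‖ζ‖ + 4 * ‖ζ‖ / μ) = e * (1 + 4 / μ) * ‖ζ‖ := by ring
  have h3 := mul_le_mul_of_nonneg_right he3 (norm_nonneg ζ)
  have h4 := mul_le_mul_of_nonneg_left hlow hε.le
  rw [hsq]
  have : 4 * (‖η‖ ^ 2 - ζ.re) / Complex.normSq (ζ + 1) ≤ ε := (div_le_iff₀ hN).2 (by linarith)
  linarith

/-- Scaling the ball into the coordinates of the normal form. -/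
def toModel (ν D : ℝ) (ω : EuclideanSpace ℂ (Fin 2)) : C2 :=
  ((D : ℂ) ^ 2 * cay (ω 0), (D : ℂ) / (ν : ℂ) * (ω 1 / (1 - ω 0)))

/-- The inverse scaling. -/
def ofModel (ν D : ℝ) (x : C2) : EuclideanSpace ℂ (Fin 2) :=
  (EuclideanSpace.equiv (Fin 2) ℂ).symm
    ![cayi (x.1 / (D : ℂ) ^ 2), 2 * ((ν : ℂ) / (D : ℂ) * x.2) / (x.1 / (D : ℂ) ^ 2 + 1)]

theorem ofModel_zero (ν D : ℝ) (x : C2) : ofModel ν D x 0 = cayi (x.1 / (D : ℂ) ^ 2) := rfl

theorem ofModel_one (ν D : ℝ) (x : C2) :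
    ofModel ν D x 1 = 2 * ((ν : ℂ) / (D : ℂ) * x.2) / (x.1 / (D : ℂ) ^ 2 + 1) := rfl

theorem ofModel_toModel {ν D : ℝ} (hν : ν ≠ 0) (hD : D ≠ 0) {ω : EuclideanSpace ℂ (Fin 2)}
    (hω : ‖ω‖ < 1) : ofModel ν D (toModel ν D ω) = ω := by
  have hlt : ‖ω 0‖ < 1 := (PiLp.norm_apply_le ω 0).trans_lt hω
  have hne : 1 - ω 0 ≠ 0 := one_sub_ne_zero hlt
  have e1 : cay (ω 0) + 1 = 2 / (1 - ω 0) := by rw [cay]; field_simp; ring
  have hD' : (D : ℂ) ≠ 0 := ofReal_ne_zero.2 hD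
  have hν' : (ν : ℂ) ≠ 0 := ofReal_ne_zero.2 hν
  ext i
  fin_cases i
  · show ofModel ν D (toModel ν D ω) 0 = ω 0
    simp only [ofModel_zero, toModel, mul_div_cancel_left₀ _ (pow_ne_zero 2 hD'), cayi_cay hlt]
  · show ofModel ν D (toModel ν D ω) 1 = ω 1
    simp only [ofModel_one, toModel, mul_div_cancel_left₀ _ (pow_ne_zero 2 hD'), e1]
    field_simp

theorem toModel_ofModel {ν D : ℝ} (hν : ν ≠ 0) (hD : D ≠ 0) {x : C2}
    (hne : x.1 / (D : ℂ) ^ 2 + 1 ≠ 0) : toModel ν D (ofModel ν D x) = x := by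
  have hD' : (D : ℂ) ≠ 0 := ofReal_ne_zero.2 hD
  have hν' : (ν : ℂ) ≠ 0 := ofReal_ne_zero.2 hν
  simp only [toModel, ofModel_zero, ofModel_one, cay_cayi hne]
  rw [show 1 - cayi (x.1 / (D : ℂ) ^ 2) = 2 / (x.1 / (D : ℂ) ^ 2 + 1) by
    rw [cayi, one_sub_div hne]; ring_nf]
  generalize hw : x.1 / (D : ℂ) ^ 2 + 1 = w at hne
  ext1
  · dsimp only
    rw [mul_div_cancel₀ _ (pow_ne_zero 2 hD')]
  · dsimp only
    field_simp

theorem differentiableAt_toModel (ν D : ℝ) {ω : EuclideanSpace ℂ (Fin 2)} (hω : ‖ω‖ < 1) :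
    DifferentiableAt ℂ (toModel ν D) ω := by
  have hne : 1 - ω 0 ≠ 0 := one_sub_ne_zero ((PiLp.norm_apply_le ω 0).trans_lt hω)
  have hp0 : DifferentiableAt ℂ (fun ω : EuclideanSpace ℂ (Fin 2) => ω 0) ω :=
    (differentiable_euclidean.1 differentiable_id 0) ω
  have hp1 : DifferentiableAt ℂ (fun ω : EuclideanSpace ℂ (Fin 2) => ω 1) ω :=
    (differentiable_euclidean.1 differentiable_id 1) ω
  unfold toModel
  simp only [cay, div_eq_mul_inv]
  exact (((hp0.const_add 1).mul ((hp0.const_sub 1).fun_inv hne)).const_mul _).prodMk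
    ((hp1.mul ((hp0.const_sub 1).fun_inv hne)).const_mul _)

theorem differentiableAt_ofModel (ν D : ℝ) {x : C2} (hne : x.1 / (D : ℂ) ^ 2 + 1 ≠ 0) :
    DifferentiableAt ℂ (ofModel ν D) x := by
  refine (EuclideanSpace.equiv (Fin 2) ℂ).symm.differentiableAt.comp x ?_
  have hu : DifferentiableAt ℂ (fun x : C2 => x.1 / (D : ℂ) ^ 2) x :=
    by simpa only [div_eq_mul_inv] using (differentiableAt_fst (𝕜 := ℂ) (p := x)).mul_const _
  refine differentiableAt_pi.2 fun i => ?_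
  fin_cases i
  · simp only [cayi, div_eq_mul_inv]
    exact (hu.sub_const 1).mul ((hu.add_const 1).fun_inv hne)
  · simp only [div_eq_mul_inv]
    exact ((differentiableAt_snd.const_mul _).const_mul 2).mul ((hu.add_const 1).fun_inv hne)

/-- Compact parts of the ball are scaled into the positive side. -/
theorem eventually_mapsTo_model {P : C2 → ℝ} {O : Set C2} {μ ν : ℝ} (hν : 0 < ν)
    (hνμ : ν ^ 2 = μ) (hO : O ∈ 𝓝 (0 : C2))
    (hest : ∀ ε > 0, ∀ᶠ x in 𝓝 (0 : C2),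
      |P x - x.1.re + μ * ‖x.2‖ ^ 2| ≤ ε * (‖x.1‖ + ‖x.2‖ ^ 2))
    {d : ℕ → ℝ} (hd0 : ∀ k, 0 < d k) (hdlim : Tendsto d atTop (𝓝 0)) {r : ℝ} (hr : r < 1) :
    ∀ᶠ k in atTop, MapsTo (toModel ν (d k)) (ball 0 r) {x | 0 < P x ∧ x ∈ O} := by
  rcases le_or_gt r 0 with hr0 | hr0
  · exact Eventually.of_forall fun k => by simp [ball_eq_empty.2 hr0, MapsTo]
  have hμ : 0 < μ := hνμ ▸ pow_pos hν 2
  set C := 2 / (1 - r) with hC
  have hr1 : 0 < 1 - r := by linarith
  have hC0 : 0 < C := by positivity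
  set e := (1 - r ^ 2) / 8 / (C + C ^ 2 / μ) with he
  have hnum : 0 < 1 - r ^ 2 := by nlinarith
  have he0 : 0 < e := by positivity
  obtain ⟨ρ, hρ, hball⟩ := Metric.eventually_nhds_iff.1
    ((eventually_mem_set.2 hO).and (hest e he0))
  have hsmall : ∀ᶠ k in atTop, d k ^ 2 * C < ρ ∧ d k / ν * C < ρ := by
    refine (((hdlim.pow 2).mul_const C).eventually_lt_const ?_).and
      (((hdlim.div_const ν).mul_const C).eventually_lt_const ?_) <;> simpa using hρ
  filter_upwards [hsmall] with k hk ω hω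
  have hωr : ‖ω‖ < r := mem_ball_zero_iff.1 hω
  have hω₀ := PiLp.norm_apply_le ω 0
  have hω₁ := PiLp.norm_apply_le ω 1
  have hne : 1 - ω 0 ≠ 0 := one_sub_ne_zero (by linarith)
  have hden : 1 - r ≤ ‖1 - ω 0‖ := by
    have := norm_sub_norm_le (1 : ℂ) (ω 0)
    rw [norm_one] at this
    linarith
  have hdenu : ‖1 - ω 0‖ ≤ 2 := (norm_sub_le _ _).trans (by rw [norm_one]; linarith)
  set ζ := cay (ω 0) with hζ
  set η := ω 1 / (1 - ω 0) with hη
  have hζC : ‖ζ‖ ≤ C := by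
    rw [hζ, cay, norm_div, hC]
    exact div_le_div₀ (by norm_num) ((norm_add_le _ _).trans (by rw [norm_one]; linarith))
      hr1 hden
  have hηC : ‖η‖ ≤ C := by
    rw [hη, norm_div, hC]
    exact div_le_div₀ (by norm_num) (by linarith) hr1 hden
  have hgap : (1 - r ^ 2) / 4 ≤ ζ.re - ‖η‖ ^ 2 := by
    have hsq : ‖ω‖ ^ 2 ≤ r ^ 2 := pow_le_pow_left₀ (norm_nonneg _) hωr.le 2
    have hN : 0 < Complex.normSq (1 - ω 0) := Complex.normSq_pos.2 hne
    have hN4 : Complex.normSq (1 - ω 0) ≤ 4 := by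
      rw [Complex.normSq_eq_norm_sq]
      exact (pow_le_pow_left₀ (norm_nonneg _) hdenu 2).trans (by norm_num)
    rw [hζ, hη, model_eq ω hne]
    exact div_le_div₀ (by linarith) (by linarith) hN hN4
  have hn1 : ‖(toModel ν (d k) ω).1‖ = d k ^ 2 * ‖ζ‖ := by
    simp only [toModel, ← hζ, norm_mul, norm_pow, Complex.norm_real,
      Real.norm_of_nonneg (hd0 k).le]
  have hn2 : ‖(toModel ν (d k) ω).2‖ = d k / ν * ‖η‖ := by
    simp only [toModel, ← hη, norm_mul, norm_div (d k : ℂ), Complex.norm_real,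
      Real.norm_of_nonneg (hd0 k).le, Real.norm_of_nonneg hν.le]
  obtain ⟨hmem, hbd⟩ := hball (show dist (toModel ν (d k) ω) 0 < ρ by
    rw [dist_zero_right, Prod.norm_def, hn1, hn2]
    refine max_lt (lt_of_le_of_lt ?_ hk.1) (lt_of_le_of_lt ?_ hk.2)
    · exact mul_le_mul_of_nonneg_left hζC (sq_nonneg _)
    · exact mul_le_mul_of_nonneg_left hηC (div_nonneg (hd0 k).le hν.le))
  refine ⟨?_, hmem⟩
  have hlow := (abs_le.1 hbd).1
  rw [hn1, hn2] at hlow
  have hre : (toModel ν (d k) ω).1.re = d k ^ 2 * ζ.re := by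
    simp only [toModel, ← hζ, ← ofReal_pow, re_ofReal_mul]
  have e1 : μ * (d k / ν * ‖η‖) ^ 2 = d k ^ 2 * ‖η‖ ^ 2 := by
    rw [← hνμ]; field_simp
  have e2 : (d k / ν * ‖η‖) ^ 2 = d k ^ 2 * (‖η‖ ^ 2 / μ) := by
    rw [← hνμ]; field_simp
  have e3 : e * (‖ζ‖ + ‖η‖ ^ 2 / μ) ≤ (1 - r ^ 2) / 4 / 2 := by
    refine (mul_le_mul_of_nonneg_left (add_le_add hζC (div_le_div_of_nonneg_right
      (pow_le_pow_left₀ (norm_nonneg _) hηC 2) hμ.le)) he0.le).trans (le_of_eq ?_)
    rw [he, div_mul_cancel₀ _ (ne_of_gt (show 0 < C + C ^ 2 / μ by positivity))]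
    ring
  rw [e1, hre, e2] at hlow
  exact scaled_pos (pow_pos (hd0 k) 2) (by linarith) hgap e3 hlow

/-- Points of the positive side go almost into the ball. -/
theorem norm_ofModel_le {P e μ ν D ε : ℝ} {x : C2} (hν : 0 < ν) (hνμ : ν ^ 2 = μ) (hD : 0 < D)
    (he : 0 < e) (he1 : e ≤ 1 / 2) (he2 : e ≤ μ / 2) (he3 : 4 * e * (1 + 4 / μ) ≤ ε) (hε : 0 < ε)
    (hP : 0 < P) (hest : |P - x.1.re + μ * ‖x.2‖ ^ 2| ≤ e * (‖x.1‖ + ‖x.2‖ ^ 2)) :
    x.1 / (D : ℂ) ^ 2 + 1 ≠ 0 ∧ ‖ofModel ν D x‖ ≤ 1 + ε := by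
  have hμ : 0 < μ := hνμ ▸ pow_pos hν 2
  have hup := (abs_le.1 hest).2
  have hD' : (D : ℂ) ≠ 0 := ofReal_ne_zero.2 hD.ne'
  set ζ := x.1 / (D : ℂ) ^ 2 with hζ
  set η := (ν : ℂ) / (D : ℂ) * x.2 with hη
  have z1 : x.1.re = D ^ 2 * ζ.re := by
    rw [← re_ofReal_mul, ofReal_pow, hζ, mul_div_cancel₀ _ (pow_ne_zero 2 hD')]
  have z2 : ‖x.1‖ = D ^ 2 * ‖ζ‖ := by
    rw [hζ, norm_div, norm_pow, Complex.norm_real, Real.norm_of_nonneg hD.le]
    field_simp
  have z3 : ‖x.2‖ ^ 2 = D ^ 2 * (‖η‖ ^ 2 / μ) := by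
    rw [hη, norm_mul, norm_div, Complex.norm_real, Complex.norm_real,
      Real.norm_of_nonneg hD.le, Real.norm_of_nonneg hν.le, ← hνμ]
    field_simp
  rw [z1, z2, z3] at hup
  have h3 : μ * (D ^ 2 * (‖η‖ ^ 2 / μ)) = D ^ 2 * ‖η‖ ^ 2 := by
    rw [mul_left_comm, mul_div_cancel₀ _ hμ.ne']
  have h2 : 0 ≤ D ^ 2 * (ζ.re - ‖η‖ ^ 2 + e * (‖ζ‖ + ‖η‖ ^ 2 / μ)) := by nlinarith
  obtain ⟨hne, hb⟩ := model_bound hμ he he1 he2 he3 hε
    (nonneg_of_mul_nonneg_right h2 (pow_pos hD 2))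
  refine ⟨hne, (pow_le_pow_iff_left₀ (norm_nonneg _) (by linarith) two_ne_zero).1 ?_⟩
  rw [norm_sq_two, ofModel_zero, ofModel_one, ← hζ, ← hη]
  exact hb.trans (by nlinarith)

theorem Sys.biholomorphic_of_levi (Ω : Sys) {R : MvPolynomial (Fin 4) ℝ} {q : C2}
    (h : RegPt Ω.U R q) (hL : pev (leviPoly R) q < 0) :
    Biholo Ω.U (ball (0 : EuclideanSpace ℂ (Fin 2)) 1) := by
  obtain ⟨Φ, Φi, hΦ, hΦi, hΦ0, hleft, hright, hest⟩ := exists_normal_form h.pev_eq_zero h.fderiv_ne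
  have hΦiq : Φi q = 0 := by rw [← hΦ0, hleft]
  have hΦt : Tendsto Φ (𝓝 0) (𝓝 q) := hΦ.continuous.tendsto' 0 q hΦ0
  have hΦit : Tendsto Φi (𝓝 q) (𝓝 0) := hΦi.continuous.tendsto' q 0 hΦiq
  set μ := -(pev (leviPoly R) q) / 4 with hμdef
  have hμ : 0 < μ := by rw [hμdef]; linarith
  set ν := Real.sqrt μ
  have hν0 : 0 < ν := Real.sqrt_pos.2 hμ
  have hνμ : ν ^ 2 = μ := Real.sq_sqrt hμ.le
  have hest' : ∀ ε > 0, ∀ᶠ x in 𝓝 (0 : C2),
      |pev R (Φ x) - x.1.re + μ * ‖x.2‖ ^ 2| ≤ ε * (‖x.1‖ + ‖x.2‖ ^ 2) := fun ε hε =>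
    (hest ε hε).mono fun x hx => by
      convert hx using 2
      rw [hμdef]; ring
  obtain ⟨O, hOsub, hOo, hqO⟩ := _root_.eventually_nhds_iff.1 h.local_eq
  set U' := {y | 0 < pev R y} ∩ O with hU'
  have hU'o : IsOpen U' := (isOpen_lt continuous_const (continuous_pev R)).inter hOo
  have hcl : closure U' ⊆ {y | 0 ≤ pev R y} :=
    closure_minimal (fun v (hv : 0 < pev R v ∧ v ∈ O) => show 0 ≤ pev R v from le_of_lt hv.1)
      (isClosed_le continuous_const (continuous_pev R))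
  set d : ℕ → ℝ := fun k => 1 / ((k : ℝ) + 1) with hd
  have hd0 : ∀ k, 0 < d k := fun k => by positivity
  have hdlim : Tendsto d atTop (𝓝 0) := tendsto_one_div_add_atTop_nhds_zero_nat
  set A : ℕ → EuclideanSpace ℂ (Fin 2) → C2 := fun k ω => Φ (toModel ν (d k) ω) with hA
  set B : ℕ → C2 → EuclideanSpace ℂ (Fin 2) := fun k y => ofModel ν (d k) (Φi y) with hB
  have hA' : ∀ r < 1, ∀ᶠ k in atTop, MapsTo (A k) (ball 0 r) U' := fun r hr =>
    (eventually_mapsTo_model (P := fun x => pev R (Φ x)) hν0 hνμ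
      (hΦt (hOo.mem_nhds hqO)) hest' hd0 hdlim hr).mono fun k hk ω hω => hk hω
  obtain ⟨k₀, hk₀⟩ := eventually_atTop.1 ((hA' (1 / 2) (by norm_num)).mono
    fun k hk => hk (mem_ball_self (by norm_num)))
  have hsh : Tendsto (fun k => k + k₀) atTop atTop := tendsto_add_atTop_nat k₀
  refine Ω.biholomorphic_of_scaling h.mem_frontier hOo hqO hU'o
    (fun y hy => ⟨(hOsub y hy.2).2 hy.1, hy.2⟩) ?_ (fun k => A (k + k₀) 0)
    (fun k => hk₀ _ (Nat.le_add_left _ _)) ?_ ?_ (fun k => A (k + k₀)) (fun k => B (k + k₀))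
    (fun k => rfl) ?_ ?_ ?_
  · rintro y ⟨hy, hyU, hyO⟩
    refine ⟨show 0 < pev R y from lt_of_le_of_ne (hcl hy) fun h0 => ?_, hyO⟩
    have hf := (hOsub y hyO).1.2 h0.symm
    rw [Ω.isOpen_U.frontier_eq] at hf
    exact hf.2 hyU
  · have h3 : Continuous fun D : ℝ => toModel ν D 0 := by
      unfold toModel
      fun_prop
    have h4 : toModel ν 0 0 = 0 := by simp [toModel]
    exact (hΦt.comp ((h3.tendsto' 0 0 h4).comp hdlim)).comp hsh
  · -- a limit into the frontier is constant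
    intro hh c r hr hd' hhc hmem
    set ε := min (1 / 2) (μ / 2)
    have hε : 0 < ε := lt_min (by norm_num) (by positivity)
    have hε1 : ε ≤ 1 / 2 := min_le_left _ _
    have hε2 : ε ≤ μ / 2 := min_le_right _ _
    have hgood : ∀ᶠ v in 𝓝 q, 0 ≤ pev R v →
        -(1 / 2) * ‖(Φi v).1‖ ≤ (Φi v).1.re ∧
          μ / 2 * ‖(Φi v).2‖ ^ 2 ≤ (Φi v).1.re + 1 / 2 * ‖(Φi v).1‖ := by
      filter_upwards [hΦit.eventually (hest' ε hε)] with v hv hv0
      rw [hright] at hv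
      have := (abs_le.1 hv).2
      have h1 := mul_le_mul_of_nonneg_right hε1 (norm_nonneg (Φi v).1)
      have h2 := mul_le_mul_of_nonneg_right hε2 (sq_nonneg ‖(Φi v).2‖)
      have h3 := mul_nonneg hμ.le (sq_nonneg ‖(Φi v).2‖)
      constructor <;> linarith
    obtain ⟨s, hs, hsub⟩ := Metric.mem_nhds_iff.1 (inter_mem (ball_mem_nhds c hr)
      ((hd'.continuousOn.continuousAt (ball_mem_nhds c hr)).preimage_mem_nhds
        (by rw [hhc]; exact hgood)))
    have hpt : ∀ y ∈ ball c s, -(1 / 2) * ‖(Φi (hh y)).1‖ ≤ (Φi (hh y)).1.re ∧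
          μ / 2 * ‖(Φi (hh y)).2‖ ^ 2 ≤ (Φi (hh y)).1.re + 1 / 2 * ‖(Φi (hh y)).1‖ := fun y hy =>
      (hsub hy).2 (hcl (hmem y (hsub hy).1).1)
    have hzero := eq_zero_of_re_ge (w := fun y => (Φi (hh y)).1)
      ((hΦi.comp_differentiableOn (hd'.mono fun y hy => (hsub hy).1)).fst)
      (by simp [hhc, hΦiq]) fun y hy => (hpt y hy).1
    filter_upwards [ball_mem_nhds c (half_pos hs)] with y hy
    have h1 := hzero y hy
    have h2 := (hpt y (ball_subset_ball (by linarith) hy)).2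
    rw [h1] at h2
    simp only [zero_re, norm_zero, mul_zero, add_zero] at h2
    have h3 : (Φi (hh y)).2 = 0 := norm_eq_zero.1 (pow_eq_zero_iff two_ne_zero |>.1
      (le_antisymm (nonpos_of_mul_nonpos_right h2 (by positivity)) (sq_nonneg _)))
    rw [← hright (hh y), show Φi (hh y) = 0 from Prod.ext h1 h3]
    exact hΦ0
  · intro r hr
    filter_upwards [hsh.eventually (hA' r hr)] with k hk
    exact ⟨fun ω hω => (hΦ.differentiableAt.comp ω (differentiableAt_toModel _ _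
      ((mem_ball_zero_iff.1 hω).trans hr))).differentiableWithinAt, hk⟩
  · intro r hr
    refine Eventually.of_forall fun k ω hω => ?_
    simp only [hA, hB, hleft]
    exact ofModel_toModel hν0.ne' (hd0 _).ne' ((mem_ball_zero_iff.1 hω).trans hr)
  · -- bounds for `B`
    intro ε hε
    set e := min (1 / 2) (min (μ / 2) (ε / (4 * (1 + 4 / μ))))
    have he : 0 < e := lt_min (by norm_num) (lt_min (by positivity) (by positivity))
    have he1 : e ≤ 1 / 2 := min_le_left _ _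
    have he2 : e ≤ μ / 2 := (min_le_right _ _).trans (min_le_left _ _)
    have he3 : 4 * e * (1 + 4 / μ) ≤ ε := by
      have := (le_div_iff₀ (show 0 < 4 * (1 + 4 / μ) by positivity)).1
        ((min_le_right _ _).trans (min_le_right _ _) : e ≤ ε / (4 * (1 + 4 / μ)))
      linarith
    obtain ⟨N', hN'sub, hN'o, hqN'⟩ := _root_.eventually_nhds_iff.1 (hΦit.eventually (hest' e he))
    refine ⟨N', hN'o, hqN', Eventually.of_forall fun k => ?_⟩
    have hkey : ∀ y ∈ U' ∩ N', (Φi y).1 / (d (k + k₀) : ℂ) ^ 2 + 1 ≠ 0 ∧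
        ‖B (k + k₀) y‖ ≤ 1 + ε := by
      intro y hy
      have hb := hN'sub y hy.2
      rw [hright] at hb
      exact norm_ofModel_le hν0 hνμ (hd0 _) he he1 he2 he3 hε hy.1.1 hb
    refine ⟨fun y hy => ((differentiableAt_ofModel _ _ (hkey y hy).1).comp y
      hΦi.differentiableAt).differentiableWithinAt, fun y hy => ⟨(hkey y hy).2, ?_⟩⟩
    simp only [hA, hB, toModel_ofModel hν0.ne' (hd0 _).ne' (hkey y hy).1]
    exact hright y

end

end Vale.Agent.P274.Surface
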