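import Vale.Agent.P274.Surface.Cover
import Vale.Agent.P274.Surface.Corner
import Vale.Agent.P274.Surface.Levi
import Mathlib.Topology.Algebra.ConstMulAction

/-!
Bounded semialgebraic domains in `ℂ²` with a properly discontinuous cocompact group of
biholomorphisms are balls or bidiscs.

A linear shear puts every hypersurface of the frontier in general position with respect to the
second axis. A regular point of negative Levi determinant gives the ball; otherwise all regular
pieces are Levi flat, and a corner gives the bidisc.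
-/

open Filter Metric Set Function Topology Complex

namespace Vale.Agent.P274.Surface

noncomputable section

namespace Main

theorem continuous_fderiv_pev (R : MvPolynomial (Fin 4) ℝ) : Continuous (fderiv ℝ (pev R)) :=
  (DenseReg.contDiff R).continuous_fderiv one_ne_zero

theorem exists_pderiv_ne_zero {R : MvPolynomial (Fin 4) ℝ} {z : C2}
    (h : fderiv ℝ (pev R) z ≠ 0) : ∃ i, MvPolynomial.pderiv i R ≠ 0 := by
  by_contra! h0
  refine h ?_
  rw [(DenseReg.hasFDerivAt R z).fderiv]
  simp [pev, h0]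

/-- A polynomial all whose regular frontier points are Levi flat divides its Levi determinant. -/
theorem dvd_leviPoly (Ω : Sys) {R : MvPolynomial (Fin 4) ℝ} (hR : Irreducible R) {q : C2}
    (h : RegPt Ω.U R q) (hflat : ∀ y, RegPt Ω.U R y → pev (leviPoly R) y = 0) :
    R ∣ leviPoly R := by
  by_contra hdvd
  have hO : ∀ᶠ y in 𝓝 q, (∀ᶠ u in 𝓝 y, (u ∈ frontier Ω.U ↔ pev R u = 0) ∧
      (0 < pev R u → u ∈ Ω.U)) ∧ fderiv ℝ (pev R) y ≠ 0 :=
    h.local_eq.eventually_nhds.and
      ((continuous_fderiv_pev R).continuousAt.eventually_ne h.fderiv_ne)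
  obtain ⟨y, hy, hy0, hyL⟩ := exists_zero_ne hR hdvd
    (h.local_eq.self_of_nhds.1.1 h.mem_frontier) h.fderiv_ne hO
  exact hyL (hflat y ⟨hy.1.self_of_nhds.1.2 hy0, hy.2, hy.1⟩)

/-! ### Shears -/

/-- The linear map `(z₁, z₂) ↦ (z₁ + c z₂, z₂)`. -/
def shearMap (c : ℝ) : C2 →L[ℂ] C2 :=
  (ContinuousLinearMap.fst ℂ ℂ ℂ + (c : ℂ) • ContinuousLinearMap.snd ℂ ℂ ℂ).prod
    (ContinuousLinearMap.snd ℂ ℂ ℂ)

theorem shearMap_apply (c : ℝ) (z : C2) : shearMap c z = (z.1 + (c : ℂ) * z.2, z.2) := by
  simp [shearMap]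

/-- The shear as an equivalence. -/
def shear (c : ℝ) : C2 ≃L[ℂ] C2 :=
  ContinuousLinearEquiv.equivOfInverse (shearMap c) (shearMap (-c))
    (fun z => by simp [shearMap_apply]) (fun z => by simp [shearMap_apply])

theorem shear_symm_apply (c : ℝ) (z : C2) : (shear c).symm z = shearMap (-c) z := rfl

theorem coord_shearMap (c : ℝ) (z : C2) :
    coord (shearMap c z) =
      ![coord z 0 + c * coord z 2, coord z 1 + c * coord z 3, coord z 2, coord z 3] := by
  funext i
  fin_cases i <;> simp [coord, shearMap_apply]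

/-- The substitution dual to the shear. -/
def shearVars (c : ℝ) : Fin 4 → MvPolynomial (Fin 4) ℝ :=
  ![MvPolynomial.X 0 + MvPolynomial.C c * MvPolynomial.X 2,
    MvPolynomial.X 1 + MvPolynomial.C c * MvPolynomial.X 3, MvPolynomial.X 2, MvPolynomial.X 3]

theorem pev_aeval (c : ℝ) (R : MvPolynomial (Fin 4) ℝ) (z : C2) :
    pev (MvPolynomial.aeval (shearVars c) R) z = pev R (shearMap c z) := by
  induction R using MvPolynomial.induction_on with
  | C a => simp [pev]
  | add p q hp hq => simp only [pev, map_add] at hp hq ⊢; rw [hp, hq]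
  | mul_X p i hp =>
    simp only [pev, map_mul, MvPolynomial.aeval_X, MvPolynomial.eval_X] at hp ⊢
    rw [hp, coord_shearMap]
    congr 1
    fin_cases i <;> simp [shearVars]

/-- The substitution dual to the shear, as an automorphism. -/
def sigma (c : ℝ) : MvPolynomial (Fin 4) ℝ ≃ₐ[ℝ] MvPolynomial (Fin 4) ℝ :=
  AlgEquiv.ofAlgHom (MvPolynomial.aeval (shearVars (-c))) (MvPolynomial.aeval (shearVars c))
    (by
      refine MvPolynomial.algHom_ext fun i => ?_
      fin_cases i <;> simp [shearVars])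
    (by
      refine MvPolynomial.algHom_ext fun i => ?_
      fin_cases i <;> simp [shearVars])

theorem sigma_apply (c : ℝ) (R : MvPolynomial (Fin 4) ℝ) :
    sigma c R = MvPolynomial.aeval (shearVars (-c)) R := rfl

theorem pev_sigma (c : ℝ) (R : MvPolynomial (Fin 4) ℝ) :
    pev (sigma c R) = pev R ∘ (shear c).symm :=
  funext fun z => by rw [sigma_apply, pev_aeval, comp_apply, shear_symm_apply]

theorem pderiv_sigma (c : ℝ) (R : MvPolynomial (Fin 4) ℝ) :
    MvPolynomial.pderiv 2 (sigma c R) =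
        sigma c (MvPolynomial.pderiv 2 R - MvPolynomial.C c * MvPolynomial.pderiv 0 R) ∧
      MvPolynomial.pderiv 3 (sigma c R) =
        sigma c (MvPolynomial.pderiv 3 R - MvPolynomial.C c * MvPolynomial.pderiv 1 R) := by
  simp only [sigma_apply]
  induction R using MvPolynomial.induction_on with
  | C a => simp
  | add p q hp hq =>
    simp only [map_add, hp.1, hp.2, hq.1, hq.2, map_sub, map_mul]
    constructor <;> ring
  | mul_X p i hp =>
    simp only [map_mul, map_sub, MvPolynomial.aeval_X, MvPolynomial.pderiv_mul, hp.1, hp.2,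
      map_add, MvPolynomial.aeval_C]
    constructor <;> fin_cases i <;>
      simp [shearVars, MvPolynomial.pderiv_X] <;> ring

/-- The shears putting a hypersurface in special position. -/
def badShear (R : MvPolynomial (Fin 4) ℝ) : Set ℝ :=
  {c | (∃ i, MvPolynomial.pderiv i R ≠ 0) ∧
    MvPolynomial.pderiv 2 (sigma c R) = 0 ∧ MvPolynomial.pderiv 3 (sigma c R) = 0}

theorem badShear_subsingleton (R : MvPolynomial (Fin 4) ℝ) : (badShear R).Subsingleton := by
  rintro a ⟨⟨i, hi⟩, ha2, ha3⟩ b ⟨-, hb2, hb3⟩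
  rw [(pderiv_sigma a R).1, map_eq_zero_iff _ (sigma a).injective, sub_eq_zero] at ha2
  rw [(pderiv_sigma a R).2, map_eq_zero_iff _ (sigma a).injective, sub_eq_zero] at ha3
  rw [(pderiv_sigma b R).1, map_eq_zero_iff _ (sigma b).injective, sub_eq_zero] at hb2
  rw [(pderiv_sigma b R).2, map_eq_zero_iff _ (sigma b).injective, sub_eq_zero] at hb3
  by_contra hab
  have key : ∀ {j k : Fin 4}, MvPolynomial.pderiv k R = MvPolynomial.C a * MvPolynomial.pderiv j R →
      MvPolynomial.pderiv k R = MvPolynomial.C b * MvPolynomial.pderiv j R →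
      MvPolynomial.pderiv j R = 0 ∧ MvPolynomial.pderiv k R = 0 := by
    intro j k h1 h2
    have h : MvPolynomial.C (a - b) * MvPolynomial.pderiv j R = 0 := by
      rw [map_sub, sub_mul, ← h1, ← h2, sub_self]
    have hj : MvPolynomial.pderiv j R = 0 :=
      (mul_eq_zero.1 h).resolve_left (by simp [sub_eq_zero, hab])
    exact ⟨hj, by rw [h1, hj, mul_zero]⟩
  obtain ⟨h0, h2⟩ := key ha2 hb2
  obtain ⟨h1, h3⟩ := key ha3 hb3
  fin_cases i <;> contradiction

/-! ### Transport along linear maps -/

/-- The image of a system under a linear equivalence. -/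
def mapSys (Ω : Sys) (L : C2 ≃L[ℂ] C2) : Sys where
  U := L.symm ⁻¹' Ω.U
  isOpen_U := Ω.isOpen_U.preimage L.symm.continuous
  preconnected_U := by
    rw [← L.image_eq_preimage_symm]
    exact Ω.preconnected_U.image _ L.continuous.continuousOn
  nonempty_U := Ω.nonempty_U.preimage L.symm.surjective
  bounded_U := by
    rw [← L.image_eq_preimage_symm]
    exact L.lipschitz.isBounded_image Ω.bounded_U
  G := Ω.G
  act g z := L (Ω.act g (L.symm z))
  back g z := L (Ω.back g (L.symm z))
  maps g z hz := by simpa using Ω.maps g hz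
  maps_back g z hz := by simpa using Ω.maps_back g hz
  diff g := L.differentiable.comp_differentiableOn
    ((Ω.diff g).comp L.symm.differentiable.differentiableOn fun _ h => h)
  diff_back g := L.differentiable.comp_differentiableOn
    ((Ω.diff_back g).comp L.symm.differentiable.differentiableOn fun _ h => h)
  back_act g z hz := by simp [Ω.back_act g _ hz]
  act_back g z hz := by simp [Ω.act_back g _ hz]
  finite K K' hK hK' hKU hKU' := by
    refine (Ω.finite (L.symm '' K) (L.symm '' K') (hK.image L.symm.continuous)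
      (hK'.image L.symm.continuous) (image_subset_iff.2 hKU) (image_subset_iff.2 hKU')).subset ?_
    rintro g ⟨z, hz, hgz⟩
    exact ⟨L.symm z, mem_image_of_mem _ hz, _, hgz, by simp⟩
  K := L '' Ω.K
  compact_K := Ω.compact_K.image L.continuous
  K_subset := by
    rintro _ ⟨z, hz, rfl⟩
    simpa using Ω.K_subset hz
  cover z hz := by
    obtain ⟨g, hg⟩ := Ω.cover _ hz
    exact ⟨g, mem_image_of_mem _ hg⟩

theorem frontier_map (Ω : Sys) (L : C2 ≃L[ℂ] C2) :
    frontier (mapSys Ω L).U = L.symm ⁻¹' frontier Ω.U :=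
  (L.symm.toHomeomorph.preimage_frontier Ω.U).symm

theorem fderiv_pev_sigma (c : ℝ) (R : MvPolynomial (Fin 4) ℝ) (y : C2) :
    fderiv ℝ (pev (sigma c R)) y = (fderiv ℝ (pev R) ((shear c).symm y)).comp
      ((shear c).symm.restrictScalars ℝ : C2 →L[ℝ] C2) := by
  rw [pev_sigma]
  exact ((shear c).symm.restrictScalars ℝ).comp_right_fderiv (f := pev R) (x := y)

theorem regPt_map (Ω : Sys) {c : ℝ} {R : MvPolynomial (Fin 4) ℝ} {y : C2}
    (h : RegPt Ω.U R y) : RegPt (mapSys Ω (shear c)).U (sigma c R) (shear c y) where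
  mem_frontier := by rw [frontier_map]; simpa using h.mem_frontier
  fderiv_ne := by
    rw [fderiv_pev_sigma, ContinuousLinearEquiv.symm_apply_apply]
    intro h0
    refine h.fderiv_ne (ContinuousLinearMap.ext fun v => ?_)
    simpa using DFunLike.congr_fun h0 (shear c v)
  local_eq := by
    have := ((shear c).symm.continuous.tendsto (shear c y)).eventually
      (p := fun u => (u ∈ frontier Ω.U ↔ pev R u = 0) ∧ (0 < pev R u → u ∈ Ω.U))
      (by rw [ContinuousLinearEquiv.symm_apply_apply]; exact h.local_eq)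
    rw [frontier_map, pev_sigma]
    exact this

theorem signConst_map (Ω : Sys) (c : ℝ) {F : Finset (MvPolynomial (Fin 4) ℝ)}
    (h : SignConst Ω.U F) : SignConst (mapSys Ω (shear c)).U (F.image (sigma c)) := by
  intro S hS y hy hd hother
  obtain ⟨R, hR, rfl⟩ := Finset.mem_image.1 hS
  have := h R hR ((shear c).symm y) (by rwa [pev_sigma] at hy)
    (fun h0 => hd (by rw [fderiv_pev_sigma, h0, ContinuousLinearMap.zero_comp]))
    fun R' hR' hn => by
      have := hother _ (Finset.mem_image_of_mem _ hR') fun ha => hn (by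
        simpa using ha.map (sigma c).symm)
      rwa [pev_sigma] at this
  rw [frontier_map, pev_sigma]
  exact ((shear c).symm.continuous.tendsto y).eventually this

theorem biholo_of_map {Y : Type*} [NormedAddCommGroup Y] [NormedSpace ℂ Y] {Ω : Sys}
    {L : C2 ≃L[ℂ] C2} {V : Set Y} (h : Biholo (mapSys Ω L).U V) : Biholo Ω.U V := by
  obtain ⟨F, G, hF, hFm, hG, hGm, hGF, hFG⟩ := h
  have hL : MapsTo L Ω.U (mapSys Ω L).U := fun z hz => by
    change L.symm (L z) ∈ Ω.U
    simpa using hz
  refine ⟨F ∘ L, L.symm ∘ G, hF.comp L.differentiable.differentiableOn hL, hFm.comp hL,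
    L.symm.differentiable.comp_differentiableOn hG, fun w hw => hGm hw, fun z hz => ?_,
    fun w hw => ?_⟩
  · simp [hGF _ (hL hz)]
  · simp [hFG w hw]

end Main

open Main in
/-- A system with semialgebraic domain is a ball or a bidisc. -/
theorem Sys.ball_or_bidisc (Ω : Sys) (hSA : IsSA Ω.U) :
    Biholo Ω.U (ball (0 : EuclideanSpace ℂ (Fin 2)) 1) ∨ Biholo Ω.U (ball (0 : C2) 1) := by
  classical
  obtain ⟨F, hirr, hsign, hdense⟩ := Ω.dense_regular hSA
  obtain ⟨c, hc⟩ := ((F.finite_toSet.biUnion fun R _ =>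
    (badShear_subsingleton R).finite).infinite_compl (α := ℝ)).nonempty
  set Ω' := mapSys Ω (shear c)
  by_cases hlev : ∃ R y, RegPt Ω'.U R y ∧ pev (leviPoly R) y < 0
  · obtain ⟨R, y, hy, hL⟩ := hlev
    exact Or.inl (biholo_of_map (Ω'.biholomorphic_of_levi hy hL))
  push Not at hlev
  have hirr' : ∀ R ∈ F.image (sigma c), Irreducible R := by
    simp only [Finset.forall_mem_image]
    exact fun R hR => (MulEquiv.irreducible_iff (sigma c)).2 (hirr R hR)
  have hdense' : ∀ q ∈ frontier Ω'.U, ∀ O ∈ 𝓝 q,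
      ∃ y ∈ O, ∃ R ∈ F.image (sigma c), RegPt Ω'.U R y := by
    intro q hq O hO
    rw [frontier_map] at hq
    obtain ⟨y, hyO, R, hR, hy⟩ := hdense _ hq (shear c ⁻¹' O)
      ((shear c).continuous.continuousAt.preimage_mem_nhds (by simpa using hO))
    exact ⟨shear c y, hyO, sigma c R, Finset.mem_image_of_mem _ hR, regPt_map Ω hy⟩
  have hflat : ∀ S ∈ F.image (sigma c), (∃ y, RegPt Ω'.U S y) → S ∣ leviPoly S ∧
      (MvPolynomial.pderiv 2 S ≠ 0 ∨ MvPolynomial.pderiv 3 S ≠ 0) := by
    intro S hS hreg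
    obtain ⟨R, hR, rfl⟩ := Finset.mem_image.1 hS
    obtain ⟨y, hy⟩ := hreg
    refine ⟨dvd_leviPoly Ω' (hirr' _ hS) hy fun u hu =>
      le_antisymm (Ω'.levi_nonpos hu) (hlev _ u hu), ?_⟩
    have hne : ∃ i, MvPolynomial.pderiv i R ≠ 0 := by
      refine Main.exists_pderiv_ne_zero (z := (shear c).symm y) fun h0 => hy.fderiv_ne ?_
      rw [fderiv_pev_sigma, h0, ContinuousLinearMap.zero_comp]
    by_contra! h
    exact hc (mem_biUnion hR ⟨hne, h⟩)
  obtain ⟨W⟩ := Ω'.exists_web hirr' hdense' (signConst_map Ω c hsign) hflat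
  obtain ⟨K⟩ := Ω'.exists_corner W
  exact Or.inr (biholo_of_map (Ω'.biholomorphic_of_corner K))

/-- Let `U` be a bounded semialgebraic domain in `ℂ²`. If a group acts on `U` by biholomorphisms
properly discontinuously with compact quotient, then `U` is biholomorphic to the ball or to the
bidisc. -/
theorem ball_or_bidisc (U : Set C2) (hUo : IsOpen U) (hUc : IsConnected U)
    (hUb : Bornology.IsBounded U) (hSA : IsSA U)
    (Γ : Type) [Group Γ] [MulAction Γ ↥U] [ProperlyDiscontinuousSMul Γ ↥U]
    [CompactSpace (Quotient (MulAction.orbitRel Γ ↥U))]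
    (hhol : ∀ g : Γ, ∃ A : C2 → C2,
      DifferentiableOn ℂ A U ∧ ∀ z : ↥U, A z = ((g • z : ↥U) : C2)) :
    Biholo U (ball (0 : EuclideanSpace ℂ (Fin 2)) 1) ∨ Biholo U (ball (0 : C2) 1) := by
  classical
  choose A hA hAeq using hhol
  have hcont : ∀ g : Γ, Continuous fun z : ↥U => g • z := by
    intro g
    have h1 : Continuous fun z : ↥U => A g (z : C2) :=
      continuousOn_iff_continuous_domRestrict.1 (hA g).continuousOn
    exact continuous_induced_rng.2 (h1.congr fun z => hAeq g z)
  have : ContinuousConstSMul Γ ↥U := ⟨hcont⟩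
  -- a compact set meeting every orbit
  have hball : ∀ z : ↥U, ∃ r > 0, closedBall (z : C2) r ⊆ U := fun z =>
    Metric.nhds_basis_closedBall.mem_iff.1 (hUo.mem_nhds z.2)
  choose r hr hrU using hball
  set B : ↥U → Set ↥U := fun z => Subtype.val ⁻¹' ball (z : C2) (r z)
  let π : ↥U → Quotient (MulAction.orbitRel Γ ↥U) := Quotient.mk''
  have hopen : ∀ z, IsOpen (π '' B z) := fun z =>
    isOpenMap_quotient_mk'_mul _ (isOpen_ball.preimage continuous_subtype_val)
  obtain ⟨t, ht⟩ := isCompact_univ.elim_finite_subcover (fun z => π '' B z) hopen fun q _ => by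
    induction q using Quotient.inductionOn' with
    | h z => exact mem_iUnion.2 ⟨z, z, mem_ball_self (hr z), rfl⟩
  let Ω : Sys :=
    { U := U
      isOpen_U := hUo
      preconnected_U := hUc.isPreconnected
      nonempty_U := hUc.nonempty
      bounded_U := hUb
      G := Γ
      act := fun g => A g
      back := fun g => A g⁻¹
      maps := fun g z hz => by rw [hAeq g ⟨z, hz⟩]; exact (g • (⟨z, hz⟩ : ↥U)).2
      maps_back := fun g z hz => by rw [hAeq g⁻¹ ⟨z, hz⟩]; exact (g⁻¹ • (⟨z, hz⟩ : ↥U)).2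
      diff := fun g => hA g
      diff_back := fun g => hA g⁻¹
      back_act := fun g z hz => by
        rw [hAeq g ⟨z, hz⟩, hAeq g⁻¹, inv_smul_smul]
      act_back := fun g z hz => by
        rw [hAeq g⁻¹ ⟨z, hz⟩, hAeq g, smul_inv_smul]
      finite := fun K L hK hL hKU hLU => by
        have hsub : ∀ K : Set C2, IsCompact K → K ⊆ U →
            IsCompact (Subtype.val ⁻¹' K : Set ↥U) := fun K hK hKU => by
          rw [Subtype.isCompact_iff, Subtype.image_preimage_coe, inter_eq_right.2 hKU]
          exact hK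
        refine (ProperlyDiscontinuousSMul.finite_disjoint_inter_image (Γ := Γ)
          (hsub K hK hKU) (hsub L hL hLU)).subset ?_
        rintro g ⟨z, hz, hgz⟩
        refine ⟨g • ⟨z, hKU hz⟩, ⟨⟨z, hKU hz⟩, hz, rfl⟩, ?_⟩
        rw [mem_preimage, ← hAeq g ⟨z, hKU hz⟩]
        exact hgz
      K := ⋃ z ∈ t, closedBall (z : C2) (r z)
      compact_K := t.isCompact_biUnion fun z _ => isCompact_closedBall _ _
      K_subset := iUnion₂_subset fun z _ => hrU z
      cover := fun z hz => by
        obtain ⟨a, hat, w, hw, hwz⟩ := mem_iUnion₂.1 (ht (mem_univ (π ⟨z, hz⟩)))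
        obtain ⟨g, hg⟩ : w ∈ MulAction.orbit Γ (⟨z, hz⟩ : ↥U) :=
          MulAction.orbitRel_apply.1 (Quotient.exact' hwz)
        refine ⟨g, mem_biUnion hat ?_⟩
        rw [hAeq g ⟨z, hz⟩]
        exact ball_subset_closedBall ((congrArg Subtype.val hg).symm ▸ hw) }
  exact Ω.ball_or_bidisc hSA

end

end Vale.Agent.P274.Surface
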