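import Vale.Agent.P274.Surface.Holo

/-!
Bounded domains in `ℂ²` with a properly discontinuous cocompact family of biholomorphisms:
limits of automorphisms at a boundary point, and the extension obstruction.
-/

open Filter Metric Set Function Topology

namespace Vale.Agent.P274.Surface

noncomputable section

/-- The affine plane. -/
abbrev C2 : Type := ℂ × ℂ

/-- A bounded domain in `ℂ²` with a properly discontinuous cocompact family of biholomorphisms. -/
structure Sys where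
  U : Set C2
  isOpen_U : IsOpen U
  preconnected_U : IsPreconnected U
  nonempty_U : U.Nonempty
  bounded_U : Bornology.IsBounded U
  G : Type
  act : G → C2 → C2
  back : G → C2 → C2
  maps : ∀ g, MapsTo (act g) U U
  maps_back : ∀ g, MapsTo (back g) U U
  diff : ∀ g, DifferentiableOn ℂ (act g) U
  diff_back : ∀ g, DifferentiableOn ℂ (back g) U
  back_act : ∀ g, ∀ z ∈ U, back g (act g z) = z
  act_back : ∀ g, ∀ z ∈ U, act g (back g z) = z
  finite : ∀ K L : Set C2, IsCompact K → IsCompact L → K ⊆ U → L ⊆ U →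
    {g | ∃ z ∈ K, act g z ∈ L}.Finite
  K : Set C2
  compact_K : IsCompact K
  K_subset : K ⊆ U
  cover : ∀ z ∈ U, ∃ g, act g z ∈ K

variable (Ω : Sys)

/-- A point which is the limit of translates of points of a compact set by finitely many maps is
in `U`. -/
theorem Sys.mem_U_of_tendsto {y : ℕ → C2} {e : ℕ → C2} {yl el : C2}
    (hy : ∀ᶠ k in atTop, y k ∈ Ω.U) (he : Tendsto e atTop (𝓝 el))
    (hel : el ∈ Ω.U) (hyl : Tendsto y atTop (𝓝 yl)) {K' : Set C2} (hK' : IsCompact K')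
    (hK'U : K' ⊆ Ω.U)
    (hnear : ∀ᶠ k in atTop, ∀ g, Ω.act g (y k) ∈ Ω.K → Ω.act g (e k) ∈ K') : yl ∈ Ω.U := by
  obtain ⟨r, hr, hrU⟩ := Metric.nhds_basis_closedBall.mem_iff.1 (Ω.isOpen_U.mem_nhds hel)
  have hfin := Ω.finite (closedBall el r) K' (isCompact_closedBall _ _) hK' hrU hK'U
  set Sg := {g | ∃ z ∈ closedBall el r, Ω.act g z ∈ K'}
  set T := ⋃ g ∈ Sg, Ω.back g '' Ω.K with hT
  have hTc : IsCompact T := hfin.isCompact_biUnion fun g _ =>
    Ω.compact_K.image_of_continuousOn ((Ω.diff_back g).continuousOn.mono Ω.K_subset)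
  have hTU : T ⊆ Ω.U := iUnion₂_subset fun g _ =>
    ((Ω.maps_back g).mono_left Ω.K_subset).image_subset
  refine hTU (hTc.isClosed.mem_of_tendsto hyl ?_)
  filter_upwards [hy, hnear, he.eventually_mem (closedBall_mem_nhds el hr)] with k hk hkn hke
  obtain ⟨g, hg⟩ := Ω.cover _ hk
  exact mem_biUnion (show g ∈ Sg from ⟨e k, hke, hkn g hg⟩) ⟨_, hg, Ω.back_act g _ hk⟩

/-- The data of a limit of automorphisms at a boundary point `q`: `back (g k)` carries the base
points `act (g k) (z k) → c` to `z k → q` and tends to `lim` locally uniformly. -/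
structure Sys.Limit (q : C2) (z : ℕ → C2) where
  φ : ℕ → ℕ
  strictMono : StrictMono φ
  g : ℕ → Ω.G
  c : C2
  c_mem : c ∈ Ω.U
  lim : C2 → C2
  tendsto_c : Tendsto (fun k => Ω.act (g k) (z (φ k))) atTop (𝓝 c)
  tendsto_lim : TendstoLocallyUniformlyOn (fun k => Ω.back (g k)) lim atTop Ω.U
  diff_lim : DifferentiableOn ℂ lim Ω.U
  lim_c : lim c = q
  maps_lim : ∀ y ∈ Ω.U, lim y ∈ frontier Ω.U

theorem Sys.exists_bound : ∃ R, 0 < R ∧ ∀ z ∈ Ω.U, ‖z‖ ≤ R := by
  obtain ⟨R, hR⟩ := Ω.bounded_U.exists_norm_le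
  exact ⟨|R| + 1, by positivity, fun z hz => (hR z hz).trans ((le_abs_self R).trans (by linarith))⟩

/-- Automorphisms pushing a base point to a boundary point have a limit into the boundary. -/
theorem Sys.exists_limit {q : C2} (hq : q ∈ frontier Ω.U) {z : ℕ → C2} (hzU : ∀ k, z k ∈ Ω.U)
    (hz : Tendsto z atTop (𝓝 q)) : Nonempty (Ω.Limit q z) := by
  have hqU : q ∉ Ω.U := by
    rw [Ω.isOpen_U.frontier_eq] at hq; exact hq.2
  choose γ hγ using fun k => Ω.cover _ (hzU k)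
  obtain ⟨c, hcK, φ₁, hφ₁, hc⟩ := Ω.compact_K.tendsto_subseq hγ
  have hcU := Ω.K_subset hcK
  obtain ⟨R, hR0, hR⟩ := Ω.exists_bound
  obtain ⟨φ₂, hφ₂, G, hGd, hGl⟩ := montel Ω.isOpen_U (fun k => Ω.back (γ (φ₁ k))) fun y hy => by
    obtain ⟨r, hr, hrU⟩ := Metric.isOpen_iff.1 Ω.isOpen_U y hy
    exact ⟨r, hr, R, Eventually.of_forall fun k =>
      ⟨(Ω.diff_back _).mono hrU, fun v hv => hR _ (Ω.maps_back _ (hrU hv))⟩⟩
  have hc' : Tendsto (fun k => Ω.act (γ (φ₁ (φ₂ k))) (z (φ₁ (φ₂ k)))) atTop (𝓝 c) :=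
    hc.comp hφ₂.tendsto_atTop
  have hGc : G c = q := by
    refine tendsto_nhds_unique (hGl.tendsto_comp (hGd.continuousOn c hcU) hcU
      (tendsto_nhdsWithin_iff.2 ⟨hc', hc'.eventually_mem (Ω.isOpen_U.mem_nhds hcU)⟩)) ?_
    exact ((hz.comp (hφ₁.comp hφ₂).tendsto_atTop)).congr fun k => (Ω.back_act _ _ (hzU _)).symm
  refine ⟨⟨φ₁ ∘ φ₂, hφ₁.comp hφ₂, fun k => γ (φ₁ (φ₂ k)), c, hcU, G, hc', hGl, hGd, hGc,
    fun y hy => ?_⟩⟩
  have hy' : Tendsto (fun k => Ω.back (γ (φ₁ (φ₂ k))) y) atTop (𝓝 (G y)) := hGl.tendsto_at hy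
  rw [Ω.isOpen_U.frontier_eq]
  refine ⟨mem_closure_of_tendsto hy' (Eventually.of_forall fun k => Ω.maps_back _ hy), fun hGy => ?_⟩
  -- otherwise finitely many maps would be involved
  obtain ⟨r, hr, hrU⟩ := Metric.nhds_basis_closedBall.mem_iff.1 (Ω.isOpen_U.mem_nhds hGy)
  have hfin := Ω.finite (closedBall (G y) r) {y} (isCompact_closedBall _ _) isCompact_singleton hrU
    (singleton_subset_iff.2 hy)
  set T := ⋃ g ∈ {g | ∃ w ∈ closedBall (G y) r, Ω.act g w ∈ ({y} : Set C2)},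
    Ω.back g '' closedBall c (0 : ℝ) with hT
  obtain ⟨ε, hε, hεU⟩ := Metric.nhds_basis_closedBall.mem_iff.1 (Ω.isOpen_U.mem_nhds hcU)
  have hmem : ∀ᶠ k in atTop, z (φ₁ (φ₂ k)) ∈
      ⋃ g ∈ {g | ∃ w ∈ closedBall (G y) r, Ω.act g w ∈ ({y} : Set C2)},
        Ω.back g '' closedBall c ε := by
    filter_upwards [hy'.eventually_mem (closedBall_mem_nhds _ hr),
      hc'.eventually_mem (closedBall_mem_nhds _ hε)] with k hk hk'
    exact mem_biUnion (show γ (φ₁ (φ₂ k)) ∈ _ from ⟨_, hk, Ω.act_back _ _ hy⟩)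
      ⟨_, hk', Ω.back_act _ _ (hzU _)⟩
  have hcl : IsCompact (⋃ g ∈ {g | ∃ w ∈ closedBall (G y) r, Ω.act g w ∈ ({y} : Set C2)},
      Ω.back g '' closedBall c ε) := hfin.isCompact_biUnion fun g _ =>
    (isCompact_closedBall c ε).image_of_continuousOn ((Ω.diff_back g).continuousOn.mono hεU)
  have hqT := hcl.isClosed.mem_of_tendsto (hz.comp (hφ₁.comp hφ₂).tendsto_atTop) hmem
  obtain ⟨g, -, w, hw, rfl⟩ := mem_iUnion₂.1 hqT
  exact hqU (Ω.maps_back g (hεU hw))

/-- Bounded holomorphic functions do not extend across a boundary point: if on a part `U'` of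
`U` near `q`, closed in `U ∩ N`, every automorphism continues holomorphically and uniformly
boundedly to the neighbourhood `N` of `q`, we have a contradiction. -/
theorem Sys.no_extension {q : C2} (hq : q ∈ frontier Ω.U) {N U' : Set C2} (hN : IsOpen N)
    (hqN : q ∈ N) (hU' : IsOpen U') (hU'sub : U' ⊆ Ω.U ∩ N) (hqU' : q ∈ closure U')
    (hclosed : closure U' ∩ (Ω.U ∩ N) ⊆ U') {M : ℝ}
    (hext : ∀ g, ∃ H : C2 → C2, DifferentiableOn ℂ H N ∧ EqOn H (Ω.act g) U' ∧
      ∀ y ∈ N, ‖H y‖ ≤ M) : False := by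
  obtain ⟨z, hz, hzq⟩ := mem_closure_iff_seq_limit.1 hqU'
  obtain ⟨L⟩ := Ω.exists_limit hq (fun k => (hU'sub (hz k)).1) hzq
  choose H hHd hHe hHb using hext
  obtain ⟨φ, hφ, Hl, hHld, hHll⟩ := montel hN (fun k => H (L.g k)) fun y hy => by
    obtain ⟨r, hr, hrN⟩ := Metric.isOpen_iff.1 hN y hy
    exact ⟨r, hr, M, Eventually.of_forall fun k =>
      ⟨(hHd _).mono hrN, fun v hv => hHb _ _ (hrN hv)⟩⟩
  obtain ⟨δ, hδ, hδU⟩ := Metric.isOpen_iff.1 Ω.isOpen_U L.c L.c_mem
  have hGc : ContinuousAt L.lim L.c :=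
    L.diff_lim.continuousOn.continuousAt (Ω.isOpen_U.mem_nhds L.c_mem)
  obtain ⟨δ₁, hδ₁, hδ₁N⟩ := Metric.mem_nhds_iff.1
    (hGc.preimage_mem_nhds (hN.mem_nhds (by rw [L.lim_c]; exact hqN)))
  obtain ⟨e, he, heδ, heδ₁⟩ : ∃ e > 0, e < δ ∧ e < δ₁ :=
    ⟨min δ δ₁ / 2, by positivity, by linarith [min_le_left δ δ₁], by linarith [min_le_right δ δ₁]⟩
  have hBU : closedBall L.c e ⊆ Ω.U := (closedBall_subset_ball heδ).trans hδU
  obtain ⟨η, hη, hηN⟩ := ((isCompact_closedBall L.c e).image_of_continuousOn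
    (L.diff_lim.continuousOn.mono hBU)).exists_thickening_subset_open hN (by
      rintro _ ⟨y, hy, rfl⟩
      exact hδ₁N (closedBall_subset_ball heδ₁ hy))
  have hunif := Metric.tendstoUniformlyOn_iff.1
    ((tendstoLocallyUniformlyOn_iff_tendstoUniformlyOn_of_compact (isCompact_closedBall L.c e)).1
      (L.tendsto_lim.mono hBU)) η hη
  have hkey : ∀ᶠ k in atTop, ∀ y ∈ ball L.c e, Ω.back (L.g k) y ∈ U' := by
    filter_upwards [hunif, L.tendsto_c.eventually_mem (ball_mem_nhds _ he)] with k hk hkc y hy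
    set T := Ω.back (L.g k) '' ball L.c e
    have hTsub : T ⊆ Ω.U ∩ N := by
      rintro _ ⟨w, hw, rfl⟩
      refine ⟨Ω.maps_back _ (hBU (ball_subset_closedBall hw)), hηN ?_⟩
      rw [mem_thickening_iff]
      exact ⟨_, ⟨w, ball_subset_closedBall hw, rfl⟩, by
        rw [dist_comm]; exact hk w (ball_subset_closedBall hw)⟩
    have hT : IsPreconnected T := (convex_ball _ _).isPreconnected.image _
      ((Ω.diff_back _).continuousOn.mono (ball_subset_closedBall.trans hBU))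
    refine hT.subset_of_closure_inter_subset hU' ⟨z (L.φ k), ⟨_, hkc,
      Ω.back_act _ _ (hU'sub (hz _)).1⟩, hz _⟩ (fun w hw => hclosed ⟨hw.1, hTsub hw.2⟩)
      (mem_image_of_mem _ hy)
  -- hence the extension inverts the limit near the base point
  have hinv : ∀ y ∈ ball L.c e, Hl (L.lim y) = y := by
    intro y hy
    have hyU := hBU (ball_subset_closedBall hy)
    have hyN : L.lim y ∈ N := hδ₁N (ball_subset_ball heδ₁.le hy)
    have h1 : Tendsto (fun k => Ω.back (L.g (φ k)) y) atTop (𝓝 (L.lim y)) :=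
      (L.tendsto_lim.tendsto_at hyU).comp hφ.tendsto_atTop
    refine tendsto_nhds_unique (hHll.tendsto_comp (hHld.continuousOn _ hyN) hyN
      (tendsto_nhdsWithin_iff.2 ⟨h1, h1.eventually_mem (hN.mem_nhds hyN)⟩)) ?_
    refine (tendsto_const_nhds (x := y)).congr' ?_
    filter_upwards [hφ.tendsto_atTop.eventually hkey] with k hk
    rw [hHe _ (hk y hy), Ω.act_back _ _ hyU]
  have hG := ((L.diff_lim L.c L.c_mem).differentiableAt (Ω.isOpen_U.mem_nhds L.c_mem))
  have hH := ((hHld (L.lim L.c) (by rw [L.lim_c]; exact hqN)).differentiableAt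
    (hN.mem_nhds (by rw [L.lim_c]; exact hqN)))
  have hcomp : (fderiv ℂ Hl (L.lim L.c)).comp (fderiv ℂ L.lim L.c) = ContinuousLinearMap.id ℂ C2 :=
    (hH.hasFDerivAt.comp L.c hG.hasFDerivAt).unique
      ((hasFDerivAt_id L.c).congr_of_eventuallyEq
        (eventually_of_mem (ball_mem_nhds _ he) hinv))
  have hinj : Injective (fderiv ℂ L.lim L.c) := fun v w hvw => by
    have := DFunLike.congr_fun hcomp v
    have h2 := DFunLike.congr_fun hcomp w
    simp only [ContinuousLinearMap.comp_apply, ContinuousLinearMap.id_apply] at this h2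
    rw [← this, ← h2, hvw]
  have hsurj : (fderiv ℂ L.lim L.c).range = ⊤ :=
    LinearMap.range_eq_top.2 ((LinearMap.injective_iff_surjective
      (f := (fderiv ℂ L.lim L.c : C2 →ₗ[ℂ] C2))).1 hinj)
  have hstrict : HasStrictFDerivAt L.lim (fderiv ℂ L.lim L.c) L.c :=
    hasStrictFDerivAt Ω.isOpen_U L.diff_lim L.c_mem
  have hmap : map L.lim (𝓝 L.c) = 𝓝 q := by
    rw [hstrict.map_nhds_eq_of_surj hsurj, L.lim_c]
  have hmem : frontier Ω.U ∈ 𝓝 q := by
    rw [← hmap]
    exact mem_map.2 (mem_of_superset (Ω.isOpen_U.mem_nhds L.c_mem) L.maps_lim)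
  have hint : q ∈ interior (frontier Ω.U) := mem_interior_iff_mem_nhds.2 hmem
  rw [← frontier_compl, interior_frontier Ω.isOpen_U.isClosed_compl] at hint
  exact hint

end

end Vale.Agent.P274.Surface
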